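import Vale.Agent.P205.Full.Wiener

/-!
Smooth periodic functions are rapidly convergent trigonometric series.
-/

open scoped ContDiff
open Complex MeasureTheory

namespace Vale.Agent.P205.Full

/-- One dimensional character. -/
noncomputable def ch1 (n : ℤ) (t : ℝ) : ℂ := exp ((2 * Real.pi * ((n : ℝ) * t) : ℝ) * I)

theorem norm_ch1 (n : ℤ) (t : ℝ) : ‖ch1 n t‖ = 1 := norm_exp_ofReal_mul_I _

theorem continuous_ch1 (n : ℤ) : Continuous (ch1 n) := by unfold ch1; fun_prop

theorem ch_eq (k : Z2) (x y : ℝ) : ch k (x, y) = ch1 k.1 x * ch1 k.2 y := by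
  rw [ch, ch1, ch1, ← exp_add]; congr 1; push_cast; ring

/-- Coefficient of a periodic function on the square. -/
noncomputable def sqCoef (g : Pl → ℂ) (k : Z2) : ℂ :=
  ∫ y in (0 : ℝ)..1, ch1 (-k.2) y * ∫ x in (0 : ℝ)..1, ch1 (-k.1) x * g (x, y)

theorem hasDerivAt_ch1 (n : ℤ) (t : ℝ) :
    HasDerivAt (ch1 n) (((2 * Real.pi * (n : ℝ) : ℝ) : ℂ) * I * ch1 n t) t := by
  have h : HasDerivAt (fun s : ℝ => ((2 * Real.pi * ((n : ℝ) * s) : ℝ) : ℂ) * I)
      (((2 * Real.pi * (n : ℝ) : ℝ) : ℂ) * I) t := by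
    have := ((hasDerivAt_id t).const_mul (n : ℝ)).const_mul (2 * Real.pi)
    simpa using (this.ofReal_comp).mul_const I
  refine h.cexp.congr_deriv ?_
  rw [ch1]; ring

theorem ch1_zero' (n : ℤ) : ch1 n 0 = 1 := by simp [ch1]

theorem ch1_one (n : ℤ) : ch1 n 1 = 1 := by
  rw [ch1, ← exp_int_mul_two_pi_mul_I n]; congr 1; push_cast; ring

/-- Integration by parts on a period. -/
theorem coef1_deriv {h h' : ℝ → ℂ} (hd : ∀ t, HasDerivAt h (h' t) t) (hc : Continuous h')
    (hp : h 1 = h 0) (n : ℤ) :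
    ∫ t in (0 : ℝ)..1, ch1 (-n) t * h' t
      = ((2 * Real.pi * (n : ℝ) : ℝ) : ℂ) * I * ∫ t in (0 : ℝ)..1, ch1 (-n) t * h t := by
  have hh : Continuous h := continuous_iff_continuousAt.2 fun t => (hd t).continuousAt
  rw [intervalIntegral.integral_mul_deriv_eq_deriv_mul (fun t _ => hasDerivAt_ch1 (-n) t)
    (fun t _ => hd t) ((continuous_const.mul (continuous_ch1 _)).intervalIntegrable _ _)
    (hc.intervalIntegrable _ _), ← intervalIntegral.integral_const_mul, ch1_one, ch1_zero', hp,
    sub_self, zero_sub, ← intervalIntegral.integral_neg]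
  refine intervalIntegral.integral_congr fun t _ => ?_
  push_cast
  ring

theorem continuous_inner_coef {g : Pl → ℂ} (hg : Continuous g) (n : ℤ) :
    Continuous fun y : ℝ => ∫ x in (0 : ℝ)..1, ch1 (-n) x * g (x, y) :=
  intervalIntegral.continuous_parametric_intervalIntegral_of_continuous'
    (f := fun (y : ℝ) (x : ℝ) => ch1 (-n) x * g (x, y))
    (((continuous_ch1 _).comp continuous_snd).mul
      (hg.comp (continuous_snd.prodMk continuous_fst))) 0 1

theorem swap_coef {g : Pl → ℂ} (hg : Continuous g) (k : Z2) :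
    sqCoef g k
      = ∫ x in (0 : ℝ)..1, ch1 (-k.1) x * ∫ y in (0 : ℝ)..1, ch1 (-k.2) y * g (x, y) := by
  simp only [sqCoef, ← intervalIntegral.integral_const_mul]
  rw [MeasureTheory.intervalIntegral_intervalIntegral_swap]
  · refine intervalIntegral.integral_congr fun x _ => intervalIntegral.integral_congr fun y _ => ?_
    ring
  · have hc : Continuous fun p : ℝ × ℝ => ch1 (-k.2) p.1 * (ch1 (-k.1) p.2 * g (p.2, p.1)) :=
      ((continuous_ch1 _).comp continuous_fst).mul (((continuous_ch1 _).comp continuous_snd).mul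
        (hg.comp (continuous_snd.prodMk continuous_fst)))
    exact hc.continuousOn.integrableOn_compact (isCompact_uIcc.prod isCompact_uIcc)
      |>.mono_set (Set.prod_mono Set.uIoc_subset_uIcc Set.uIoc_subset_uIcc)

theorem per_at {α : Type*} {g : Pl → α} (hg : IsPer g) (x y : ℝ) :
    g (x + 1, y) = g (x, y) ∧ g (x, y + 1) = g (x, y) := by
  constructor
  · simpa [e1] using hg.add1 (x, y)
  · simpa [e2] using hg.add2 (x, y)

theorem SP.der' {g : Pl → ℂ} (hg : SP g) (η : Pl) : SP (der η g) := by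
  refine ⟨(hg.smooth.fderiv_right (by simp)).clm_apply contDiff_const, ⟨fun x => ?_, fun x => ?_⟩⟩
  · have h : (fun y => g (y + e1)) = g := funext hg.per.add1
    have := fderiv_comp_add_right (𝕜 := ℝ) (f := g) (x := x) e1
    rw [h] at this
    simp only [der, this]
  · have h : (fun y => g (y + e2)) = g := funext hg.per.add2
    have := fderiv_comp_add_right (𝕜 := ℝ) (f := g) (x := x) e2
    rw [h] at this
    simp only [der, this]

theorem SP.hasFDerivAt {g : Pl → ℂ} (hg : SP g) (x : Pl) : HasFDerivAt g (fderiv ℝ g x) x :=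
  ((hg.smooth.differentiable (by simp)) x).hasFDerivAt

theorem sqCoef_der1 {g : Pl → ℂ} (hg : SP g) (k : Z2) :
    sqCoef (der e1 g) k = ((2 * Real.pi * (k.1 : ℝ) : ℝ) : ℂ) * I * sqCoef g k := by
  have hc : Continuous (der e1 g) := (hg.der' e1).smooth.continuous
  simp only [sqCoef]
  rw [← intervalIntegral.integral_const_mul]
  refine intervalIntegral.integral_congr fun y _ => ?_
  rw [coef1_deriv (h := fun t => g (t, y)) (h' := fun t => der e1 g (t, y))
    (fun t => (hg.hasFDerivAt (t, y)).comp_hasDerivAt t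
      ((hasDerivAt_id t).prodMk (hasDerivAt_const t y)))
    (hc.comp (continuous_id.prodMk continuous_const))
    (by simpa using (per_at hg.per 0 y).1)]
  ring

theorem sqCoef_der2 {g : Pl → ℂ} (hg : SP g) (k : Z2) :
    sqCoef (der e2 g) k = ((2 * Real.pi * (k.2 : ℝ) : ℝ) : ℂ) * I * sqCoef g k := by
  have hc : Continuous (der e2 g) := (hg.der' e2).smooth.continuous
  rw [swap_coef hc, swap_coef hg.smooth.continuous, ← intervalIntegral.integral_const_mul]
  refine intervalIntegral.integral_congr fun x _ => ?_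
  rw [coef1_deriv (h := fun t => g (x, t)) (h' := fun t => der e2 g (x, t))
    (fun t => (hg.hasFDerivAt (x, t)).comp_hasDerivAt t
      ((hasDerivAt_const t x).prodMk (hasDerivAt_id t)))
    (hc.comp (continuous_const.prodMk continuous_id))
    (by simpa using (per_at hg.per x 0).2)]
  ring

theorem norm_sqCoef_le {g : Pl → ℂ} {B : ℝ} (hB : ∀ x, ‖g x‖ ≤ B) (k : Z2) :
    ‖sqCoef g k‖ ≤ B := by
  refine (intervalIntegral.norm_integral_le_of_norm_le_const (C := B) fun y _ => ?_).trans (by simp)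
  rw [norm_mul, norm_ch1, one_mul]
  refine (intervalIntegral.norm_integral_le_of_norm_le_const (C := B) fun x _ => ?_).trans (by simp)
  rw [norm_mul, norm_ch1, one_mul]
  exact hB _

theorem exists_bound_per {g : Pl → ℂ} (hc : Continuous g) (hp : IsPer g) :
    ∃ B : ℝ, ∀ x, ‖g x‖ ≤ B := by
  obtain ⟨B, hB⟩ := (isCompact_Icc (a := ((0 : ℝ), (0 : ℝ))) (b := (1, 1))).exists_bound_of_continuousOn
    hc.continuousOn
  refine ⟨B, fun x => ?_⟩
  have h1 : Function.Periodic (fun t => g (t, x.2)) 1 := fun t => (per_at hp t x.2).1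
  have h2 : ∀ s, Function.Periodic (fun t => g (s, t)) 1 := fun s t => (per_at hp s t).2
  have hx : g x = g (Int.fract x.1, Int.fract x.2) := by
    have a1 := h1.sub_int_mul_eq ⌊x.1⌋ (x := x.1)
    have a2 := (h2 (Int.fract x.1)).sub_int_mul_eq ⌊x.2⌋ (x := x.2)
    simp only [mul_one, Int.self_sub_floor] at a1 a2
    rw [a2, a1]
  rw [hx]
  exact hB _ ⟨⟨Int.fract_nonneg _, Int.fract_nonneg _⟩,
    ⟨(Int.fract_lt_one _).le, (Int.fract_lt_one _).le⟩⟩

theorem sqCoef_decay {g : Pl → ℂ} (hg : SP g) (n : ℕ) :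
    ∃ B : ℝ, ∀ k : Z2, |(k.1 : ℝ)| ^ n * ‖sqCoef g k‖ ≤ B ∧
      |(k.2 : ℝ)| ^ n * ‖sqCoef g k‖ ≤ B := by
  induction n generalizing g with
  | zero =>
    obtain ⟨B, hB⟩ := exists_bound_per hg.smooth.continuous hg.per
    exact ⟨B, fun k => by simp [norm_sqCoef_le hB k]⟩
  | succ n ih =>
    obtain ⟨B1, hB1⟩ := ih (hg.der' e1)
    obtain ⟨B2, hB2⟩ := ih (hg.der' e2)
    have hpi : 1 ≤ 2 * Real.pi := by linarith [Real.pi_gt_three]
    refine ⟨max B1 B2, fun k => ⟨?_, ?_⟩⟩
    · refine le_trans ?_ ((hB1 k).1.trans (le_max_left _ _))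
      rw [sqCoef_der1 hg, norm_mul, norm_mul, norm_I, norm_real, Real.norm_eq_abs, abs_mul,
        abs_of_pos (by positivity : (0 : ℝ) < 2 * Real.pi), pow_succ]
      have : 0 ≤ |(k.1 : ℝ)| ^ n * |(k.1 : ℝ)| * ‖sqCoef g k‖ := by positivity
      nlinarith
    · refine le_trans ?_ ((hB2 k).2.trans (le_max_right _ _))
      rw [sqCoef_der2 hg, norm_mul, norm_mul, norm_I, norm_real, Real.norm_eq_abs, abs_mul,
        abs_of_pos (by positivity : (0 : ℝ) < 2 * Real.pi), pow_succ]
      have : 0 ≤ |(k.2 : ℝ)| ^ n * |(k.2 : ℝ)| * ‖sqCoef g k‖ := by positivity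
      nlinarith

theorem summable_inv_wt : Summable fun k : Z2 => (wt k ^ 4)⁻¹ := by
  have h1 : Summable fun n : ℤ => ((1 + |(n : ℝ)|) ^ 2)⁻¹ := by
    refine Summable.of_norm_bounded_eventually (Real.summable_one_div_int_pow.2 one_lt_two) ?_
    filter_upwards [(Set.finite_singleton (0 : ℤ)).compl_mem_cofinite] with n hn
    have hn' : (n : ℝ) ≠ 0 := by exact_mod_cast hn
    rw [Real.norm_eq_abs, abs_of_nonneg (by positivity), one_div]
    refine inv_anti₀ (lt_of_le_of_ne (sq_nonneg _) (Ne.symm (pow_ne_zero 2 hn'))) ?_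
    nlinarith [sq_abs (n : ℝ), abs_nonneg (n : ℝ)]
  refine Summable.of_nonneg_of_le (fun k => inv_nonneg.2 (pow_nonneg (wt_nonneg k) 4)) (fun k => ?_)
    (Summable.mul_of_nonneg h1 h1 (fun n => by positivity) (fun n => by positivity))
  rw [← mul_inv]
  have ha := abs_nonneg (k.1 : ℝ)
  have hb := abs_nonneg (k.2 : ℝ)
  refine inv_anti₀ (by positivity) ?_
  rw [← mul_pow, show (4 : ℕ) = 2 * 2 from rfl, pow_mul]
  refine pow_le_pow_left₀ (by positivity) ?_ 2
  rw [wt]; nlinarith

theorem mem_sqCoef {g : Pl → ℂ} (hg : SP g) (m : ℕ) : Mem m (sqCoef g) := by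
  obtain ⟨B, hB⟩ := sqCoef_decay hg (m + 4)
  obtain ⟨B0, hB0⟩ := exists_bound_per hg.smooth.continuous hg.per
  refine Summable.of_nonneg_of_le (wt_pow_mul_nonneg m _) (fun k => ?_)
    (summable_inv_wt.mul_left (3 ^ (m + 4) * (|B0| + 2 * |B|)))
  have hw := wt_pos k
  rw [le_mul_inv_iff₀ (pow_pos hw 4), mul_right_comm, ← pow_add]
  have h0 : ‖sqCoef g k‖ ≤ |B0| := (norm_sqCoef_le hB0 k).trans (le_abs_self _)
  have hp : wt k ^ (m + 4) ≤
      3 ^ (m + 4) * (1 + |(k.1 : ℝ)| ^ (m + 4) + |(k.2 : ℝ)| ^ (m + 4)) := by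
    rcases le_total |(k.1 : ℝ)| 1 with h1 | h1 <;> rcases le_total |(k.2 : ℝ)| 1 with h2 | h2 <;>
      rcases le_total |(k.1 : ℝ)| |(k.2 : ℝ)| with h3 | h3
    all_goals
      have ha : (0 : ℝ) ≤ |(k.1 : ℝ)| ^ (m + 4) := by positivity
      have hb : (0 : ℝ) ≤ |(k.2 : ℝ)| ^ (m + 4) := by positivity
      have hw1 : wt k ≤ 3 * max 1 (max |(k.1 : ℝ)| |(k.2 : ℝ)|) := by
        rw [wt]
        linarith [le_max_left (1 : ℝ) (max |(k.1 : ℝ)| |(k.2 : ℝ)|),
          (le_max_left |(k.1 : ℝ)| |(k.2 : ℝ)|).trans (le_max_right 1 _),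
          (le_max_right |(k.1 : ℝ)| |(k.2 : ℝ)|).trans (le_max_right 1 _)]
      refine (pow_le_pow_left₀ hw.le hw1 _).trans ?_
      rw [mul_pow]
      refine mul_le_mul_of_nonneg_left ?_ (by positivity)
      simp only [max_eq_left, max_eq_right, h1, h2, h3]
      first
        | (rw [one_pow]; linarith)
        | linarith
  have hn := norm_nonneg (sqCoef g k)
  calc wt k ^ (m + 4) * ‖sqCoef g k‖
      ≤ 3 ^ (m + 4) * (1 + |(k.1 : ℝ)| ^ (m + 4) + |(k.2 : ℝ)| ^ (m + 4)) * ‖sqCoef g k‖ :=
        mul_le_mul_of_nonneg_right hp hn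
    _ ≤ 3 ^ (m + 4) * (|B0| + 2 * |B|) := by
        rw [mul_assoc]
        refine mul_le_mul_of_nonneg_left ?_ (by positivity)
        linarith [(hB k).1, (hB k).2, le_abs_self B]

/-- A periodic continuous function on the line with vanishing coefficients vanishes. -/
theorem eq_zero_of_coef1 {h : ℝ → ℂ} (hc : Continuous h) (hp : Function.Periodic h 1)
    (hz : ∀ n : ℤ, ∫ t in (0 : ℝ)..1, ch1 (-n) t * h t = 0) (t : ℝ) : h t = 0 := by
  have : Fact ((0 : ℝ) < 1) := ⟨one_pos⟩
  let f : C(AddCircle (1 : ℝ), ℂ) := ⟨hp.lift, hc.quotient_lift _⟩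
  have h0 : ∀ n, fourierCoeff (⇑f) n = 0 := by
    intro n
    rw [fourierCoeff_eq_intervalIntegral (⇑f) n 0, zero_add, ← hz n, one_div_one, one_smul]
    refine intervalIntegral.integral_congr fun s _ => ?_
    simp only [smul_eq_mul, f, ContinuousMap.coe_mk, Function.Periodic.lift_coe]
    congr 1
    rw [fourier_coe_apply, ch1]
    congr 1
    push_cast
    ring
  have := has_pointwise_sum_fourier_series_of_summable (f := f)
    (by simp [funext h0, summable_zero]) (t : AddCircle (1 : ℝ))
  simp only [h0, zero_smul, f, ContinuousMap.coe_mk, Function.Periodic.lift_coe] at this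
  exact (this.unique hasSum_zero)

theorem sqCoef_ev {c : Coef} (hc : Mem 0 c) (k : Z2) : sqCoef (ev c) k = c k := by
  have horth : ∀ n j : ℤ, ∫ t in (0 : ℝ)..1, ch1 (-n) t * ch1 j t = if j = n then 1 else 0 := by
    intro n j
    have he : ∀ t, ch1 (-n) t * ch1 j t = ch1 (j - n) t := by
      intro t; rw [ch1, ch1, ch1, ← exp_add]; congr 1; push_cast; ring
    simp only [he]
    split_ifs with h
    · simp [h, ch1]
    · have hne : ((2 * Real.pi * ((j - n : ℤ) : ℝ) : ℝ) : ℂ) * I ≠ 0 :=
        mul_ne_zero (Complex.ofReal_ne_zero.2 (mul_ne_zero (by positivity)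
          (Int.cast_ne_zero.2 (sub_ne_zero.2 h)))) I_ne_zero
      have hi := intervalIntegral.integral_eq_sub_of_hasDerivAt
        (fun t _ => hasDerivAt_ch1 (j - n) t)
        (((continuous_const.mul (continuous_ch1 _)).intervalIntegrable (0 : ℝ) 1))
      rw [intervalIntegral.integral_const_mul, ch1_one, ch1_zero', sub_self] at hi
      exact (mul_eq_zero.1 hi).resolve_left hne
  have hin : ∀ y : ℝ, HasSum (fun l : Z2 => c l * ch1 l.2 y * if l.1 = k.1 then 1 else 0)
      (∫ x in (0 : ℝ)..1, ch1 (-k.1) x * ev c (x, y)) := by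
    intro y
    have h := intervalIntegral.hasSum_integral_of_dominated_convergence
      (F := fun (l : Z2) (x : ℝ) => ch1 (-k.1) x * (c l * ch l (x, y)))
      (f := fun x => ch1 (-k.1) x * ev c (x, y)) (a := (0 : ℝ)) (b := 1) (μ := volume)
      (fun l _ => ‖c l‖)
      (fun l => ((continuous_ch1 _).mul (continuous_const.mul ((continuous_ch l).comp
        (continuous_id.prodMk continuous_const)))).aestronglyMeasurable)
      (fun l => Filter.Eventually.of_forall fun x _ => by
        rw [norm_mul, norm_ch1, norm_mul, norm_ch, one_mul, mul_one])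
      (Filter.Eventually.of_forall fun x _ => hc.summable_norm)
      intervalIntegrable_const
      (Filter.Eventually.of_forall fun x _ => (summable_ev hc (x, y)).hasSum.mul_left _)
    refine h.congr_fun fun l => ?_
    rw [← horth k.1 l.1, ← intervalIntegral.integral_const_mul]
    refine intervalIntegral.integral_congr fun x _ => ?_
    rw [ch_eq]; ring
  have hout := intervalIntegral.hasSum_integral_of_dominated_convergence
      (F := fun (l : Z2) (y : ℝ) => ch1 (-k.2) y * (c l * ch1 l.2 y * if l.1 = k.1 then 1 else 0))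
      (f := fun y => ch1 (-k.2) y * ∫ x in (0 : ℝ)..1, ch1 (-k.1) x * ev c (x, y))
      (a := (0 : ℝ)) (b := 1) (μ := volume)
      (fun l _ => ‖c l‖)
      (fun l => ((continuous_ch1 _).mul ((continuous_const.mul (continuous_ch1 _)).mul
        continuous_const)).aestronglyMeasurable)
      (fun l => Filter.Eventually.of_forall fun y _ => by
        split_ifs <;> simp [norm_ch1])
      (Filter.Eventually.of_forall fun y _ => hc.summable_norm)
      intervalIntegrable_const
      (Filter.Eventually.of_forall fun y _ => (hin y).mul_left _)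
  rw [sqCoef, ← hout.tsum_eq, tsum_eq_single k ?_]
  · rw [intervalIntegral.integral_congr (g := fun y => c k * (ch1 (-k.2) y * ch1 k.2 y))
      (fun y _ => by simp; ring), intervalIntegral.integral_const_mul, horth]
    simp
  · intro l hl
    by_cases h1 : l.1 = k.1
    · have h2 : l.2 ≠ k.2 := fun h2 => hl (Prod.ext h1 h2)
      rw [intervalIntegral.integral_congr (g := fun y => c l * (ch1 (-k.2) y * ch1 l.2 y))
        (fun y _ => by simp [h1]; ring), intervalIntegral.integral_const_mul, horth]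
      simp [h2]
    · simp [h1]

theorem ev_sqCoef {g : Pl → ℂ} (hg : SP g) (x : Pl) : ev (sqCoef g) x = g x := by
  set c := sqCoef g with hc
  have hm : Mem 0 c := mem_sqCoef hg 0
  set d : Pl → ℂ := fun z => g z - ev c z with hd
  have hdc : Continuous d := hg.smooth.continuous.sub (continuous_ev hm)
  have hdp : IsPer d := ⟨fun z => by simp [hd, hg.per.add1, (isPer_ev c).add1],
    fun z => by simp [hd, hg.per.add2, (isPer_ev c).add2]⟩
  have hz : ∀ k, sqCoef d k = 0 := by
    intro k
    have h1 : sqCoef d k = sqCoef g k - sqCoef (ev c) k := by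
      simp only [sqCoef, hd]
      rw [← intervalIntegral.integral_sub]
      · refine intervalIntegral.integral_congr fun y _ => ?_
        rw [← mul_sub, ← intervalIntegral.integral_sub]
        · congr 1
          exact intervalIntegral.integral_congr fun x _ => by ring
        · exact ((continuous_ch1 _).mul (hg.smooth.continuous.comp
            (continuous_id.prodMk continuous_const))).intervalIntegrable _ _
        · exact ((continuous_ch1 _).mul ((continuous_ev hm).comp
            (continuous_id.prodMk continuous_const))).intervalIntegrable _ _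
      · exact ((continuous_ch1 _).mul
          (continuous_inner_coef hg.smooth.continuous _)).intervalIntegrable _ _
      · exact ((continuous_ch1 _).mul
          (continuous_inner_coef (continuous_ev hm) _)).intervalIntegrable _ _
    rw [h1, sqCoef_ev hm, hc, sub_self]
  have h2 : ∀ (n : ℤ) (y : ℝ), ∫ x in (0 : ℝ)..1, ch1 (-n) x * d (x, y) = 0 := by
    intro n
    refine eq_zero_of_coef1 (continuous_inner_coef hdc n) (fun y => ?_) fun j => hz (n, j)
    exact intervalIntegral.integral_congr fun x _ => by rw [(per_at hdp x y).2]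
  have h3 := eq_zero_of_coef1 (h := fun t => d (t, x.2))
    (hdc.comp (continuous_id.prodMk continuous_const)) (fun t => (per_at hdp t x.2).1)
    (fun n => h2 n x.2) x.1
  simp only [hd, sub_eq_zero] at h3
  exact h3.symm

theorem conj_intervalIntegral (f : ℝ → ℂ) (a b : ℝ) :
    (starRingEnd ℂ) (∫ t in a..b, f t) = ∫ t in a..b, (starRingEnd ℂ) (f t) := by
  simp only [intervalIntegral, map_sub, integral_conj]

/-- A smooth periodic function is the sum of a rapidly decreasing trigonometric series. -/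
theorem exists_coef {f : Pl → ℝ} (hf : SP f) :
    ∃ c : Coef, Sym c ∧ (∀ m, Mem m c) ∧ ∀ x, ev c x = (f x : ℂ) := by
  have hg : SP fun x => (f x : ℂ) :=
    ⟨Complex.ofRealCLM.contDiff.comp hf.smooth,
      ⟨fun x => by rw [hf.per.add1], fun x => by rw [hf.per.add2]⟩⟩
  refine ⟨sqCoef fun x => (f x : ℂ), fun k => ?_, mem_sqCoef hg, ev_sqCoef hg⟩
  simp only [sqCoef, Prod.fst_neg, Prod.snd_neg, neg_neg]
  have hc : ∀ n t, (starRingEnd ℂ) (ch1 n t) = ch1 (-n) t := by
    intro n t; rw [ch1, ch1, ← exp_conj]; congr 1; simp [map_ofNat]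
  rw [conj_intervalIntegral]
  refine intervalIntegral.integral_congr fun y _ => ?_
  rw [map_mul, hc, neg_neg, conj_intervalIntegral]
  congr 1
  refine intervalIntegral.integral_congr fun x _ => ?_
  rw [map_mul, hc, neg_neg, Complex.conj_ofReal]

end Vale.Agent.P205.Full
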