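import Mathlib

/-!
Basic definitions for smooth doubly periodic functions on the plane (period one).
-/

open scoped ContDiff
open Complex

namespace Vale.Agent.P205.Full

/-- The parameter plane of the torus. -/
abbrev Pl : Type := ℝ × ℝ

/-- First period. -/
def e1 : Pl := (1, 0)
/-- Second period. -/
def e2 : Pl := (0, 1)

/-- Invariance under translations by the standard lattice. -/
structure IsPer {α : Type*} (f : Pl → α) : Prop where
  add1 : ∀ x, f (x + e1) = f x
  add2 : ∀ x, f (x + e2) = f x

/-- Smooth periodic functions. -/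
structure SP {α : Type*} [NormedAddCommGroup α] [NormedSpace ℝ α] (f : Pl → α) : Prop where
  smooth : ContDiff ℝ ∞ f
  per : IsPer f

/-- Derivative in a fixed direction. -/
noncomputable def der {α : Type*} [NormedAddCommGroup α] [NormedSpace ℝ α]
    (η : Pl) (f : Pl → α) : Pl → α := fun x => fderiv ℝ f x η

/-- A periodic coframe `p dx + q dy` (complex valued) with flat connection `a dx + b dy`. -/
structure FlatCoframe (p q : Pl → ℂ) (a b : Pl → ℝ) : Prop where
  sp : SP p
  sq : SP q
  sa : SP a
  sb : SP b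
  pos : ∀ x, 0 < ((starRingEnd ℂ) (p x) * q x).im
  str : ∀ x, der e1 q x - der e2 p x = I * ((a x : ℂ) * q x - (b x : ℂ) * p x)
  flat : ∀ x, der e1 b x = der e2 a x

/-- The angle: line integral of the connection along the segment from the origin. -/
noncomputable def phase (a b : Pl → ℝ) (x : Pl) : ℝ :=
  ∫ s in (0 : ℝ)..1, (x.1 * a (s • x) + x.2 * b (s • x))

/-- The developing map of a flat coframe. -/
noncomputable def dev (p q : Pl → ℂ) (a b : Pl → ℝ) (x : Pl) : ℂ :=
  ∫ s in (0 : ℝ)..1,
    exp (-((phase a b (s • x) : ℂ) * I)) * ((x.1 : ℂ) * p (s • x) + (x.2 : ℂ) * q (s • x))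

/-- Frequencies. -/
abbrev Z2 : Type := ℤ × ℤ

/-- Coefficient families of trigonometric series. -/
abbrev Coef : Type := Z2 → ℂ

/-- Submultiplicative weight. -/
def wt (k : Z2) : ℝ := 1 + |(k.1 : ℝ)| + |(k.2 : ℝ)|

/-- Weighted absolute summability. -/
def Mem (m : ℕ) (c : Coef) : Prop := Summable fun k => wt k ^ m * ‖c k‖

/-- Weighted absolute sum. -/
noncomputable def nrm (m : ℕ) (c : Coef) : ℝ := ∑' k, wt k ^ m * ‖c k‖

/-- Reality condition. -/
def Sym (c : Coef) : Prop := ∀ k, c (-k) = (starRingEnd ℂ) (c k)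

/-- The character of frequency `k`. -/
noncomputable def ch (k : Z2) (x : Pl) : ℂ :=
  exp ((2 * Real.pi * ((k.1 : ℝ) * x.1 + (k.2 : ℝ) * x.2) : ℝ) * I)

/-- Sum of the trigonometric series. -/
noncomputable def ev (c : Coef) (x : Pl) : ℂ := ∑' k, c k * ch k x

/-- Convolution. -/
noncomputable def conv (c d : Coef) : Coef := fun k => ∑' l, c l * d (k - l)

/-- Multiplier of the derivative in direction `η`. -/
noncomputable def dsym (η : Pl) (k : Z2) : ℂ :=
  ((2 * Real.pi * ((k.1 : ℝ) * η.1 + (k.2 : ℝ) * η.2) : ℝ) : ℂ) * I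

/-- Derivative of a coefficient family. -/
noncomputable def dC (η : Pl) (c : Coef) : Coef := fun k => dsym η k * c k

end Vale.Agent.P205.Full
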