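import Vale.Agent.P205.Full.Defs

/-!
Developing map of a flat periodic coframe.
-/

open scoped ContDiff
open Complex

namespace Vale.Agent.P205.Full

namespace Develop

section line

variable {F : Type*} [NormedAddCommGroup F] [NormedSpace ℝ F]

/-- The one-form `A dx + B dy`. -/
noncomputable def cof (A B : Pl → F) (x : Pl) : Pl →L[ℝ] F :=
  (ContinuousLinearMap.fst ℝ ℝ ℝ).smulRight (A x) + (ContinuousLinearMap.snd ℝ ℝ ℝ).smulRight (B x)

/-- Line integral of `A dx + B dy` along the segment from the origin. -/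
noncomputable def line (A B : Pl → F) (x : Pl) : F :=
  ∫ s in (0 : ℝ)..1, (x.1 • A (s • x) + x.2 • B (s • x))

theorem cof_apply (A B : Pl → F) (x v : Pl) : cof A B x v = v.1 • A x + v.2 • B x := by
  simp [cof]

theorem cof_eq (A B : Pl → F) :
    cof A B = fun x =>
      ContinuousLinearMap.smulRightL ℝ Pl F (ContinuousLinearMap.fst ℝ ℝ ℝ) (A x) +
        ContinuousLinearMap.smulRightL ℝ Pl F (ContinuousLinearMap.snd ℝ ℝ ℝ) (B x) := by
  funext x
  rfl

theorem contDiff_cof {n : ℕ∞ω} {A B : Pl → F} (hA : ContDiff ℝ n A) (hB : ContDiff ℝ n B) :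
    ContDiff ℝ n (cof A B) := by
  rw [cof_eq]
  exact (((ContinuousLinearMap.smulRightL ℝ Pl F _).contDiff).comp hA).add
    (((ContinuousLinearMap.smulRightL ℝ Pl F _).contDiff).comp hB)

theorem line_zero (A B : Pl → F) : line A B 0 = 0 := by
  simp [line]

theorem hasFDerivAt_line [CompleteSpace F] {A B : Pl → F} (hA : ContDiff ℝ ∞ A)
    (hB : ContDiff ℝ ∞ B) (hc : ∀ x, der e1 B x = der e2 A x) (x : Pl) :
    HasFDerivAt (line A B) (cof A B x) x := by
  have hsym : ∀ z u v, fderiv ℝ (cof A B) z u v = fderiv ℝ (cof A B) z v u := by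
    intro z u v
    have h1 := ((ContinuousLinearMap.smulRightL ℝ Pl F
      (ContinuousLinearMap.fst ℝ ℝ ℝ)).hasFDerivAt).comp z
        ((hA.differentiable (by simp)) z).hasFDerivAt
    have h2 := ((ContinuousLinearMap.smulRightL ℝ Pl F
      (ContinuousLinearMap.snd ℝ ℝ ℝ)).hasFDerivAt).comp z
        ((hB.differentiable (by simp)) z).hasFDerivAt
    have h12 := h1.add h2
    have hd : fderiv ℝ (fun w => ContinuousLinearMap.smulRightL ℝ Pl F
        (ContinuousLinearMap.fst ℝ ℝ ℝ) (A w) +
        ContinuousLinearMap.smulRightL ℝ Pl F (ContinuousLinearMap.snd ℝ ℝ ℝ) (B w)) z = _ :=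
      h12.fderiv
    rw [← cof_eq] at hd
    have dec : ∀ (T : Pl →L[ℝ] F) (w : Pl), T w = w.1 • T e1 + w.2 • T e2 := by
      intro T w
      rw [← map_smul, ← map_smul, ← map_add]
      congr 1
      ext <;> simp [e1, e2]
    rw [hd]
    simp only [add_apply, ContinuousLinearMap.comp_apply,
      ContinuousLinearMap.smulRightL_apply_apply, ContinuousLinearMap.smulRight_apply,
      ContinuousLinearMap.coe_fst', ContinuousLinearMap.coe_snd']
    rw [dec (fderiv ℝ A z) u, dec (fderiv ℝ A z) v, dec (fderiv ℝ B z) u, dec (fderiv ℝ B z) v]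
    have := hc z
    simp only [der] at this
    rw [this]
    module
  have hcs := contDiff_cof hA hB
  obtain ⟨f, hf⟩ := convex_univ.exists_forall_hasFDerivAt_of_fderiv_symmetric isOpen_univ
    (hcs.differentiable (by simp)).differentiableOn (fun z _ u v => hsym z u v)
  have key : line A B = fun y => f y - f 0 := by
    funext y
    have hd : ∀ s : ℝ, HasDerivAt (fun t : ℝ => f (t • y))
        (y.1 • A (s • y) + y.2 • B (s • y)) s := by
      intro s
      have h := (hf (s • y) trivial).comp_hasDerivAt s ((hasDerivAt_id s).smul_const y)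
      simpa [cof_apply, Function.comp_def] using h
    have hcont : Continuous fun s : ℝ => y.1 • A (s • y) + y.2 • B (s • y) := by
      have := hA.continuous
      have := hB.continuous
      fun_prop
    simpa [line] using intervalIntegral.integral_eq_sub_of_hasDerivAt (fun s _ => hd s)
      (hcont.intervalIntegrable 0 1)
  rw [key]
  exact (hf x trivial).sub_const _

theorem contDiff_line [CompleteSpace F] {A B : Pl → F} (hA : ContDiff ℝ ∞ A)
    (hB : ContDiff ℝ ∞ B) (hc : ∀ x, der e1 B x = der e2 A x) :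
    ContDiff ℝ ∞ (line A B) := by
  have h := hasFDerivAt_line hA hB hc
  rw [contDiff_infty_iff_fderiv]
  refine ⟨fun x => (h x).differentiableAt, ?_⟩
  rw [show fderiv ℝ (line A B) = cof A B from funext fun x => (h x).fderiv]
  exact contDiff_cof hA hB

end line

section periodic

/-- A continuous function invariant under the lattice attains its maximum. -/
theorem exists_isMax {g : Pl → ℝ} (hg : Continuous g) (hp : IsPer g) :
    ∃ x, ∀ y, g y ≤ g x := by
  obtain ⟨x, -, hx⟩ := ((isCompact_Icc (a := (0 : ℝ)) (b := 1)).prod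
    (isCompact_Icc (a := (0 : ℝ)) (b := 1))).exists_isMaxOn ⟨(0, 0), by simp⟩ hg.continuousOn
  refine ⟨x, fun y => ?_⟩
  have q1 : ∀ c, Function.Periodic (fun t => g (t, c)) 1 := fun c t => by
    simpa [e1] using hp.add1 (t, c)
  have q2 : ∀ c, Function.Periodic (fun t => g (c, t)) 1 := fun c t => by
    simpa [e2] using hp.add2 (c, t)
  have r1 : g (Int.fract y.1, y.2) = g (y.1, y.2) := by
    have := (q1 y.2).sub_int_mul_eq (x := y.1) ⌊y.1⌋
    rw [mul_one] at this
    exact this
  have r2 : g (Int.fract y.1, Int.fract y.2) = g (Int.fract y.1, y.2) := by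
    have := (q2 (Int.fract y.1)).sub_int_mul_eq (x := y.2) ⌊y.2⌋
    rw [mul_one] at this
    exact this
  have := hx (show (Int.fract y.1, Int.fract y.2) ∈ Set.Icc (0 : ℝ) 1 ×ˢ Set.Icc (0 : ℝ) 1 from
    ⟨⟨Int.fract_nonneg _, (Int.fract_lt_one _).le⟩, ⟨Int.fract_nonneg _, (Int.fract_lt_one _).le⟩⟩)
  simp only [Set.mem_ofPred_eq] at this
  rw [r2, r1] at this
  exact this

theorem isPer_bounded {F : Type*} [NormedAddCommGroup F] {g : Pl → F} (hg : Continuous g)
    (hp : IsPer g) : ∃ M, ∀ x, ‖g x‖ ≤ M := by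
  obtain ⟨x, hx⟩ := exists_isMax hg.norm
    ⟨fun y => by simp [hp.add1 y], fun y => by simp [hp.add2 y]⟩
  exact ⟨_, hx⟩

theorem exists_crit {g : Pl → ℝ} (hg : Continuous g) (hp : IsPer g) :
    ∃ x, (∀ y, g y ≤ g x) ∧ ∀ g' : Pl →L[ℝ] ℝ, HasFDerivAt g g' x → g' = 0 := by
  obtain ⟨x, hx⟩ := exists_isMax hg hp
  exact ⟨x, hx, fun g' h => IsLocalMax.hasFDerivAt_eq_zero (Filter.Eventually.of_forall hx) h⟩

end periodic

section dev

variable {p q : Pl → ℂ} {a b : Pl → ℝ}

theorem phase_eq (a b : Pl → ℝ) : phase a b = line a b := by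
  funext x
  simp [phase, line, smul_eq_mul]

/-- The rotation factor. -/
noncomputable def rot (a b : Pl → ℝ) (x : Pl) : ℂ := exp (-((phase a b x : ℂ) * I))

theorem norm_rot (a b : Pl → ℝ) (x : Pl) : ‖rot a b x‖ = 1 := by
  simp [rot, norm_exp]

theorem dev_eq (p q : Pl → ℂ) (a b : Pl → ℝ) :
    dev p q a b = line (fun x => rot a b x * p x) (fun x => rot a b x * q x) := by
  funext x
  simp only [dev, line, rot, real_smul]
  congr 1
  funext s
  ring

theorem hasFDerivAt_phase (h : FlatCoframe p q a b) (x : Pl) :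
    HasFDerivAt (phase a b) (cof a b x) x := by
  rw [phase_eq]
  exact hasFDerivAt_line h.sa.smooth h.sb.smooth h.flat x

theorem contDiff_phase (h : FlatCoframe p q a b) : ContDiff ℝ ∞ (phase a b) := by
  rw [phase_eq]
  exact contDiff_line h.sa.smooth h.sb.smooth h.flat

theorem contDiff_rot (h : FlatCoframe p q a b) : ContDiff ℝ ∞ (rot a b) := by
  have : ContDiff ℝ ∞ fun x => ((phase a b x : ℂ)) :=
    Complex.ofRealCLM.contDiff.comp (contDiff_phase h)
  exact (this.mul contDiff_const).neg.cexp

theorem der_rot_mul (h : FlatCoframe p q a b) {r : Pl → ℂ} (hr : ContDiff ℝ ∞ r) (η x : Pl) :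
    der η (fun y => rot a b y * r y) x =
      rot a b x * (der η r x - I * (cof a b x η : ℝ) * r x) := by
  have hr' : HasFDerivAt r (fderiv ℝ r x) x := ((hr.differentiable (by simp)) x).hasFDerivAt
  have h1 : HasFDerivAt (fun y => ((phase a b y : ℂ))) (Complex.ofRealCLM.comp (cof a b x)) x :=
    Complex.ofRealCLM.hasFDerivAt.comp x (hasFDerivAt_phase h x)
  have h2 : HasFDerivAt (rot a b) _ x := (h1.mul_const I).neg.cexp
  have h3 := (h2.mul hr').fderiv
  change fderiv ℝ (rot a b * r) x η = _
  rw [h3]
  simp [rot, der]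
  ring

theorem closed_dev (h : FlatCoframe p q a b) (x : Pl) :
    der e1 (fun y => rot a b y * q y) x = der e2 (fun y => rot a b y * p y) x := by
  rw [der_rot_mul h h.sq.smooth, der_rot_mul h h.sp.smooth]
  have := h.str x
  simp [cof_apply, e1, e2] at this ⊢
  left
  linear_combination this

/-- The derivative of the developing map. -/
noncomputable def ddev (p q : Pl → ℂ) (a b : Pl → ℝ) (x : Pl) : Pl →L[ℝ] ℂ :=
  cof (fun y => rot a b y * p y) (fun y => rot a b y * q y) x

theorem hasFDerivAt_dev (h : FlatCoframe p q a b) (x : Pl) :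
    HasFDerivAt (dev p q a b) (ddev p q a b x) x := by
  rw [dev_eq]
  exact hasFDerivAt_line ((contDiff_rot h).mul h.sp.smooth) ((contDiff_rot h).mul h.sq.smooth)
    (closed_dev h) x

theorem contDiff_dev (h : FlatCoframe p q a b) : ContDiff ℝ ∞ (dev p q a b) := by
  rw [dev_eq]
  exact contDiff_line ((contDiff_rot h).mul h.sp.smooth) ((contDiff_rot h).mul h.sq.smooth)
    (closed_dev h)

theorem dev_zero (p q : Pl → ℂ) (a b : Pl → ℝ) : dev p q a b 0 = 0 := by
  rw [dev_eq, line_zero]

theorem ddev_apply (p q : Pl → ℂ) (a b : Pl → ℝ) (x v : Pl) :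
    ddev p q a b x v = rot a b x * (v.1 • p x + v.2 • q x) := by
  simp [ddev, cof_apply]
  ring

/-- Only zero is orthogonal to the image of the derivative. -/
theorem eq_zero_of_inner (h : FlatCoframe p q a b) {x : Pl} {z : ℂ}
    (hz : ∀ v, inner ℝ z (ddev p q a b x v) = (0 : ℝ)) : z = 0 := by
  have d : ((starRingEnd ℂ) (rot a b x * p x) * (rot a b x * q x)).im
      = ((starRingEnd ℂ) (p x) * q x).im := by
    have : (starRingEnd ℂ) (rot a b x) * rot a b x = 1 := by
      rw [Complex.conj_mul', norm_rot]; simp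
    rw [map_mul, mul_mul_mul_comm, this, one_mul]
  have h1 := hz e1
  have h2 := hz e2
  have hd := (h.pos x).trans_eq d.symm
  simp only [ddev, cof_apply, e1, e2, one_smul, zero_smul, add_zero, zero_add] at h1 h2
  generalize rot a b x * p x = P at h1 hd
  generalize rot a b x * q x = Q at h2 hd
  simp [Complex.inner] at h1 h2 hd
  apply Complex.ext
  · simp
    have : z.re * (P.re * Q.im + -(P.im * Q.re)) = 0 := by linear_combination Q.im * h1 - P.im * h2
    exact (mul_eq_zero.1 this).resolve_right (by linarith)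
  · simp
    have : z.im * (P.re * Q.im + -(P.im * Q.re)) = 0 := by linear_combination P.re * h2 - Q.re * h1
    exact (mul_eq_zero.1 this).resolve_right (by linarith)

theorem ddev_injective (h : FlatCoframe p q a b) (x : Pl) :
    Function.Injective (ddev p q a b x) := by
  rw [injective_iff_map_eq_zero]
  intro v hv
  rw [ddev_apply] at hv
  have hr : rot a b x ≠ 0 := fun e => by simpa [e] using norm_rot a b x
  have hu := (mul_eq_zero.1 hv).resolve_left hr
  have hd := h.pos x
  have h1 := congrArg Complex.re hu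
  have h2 := congrArg Complex.im hu
  simp at h1 h2 hd
  apply Prod.ext
  · have : v.1 * ((p x).re * (q x).im + -((p x).im * (q x).re)) = 0 := by
      linear_combination (q x).im * h1 - (q x).re * h2
    exact (mul_eq_zero.1 this).resolve_right (by linarith)
  · have : v.2 * ((p x).re * (q x).im + -((p x).im * (q x).re)) = 0 := by
      linear_combination (p x).re * h2 - (p x).im * h1
    exact (mul_eq_zero.1 this).resolve_right (by linarith)

/-- The derivative as an equivalence. -/
noncomputable def ddevEquiv (h : FlatCoframe p q a b) (x : Pl) : Pl ≃L[ℝ] ℂ :=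
  (LinearEquiv.ofBijective (ddev p q a b x : Pl →ₗ[ℝ] ℂ) ⟨ddev_injective h x,
    (LinearMap.injective_iff_surjective_of_finrank_eq_finrank
      (by simp [Module.finrank_prod, Complex.finrank_real_complex])).1
      (ddev_injective h x)⟩).toContinuousLinearEquiv

theorem coe_ddevEquiv (h : FlatCoframe p q a b) (x : Pl) :
    (ddevEquiv h x : Pl →L[ℝ] ℂ) = ddev p q a b x := by
  ext <;> rfl

theorem rot_translate (h : FlatCoframe p q a b) {e : Pl} (ha : ∀ x, a (x + e) = a x)
    (hb : ∀ x, b (x + e) = b x) (x : Pl) : rot a b (x + e) = rot a b e * rot a b x := by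
  have hd : ∀ y, HasFDerivAt (fun z => phase a b (z + e) - phase a b z) (0 : Pl →L[ℝ] ℝ) y := by
    intro y
    have := ((hasFDerivAt_phase h (y + e)).comp y ((hasFDerivAt_id y).add_const e)).sub
      (hasFDerivAt_phase h y)
    refine this.congr_fderiv ?_
    ext <;> simp [cof, ha y, hb y]
  have h0 : phase a b 0 = 0 := by rw [phase_eq, line_zero]
  have := is_const_of_fderiv_eq_zero (fun y => (hd y).differentiableAt)
    (fun y => (hd y).fderiv) x 0
  simp only [zero_add, h0, sub_zero] at this
  simp only [rot]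
  rw [← exp_add, show phase a b (x + e) = phase a b e + phase a b x by linarith]
  push_cast
  ring_nf

theorem dev_translate (h : FlatCoframe p q a b) {e : Pl} (hp : ∀ x, p (x + e) = p x)
    (hq : ∀ x, q (x + e) = q x) (ha : ∀ x, a (x + e) = a x) (hb : ∀ x, b (x + e) = b x) (x : Pl) :
    dev p q a b (x + e) = rot a b e * dev p q a b x + dev p q a b e := by
  have hd : ∀ y, HasFDerivAt (fun z => dev p q a b (z + e) - rot a b e * dev p q a b z)
      (0 : Pl →L[ℝ] ℂ) y := by
    intro y
    have h' := ((hasFDerivAt_dev h (y + e)).comp y ((hasFDerivAt_id y).add_const e)).sub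
      ((hasFDerivAt_dev h y).const_mul (rot a b e))
    refine h'.congr_fderiv ?_
    ext <;> simp [ddev_apply, hp y, hq y, rot_translate h ha hb y] <;> ring
  have := is_const_of_fderiv_eq_zero (fun y => (hd y).differentiableAt)
    (fun y => (hd y).fderiv) x 0
  simp only [zero_add, dev_zero, mul_zero, sub_zero] at this
  linear_combination this

theorem dev_translate1 (h : FlatCoframe p q a b) (x : Pl) :
    dev p q a b (x + e1) = rot a b e1 * dev p q a b x + dev p q a b e1 :=
  dev_translate h h.sp.per.add1 h.sq.per.add1 h.sa.per.add1 h.sb.per.add1 x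

theorem dev_translate2 (h : FlatCoframe p q a b) (x : Pl) :
    dev p q a b (x + e2) = rot a b e2 * dev p q a b x + dev p q a b e2 :=
  dev_translate h h.sp.per.add2 h.sq.per.add2 h.sa.per.add2 h.sb.per.add2 x

/-- No point can be fixed by the whole holonomy. -/
theorem no_fixed (h : FlatCoframe p q a b) (c : ℂ)
    (h1 : rot a b e1 * c + dev p q a b e1 = c) (h2 : rot a b e2 * c + dev p q a b e2 = c) :
    False := by
  have hcont := (contDiff_dev h).continuous
  have hper : IsPer fun x => ‖dev p q a b x - c‖ ^ 2 := by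
    refine ⟨fun x => ?_, fun x => ?_⟩
    · rw [dev_translate1 h, show rot a b e1 * dev p q a b x + dev p q a b e1 - c =
        rot a b e1 * (dev p q a b x - c) by linear_combination h1, norm_mul, norm_rot, one_mul]
    · rw [dev_translate2 h, show rot a b e2 * dev p q a b x + dev p q a b e2 - c =
        rot a b e2 * (dev p q a b x - c) by linear_combination h2, norm_mul, norm_rot, one_mul]
  obtain ⟨x, hx, hcrit⟩ := exists_crit (by fun_prop) hper
  have hz := hcrit _ ((hasFDerivAt_dev h x).sub_const c).norm_sq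
  have h0 : dev p q a b x - c = 0 := eq_zero_of_inner h (x := x) fun v => by
    have := DFunLike.congr_fun hz v
    simp only [smul_apply, ContinuousLinearMap.comp_apply, innerSL_apply_apply,
      zero_apply] at this
    simpa using this
  have hconst : dev p q a b = fun _ => c := by
    funext y
    have := hx y
    simp [h0] at this
    exact sub_eq_zero.1 this
  have hD := hasFDerivAt_dev h x
  rw [hconst] at hD
  have := hD.unique (hasFDerivAt_const c x)
  have := ddev_injective h x (a₁ := e1) (a₂ := 0) (by simp [this])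
  simp [e1] at this

theorem rot_eq_one (h : FlatCoframe p q a b) : rot a b e1 = 1 ∧ rot a b e2 = 1 := by
  have hcomm : rot a b e2 * dev p q a b e1 + dev p q a b e2 =
      rot a b e1 * dev p q a b e2 + dev p q a b e1 := by
    rw [← dev_translate2 h e1, ← dev_translate1 h e2, add_comm e1 e2]
  by_contra hne
  by_cases h1 : rot a b e1 = 1
  · have h2 : 1 - rot a b e2 ≠ 0 := fun e => hne ⟨h1, (sub_eq_zero.1 e).symm⟩
    have t1 : dev p q a b e1 = 0 := by
      rw [h1] at hcomm
      exact (mul_eq_zero.1 (show (1 - rot a b e2) * dev p q a b e1 = 0 by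
        linear_combination -hcomm)).resolve_left h2
    refine no_fixed h (dev p q a b e2 / (1 - rot a b e2)) (by simp [h1, t1]) ?_
    field_simp
    ring
  · have h1' : 1 - rot a b e1 ≠ 0 := fun e => h1 (sub_eq_zero.1 e).symm
    refine no_fixed h (dev p q a b e1 / (1 - rot a b e1)) ?_ ?_
    · field_simp
      ring
    · field_simp
      linear_combination hcomm

theorem dev_add1 (h : FlatCoframe p q a b) (x : Pl) :
    dev p q a b (x + e1) = dev p q a b x + dev p q a b e1 := by
  rw [dev_translate1 h, (rot_eq_one h).1, one_mul]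

theorem dev_add2 (h : FlatCoframe p q a b) (x : Pl) :
    dev p q a b (x + e2) = dev p q a b x + dev p q a b e2 := by
  rw [dev_translate2 h, (rot_eq_one h).2, one_mul]

theorem periods_ne (h : FlatCoframe p q a b) :
    ((starRingEnd ℂ) (dev p q a b e1) * dev p q a b e2).im ≠ 0 := by
  intro h0
  obtain ⟨z, hz0, hz1, hz2⟩ : ∃ z : ℂ, z ≠ 0 ∧ inner ℝ z (dev p q a b e1) = (0 : ℝ) ∧
      inner ℝ z (dev p q a b e2) = (0 : ℝ) := by
    generalize dev p q a b e1 = t1 at h0
    generalize dev p q a b e2 = t2 at h0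
    by_cases ht : t1 = 0
    · by_cases ht' : t2 = 0
      · exact ⟨1, one_ne_zero, by simp [ht], by simp [ht']⟩
      · exact ⟨I * t2, mul_ne_zero I_ne_zero ht', by simp [ht],
          by simp [Complex.inner]; ring⟩
    · refine ⟨I * t1, mul_ne_zero I_ne_zero ht, by simp [Complex.inner]; ring, ?_⟩
      simp [Complex.inner] at h0 ⊢
      linarith
  have hper : IsPer fun x => inner ℝ z (dev p q a b x) :=
    ⟨fun x => by simp [dev_add1 h, inner_add_right, hz1],
      fun x => by simp [dev_add2 h, inner_add_right, hz2]⟩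
  obtain ⟨x, -, hcrit⟩ := exists_crit
    (continuous_const.inner (contDiff_dev h).continuous) hper
  have hz := hcrit _ ((hasFDerivAt_const z x).inner ℝ (hasFDerivAt_dev h x))
  exact hz0 (eq_zero_of_inner h fun v => by simpa using DFunLike.congr_fun hz v)

theorem inner_rot {u : ℂ} (h : ‖u‖ = 1) (z w : ℂ) :
    inner ℝ (u * z) (u * w) = (inner ℝ z w : ℝ) := by
  have hu : (starRingEnd ℂ) u * u = 1 := by rw [Complex.conj_mul', h]; simp
  simp only [Complex.inner, map_mul]
  rw [show u * w * ((starRingEnd ℂ) u * (starRingEnd ℂ) z) =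
    (starRingEnd ℂ) u * u * (w * (starRingEnd ℂ) z) by ring, hu, one_mul]

/-- The linear part of the developing map. -/
noncomputable def periodMap (t1 t2 : ℂ) : Pl →L[ℝ] ℂ :=
  cof (fun _ => t1) (fun _ => t2) 0

theorem tendsto_dev (h : FlatCoframe p q a b) :
    Filter.Tendsto (dev p q a b) (Filter.cocompact Pl) (Filter.cocompact ℂ) := by
  set t1 := dev p q a b e1
  set t2 := dev p q a b e2
  set L := periodMap t1 t2
  have hLapp : ∀ v, L v = v.1 • t1 + v.2 • t2 := fun v => cof_apply _ _ _ v
  have hinj : Function.Injective L := by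
    rw [injective_iff_map_eq_zero]
    intro v hv
    rw [hLapp] at hv
    have h1 := congrArg Complex.re hv
    have h2 := congrArg Complex.im hv
    have hd := periods_ne h
    simp at h1 h2 hd
    apply Prod.ext
    · have : v.1 * (t1.re * t2.im + -(t1.im * t2.re)) = 0 := by
        linear_combination t2.im * h1 - t2.re * h2
      exact (mul_eq_zero.1 this).resolve_right hd
    · have : v.2 * (t1.re * t2.im + -(t1.im * t2.re)) = 0 := by
        linear_combination t1.re * h2 - t1.im * h1
      exact (mul_eq_zero.1 this).resolve_right hd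
  obtain ⟨K, hKpos, hK⟩ := L.toLinearMap.exists_antilipschitzWith (LinearMap.ker_eq_bot.2 hinj)
  obtain ⟨M, hM⟩ := isPer_bounded ((contDiff_dev h).continuous.sub L.continuous) (g := fun x =>
      dev p q a b x - L x)
    ⟨fun x => by
        rw [dev_add1 h, map_add, hLapp e1]
        simp [e1, t1],
      fun x => by
        rw [dev_add2 h, map_add, hLapp e2]
        simp [e2, t2]⟩
  rw [← Metric.cobounded_eq_cocompact, ← Metric.cobounded_eq_cocompact,
    ← tendsto_norm_atTop_iff_cobounded]
  have hlow : ∀ x, (K : ℝ)⁻¹ * ‖x‖ - M ≤ ‖dev p q a b x‖ := by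
    intro x
    have h1 : ‖x‖ ≤ K * ‖L x‖ := by
      simpa [dist_eq_norm] using hK.le_mul_dist x 0
    have h2 : (K : ℝ)⁻¹ * ‖x‖ ≤ ‖L x‖ := by
      rw [inv_mul_le_iff₀ (by exact_mod_cast hKpos)]; exact h1
    have h3 := hM x
    have h4 := norm_le_norm_add_norm_sub (dev p q a b x) (L x)
    linarith
  refine Filter.tendsto_atTop_mono hlow (Filter.tendsto_atTop_add_const_right _ _ ?_)
  exact (tendsto_norm_cobounded_atTop).const_mul_atTop (by positivity)

theorem isCoveringMap_dev (h : FlatCoframe p q a b) : IsCoveringMap (dev p q a b) := by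
  have hcont := (contDiff_dev h).continuous
  have hproper : IsProperMap (dev p q a b) :=
    isProperMap_iff_tendsto_cocompact.2 ⟨hcont, tendsto_dev h⟩
  have hloc : IsLocalHomeomorph (dev p q a b) := by
    intro x
    have hs : HasStrictFDerivAt (dev p q a b) (ddevEquiv h x : Pl →L[ℝ] ℂ) x := by
      rw [coe_ddevEquiv]
      exact (contDiff_dev h).contDiffAt.hasStrictFDerivAt' (hasFDerivAt_dev h x) (by simp)
    exact ⟨hs.toOpenPartialHomeomorph _, hs.mem_toOpenPartialHomeomorph_source,
      (hs.toOpenPartialHomeomorph_coe).symm⟩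
  rw [isCoveringMap_iff_isCoveringMapOn_univ]
  refine hproper.isClosedMap.isCoveringMapOn_of_isLocalHomeomorphOn (fun z _ => ?_) ?_
  · refine (hproper.isCompact_preimage isCompact_singleton).finite ?_
    exact .of_openPartialHomeomorph _ subset_rfl fun e _ => by
      obtain ⟨φ, hφ, he⟩ := hloc e
      exact ⟨φ, hφ, he.symm⟩
  · simpa [← isLocalHomeomorph_iff_isLocalHomeomorphOn_univ] using hloc

end dev

end Develop

open Develop

/-- The developing map is a smooth equivariant local isometry with nondegenerate periods. -/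
theorem dev_spec {p q : Pl → ℂ} {a b : Pl → ℝ} (h : FlatCoframe p q a b) :
    ContDiff ℝ ∞ (dev p q a b) ∧
    (∀ x, dev p q a b (x + e1) = dev p q a b x + dev p q a b e1) ∧
    (∀ x, dev p q a b (x + e2) = dev p q a b x + dev p q a b e2) ∧
    ((starRingEnd ℂ) (dev p q a b e1) * dev p q a b e2).im ≠ 0 ∧
    ∀ x v w, inner ℝ (fderiv ℝ (dev p q a b) x v) (fderiv ℝ (dev p q a b) x w) =
      inner ℝ (v.1 • p x + v.2 • q x) (w.1 • p x + w.2 • q x) := by
  refine ⟨contDiff_dev h, dev_add1 h, dev_add2 h, periods_ne h, fun x v w => ?_⟩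
  rw [(hasFDerivAt_dev h x).fderiv, ddev_apply, ddev_apply, inner_rot (norm_rot a b x)]

/-- The developing map has a smooth inverse. -/
theorem dev_inverse {p q : Pl → ℂ} {a b : Pl → ℝ} (h : FlatCoframe p q a b) :
    ∃ G : ℂ → Pl, ContDiff ℝ ∞ G ∧ (∀ x, G (dev p q a b x) = x) ∧
      ∀ z, dev p q a b (G z) = z := by
  have cov := isCoveringMap_dev h
  obtain ⟨G, ⟨hG0, hG⟩, -⟩ := cov.existsUnique_continuousMap_lifts (ContinuousMap.id ℂ) 0 0
    (by simp [dev_zero])
  have hr : ∀ z, dev p q a b (G z) = z := fun z => congrFun hG z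
  have hl : ∀ x, G (dev p q a b x) = x := by
    have hc := (contDiff_dev h).continuous
    obtain ⟨Fu, -, hu⟩ := cov.existsUnique_continuousMap_lifts ⟨dev p q a b, hc⟩ 0 0 rfl
    intro x
    have e₁ := hu (G.comp ⟨dev p q a b, hc⟩)
      ⟨by simp [dev_zero, hG0], funext fun y => hr (dev p q a b y)⟩
    have e₂ := hu (ContinuousMap.id Pl) ⟨rfl, rfl⟩
    exact DFunLike.congr_fun (e₁.trans e₂.symm) x
  let Φ : Pl ≃ₜ ℂ :=
    { toFun := dev p q a b
      invFun := G
      left_inv := hl
      right_inv := hr
      continuous_toFun := (contDiff_dev h).continuous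
      continuous_invFun := G.continuous }
  refine ⟨G, ?_, hl, hr⟩
  exact Φ.contDiff_symm (f₀' := ddevEquiv h)
    (fun x => by rw [coe_ddevEquiv]; exact hasFDerivAt_dev h x) (contDiff_dev h)

/-- Continuous dependence of the developing map on parameters. -/
theorem continuousOn_dev {T : Type*} [TopologicalSpace T] {S : Set T}
    {p q : T → Pl → ℂ} {a b : T → Pl → ℝ}
    (hp : ContinuousOn (fun z : T × Pl => p z.1 z.2) (S ×ˢ Set.univ))
    (hq : ContinuousOn (fun z : T × Pl => q z.1 z.2) (S ×ˢ Set.univ))
    (ha : ContinuousOn (fun z : T × Pl => a z.1 z.2) (S ×ˢ Set.univ))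
    (hb : ContinuousOn (fun z : T × Pl => b z.1 z.2) (S ×ˢ Set.univ)) (x : Pl) :
    ContinuousOn (fun t => dev (p t) (q t) (a t) (b t) x) S := by
  rw [continuousOn_iff_continuous_domRestrict]
  have sub : Continuous fun z : S × Pl => ((z.1 : T), z.2) := by fun_prop
  have mem : ∀ z : S × Pl, ((z.1 : T), z.2) ∈ S ×ˢ (Set.univ : Set Pl) :=
    fun z => ⟨z.1.2, trivial⟩
  have cp : Continuous fun z : S × Pl => p z.1 z.2 := hp.comp_continuous sub mem
  have cq : Continuous fun z : S × Pl => q z.1 z.2 := hq.comp_continuous sub mem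
  have ca : Continuous fun z : S × Pl => a z.1 z.2 := ha.comp_continuous sub mem
  have cb : Continuous fun z : S × Pl => b z.1 z.2 := hb.comp_continuous sub mem
  have cphase : Continuous fun z : S × Pl => phase (a z.1) (b z.1) z.2 := by
    apply intervalIntegral.continuous_parametric_intervalIntegral_of_continuous'
    have sm : Continuous fun w : (S × Pl) × ℝ => (w.1.1, w.2 • w.1.2) := by fun_prop
    exact ((continuous_fst.comp (continuous_snd.comp continuous_fst)).mul (ca.comp sm)).add
      ((continuous_snd.comp (continuous_snd.comp continuous_fst)).mul (cb.comp sm))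
  apply intervalIntegral.continuous_parametric_intervalIntegral_of_continuous'
  have sm : Continuous fun w : S × ℝ => (w.1, w.2 • x) := by fun_prop
  exact (((Complex.continuous_ofReal.comp (cphase.comp sm)).mul continuous_const).neg.cexp).mul
    ((continuous_const.mul (cp.comp sm)).add (continuous_const.mul (cq.comp sm)))

end Vale.Agent.P205.Full
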