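import Vale.Agent.P205.Full.Defs

/-!
Connection and curvature of `e^{-2v} δ - ε² dw²`.
-/

open scoped ContDiff
open Complex

namespace Vale.Agent.P205.Full

section DerRules

variable {f g : Pl → ℝ} {x : Pl} (η : Pl)

theorem der_const_mul' (c : ℝ) (hf : DifferentiableAt ℝ f x) :
    der η (fun y => c * f y) x = c * der η f x := by
  simp [der, fderiv_const_mul hf]

theorem der_add' (hf : DifferentiableAt ℝ f x) (hg : DifferentiableAt ℝ g x) :
    der η (fun y => f y + g y) x = der η f x + der η g x := by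
  simp [der, fderiv_fun_add hf hg]

theorem der_sub' (hf : DifferentiableAt ℝ f x) (hg : DifferentiableAt ℝ g x) :
    der η (fun y => f y - g y) x = der η f x - der η g x := by
  simp [der, fderiv_fun_sub hf hg]

theorem der_mul' (hf : DifferentiableAt ℝ f x) (hg : DifferentiableAt ℝ g x) :
    der η (fun y => f y * g y) x = der η f x * g x + f x * der η g x := by
  simp [der, fderiv_fun_mul hf hg]; ring

theorem der_comp' {φ : ℝ → ℝ} {φ' : ℝ} (hφ : HasDerivAt φ φ' (f x))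
    (hf : DifferentiableAt ℝ f x) : der η (fun y => φ (f y)) x = φ' * der η f x := by
  have := (hφ.comp_hasFDerivAt x hf.hasFDerivAt).fderiv
  simp [der, Function.comp_def] at this ⊢
  rw [this]; simp

theorem der_cplx (hf : DifferentiableAt ℝ f x) (hg : DifferentiableAt ℝ g x) :
    der η (fun y => ((f y : ℂ) + (g y : ℂ) * I)) x
      = (((der η f x : ℝ) : ℂ) + ((der η g x : ℝ) : ℂ) * I) := by
  have h := (Complex.ofRealCLM.hasFDerivAt.comp x hf.hasFDerivAt).add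
    ((Complex.ofRealCLM.hasFDerivAt.comp x hg.hasFDerivAt).mul_const' I)
  have h' : fderiv ℝ (fun y => ((f y : ℂ) + (g y : ℂ) * I)) x = _ := h.fderiv
  simp only [der, h']
  simp
  ring

theorem der_comm' {f : Pl → ℝ} (hf : ContDiff ℝ ∞ f) (η ξ : Pl) (x : Pl) :
    der η (der ξ f) x = der ξ (der η f) x := by
  have hd : DifferentiableAt ℝ (fderiv ℝ f) x :=
    ((hf.fderiv_right (m := ∞) (by simp)).differentiable (by simp)) x
  have h := hd.hasFDerivAt
  have e : ∀ a b : Pl, der a (der b f) x = fderiv ℝ (fderiv ℝ f) x a b := by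
    intro a b
    have := (h.clm_apply (hasFDerivAt_const b x)).fderiv
    change fderiv ℝ (fun y => fderiv ℝ f y b) x a = _
    rw [this]
    simp
  rw [e, e]
  exact (hf.contDiffAt.isSymmSndFDerivAt (by simp; exact WithTop.coe_le_coe.2 le_top)).eq η ξ

theorem contDiff_der {f : Pl → ℝ} (hf : ContDiff ℝ ∞ f) : ContDiff ℝ ∞ (der η f) :=
  (hf.fderiv_right (by simp)).clm_apply contDiff_const

theorem hasDerivAt_one_add_inv {t : ℝ} (ht : 1 + t ≠ 0) :
    HasDerivAt (fun s : ℝ => (1 + s)⁻¹) (-((1 + t) ^ 2)⁻¹) t := by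
  have h := ((hasDerivAt_id' t).const_add (1 : ℝ)).fun_inv ht
  exact h.congr_deriv (by ring)

theorem hasDerivAt_h {t : ℝ} (ht : t * (1 + t) ≠ 0) :
    HasDerivAt (fun s : ℝ => (s * (1 + s))⁻¹) (-(1 + 2 * t) * ((t * (1 + t)) ^ 2)⁻¹) t := by
  have h := ((hasDerivAt_id' t).fun_mul ((hasDerivAt_id' t).const_add (1 : ℝ))).fun_inv ht
  exact h.congr_deriv (by ring)

theorem hasDerivAt_exp_neg (t : ℝ) :
    HasDerivAt (fun s : ℝ => Real.exp (-s)) (-Real.exp (-t)) t := by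
  simpa using (hasDerivAt_id' t).neg.exp

end DerRules

variable (η1 η2 : Pl) (ε : ℝ) (u v : Pl → ℝ)

/-- Scaled gradient component in direction `η`. -/
noncomputable def gN (η : Pl) (x : Pl) : ℝ :=
  ε * Real.exp (v x) * (der η u x + der η v x)

/-- Squared length of the scaled gradient. -/
noncomputable def gS (x : Pl) : ℝ := gN ε u v η1 x ^ 2 + gN ε u v η2 x ^ 2

/-- `√(1 - s)`. -/
noncomputable def gR (x : Pl) : ℝ := Real.sqrt (1 - gS η1 η2 ε u v x)

/-- Components of the coframe (first vector). -/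
noncomputable def frame1 (x : Pl) : ℂ :=
  ((Real.exp (-v x) * (1 - gN ε u v η1 x * gN ε u v η1 x * (1 + gR η1 η2 ε u v x)⁻¹) : ℝ) : ℂ) +
    ((Real.exp (-v x) * (0 - gN ε u v η2 x * gN ε u v η1 x * (1 + gR η1 η2 ε u v x)⁻¹) : ℝ) : ℂ) * I

/-- Components of the coframe (second vector). -/
noncomputable def frame2 (x : Pl) : ℂ :=
  ((Real.exp (-v x) * (0 - gN ε u v η1 x * gN ε u v η2 x * (1 + gR η1 η2 ε u v x)⁻¹) : ℝ) : ℂ) +
    ((Real.exp (-v x) * (1 - gN ε u v η2 x * gN ε u v η2 x * (1 + gR η1 η2 ε u v x)⁻¹) : ℝ) : ℂ) * I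

/-- The angular part of the connection. -/
noncomputable def gX (η : Pl) (x : Pl) : ℝ :=
  gN ε u v η1 x * der η (gN ε u v η2) x - gN ε u v η2 x * der η (gN ε u v η1) x

/-- The factor `h`. -/
noncomputable def gH (x : Pl) : ℝ := (gR η1 η2 ε u v x * (1 + gR η1 η2 ε u v x))⁻¹

/-- Connection, first component. -/
noncomputable def conn1 (x : Pl) : ℝ :=
  (gR η1 η2 ε u v x)⁻¹ * (-der η2 v x) - gH η1 η2 ε u v x * gX η1 η2 ε u v η1 x

/-- Connection, second component. -/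
noncomputable def conn2 (x : Pl) : ℝ :=
  (gR η1 η2 ε u v x)⁻¹ * der η1 v x - gH η1 η2 ε u v x * gX η1 η2 ε u v η2 x

/-- The curvature expression. -/
noncomputable def curvQ (x : Pl) : ℝ :=
  (1 - gS η1 η2 ε u v x) * (der η1 (der η1 v) x + der η2 (der η2 v) x) +
    (1 / 2) * (der η1 (gS η1 η2 ε u v) x * der η1 v x + der η2 (gS η1 η2 ε u v) x * der η2 v x) -
    (der η1 (gN ε u v η1) x * der η2 (gN ε u v η2) x -
      der η2 (gN ε u v η1) x * der η1 (gN ε u v η2) x)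

variable {η1 η2 ε u v}

theorem contDiff_gN (hu : ContDiff ℝ ∞ u) (hv : ContDiff ℝ ∞ v) (η : Pl) :
    ContDiff ℝ ∞ (gN ε u v η) := by
  unfold gN
  exact (contDiff_const.mul hv.exp).mul ((contDiff_der η hu).add (contDiff_der η hv))

theorem contDiff_gS (hu : ContDiff ℝ ∞ u) (hv : ContDiff ℝ ∞ v) :
    ContDiff ℝ ∞ (gS η1 η2 ε u v) :=
  ((contDiff_gN hu hv η1).pow 2).add ((contDiff_gN hu hv η2).pow 2)

theorem contDiff_gR (hu : ContDiff ℝ ∞ u) (hv : ContDiff ℝ ∞ v)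
    (hS : ∀ x, gS η1 η2 ε u v x < 1) : ContDiff ℝ ∞ (gR η1 η2 ε u v) :=
  (contDiff_const.sub (contDiff_gS hu hv)).sqrt fun x => by linarith [hS x]

theorem gR_pos (hS : ∀ x, gS η1 η2 ε u v x < 1) (x : Pl) : 0 < gR η1 η2 ε u v x :=
  Real.sqrt_pos.2 (by linarith [hS x])

theorem gR_sq (hS : ∀ x, gS η1 η2 ε u v x < 1) (x : Pl) :
    gR η1 η2 ε u v x ^ 2 = 1 - gS η1 η2 ε u v x :=
  Real.sq_sqrt (by linarith [hS x])

theorem der_gR (hu : ContDiff ℝ ∞ u) (hv : ContDiff ℝ ∞ v)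
    (hS : ∀ x, gS η1 η2 ε u v x < 1) (η x : Pl) :
    der η (gR η1 η2 ε u v) x =
      -(gN ε u v η1 x * der η (gN ε u v η1) x + gN ε u v η2 x * der η (gN ε u v η2) x) /
        gR η1 η2 ε u v x := by
  have h1 : DifferentiableAt ℝ (gN ε u v η1) x := (contDiff_gN hu hv η1).differentiable (by simp) x
  have h2 : DifferentiableAt ℝ (gN ε u v η2) x := (contDiff_gN hu hv η2).differentiable (by simp) x
  have hne : 1 - gS η1 η2 ε u v x ≠ 0 := by linarith [hS x]
  have hs : DifferentiableAt ℝ (fun y => 1 - gS η1 η2 ε u v y) x :=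
    (contDiff_const.sub (contDiff_gS hu hv)).differentiable (by simp) x
  unfold gR
  rw [der_comp' η (Real.hasDerivAt_sqrt hne) hs]
  have : der η (fun y => 1 - gS η1 η2 ε u v y) x =
      -(2 * gN ε u v η1 x * der η (gN ε u v η1) x + 2 * gN ε u v η2 x * der η (gN ε u v η2) x) := by
    simp only [gS, sq]
    rw [der_sub' η (differentiableAt_const _) ((h1.fun_mul h1).fun_add (h2.fun_mul h2)),
      der_add' η (h1.fun_mul h1) (h2.fun_mul h2), der_mul' η h1 h1, der_mul' η h2 h2]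
    simp [der]; ring
  rw [this]
  have hp : Real.sqrt (1 - gS η1 η2 ε u v x) ≠ 0 := (Real.sqrt_pos.2 (by linarith [hS x])).ne'
  field_simp

theorem gN_compat (hu : ContDiff ℝ ∞ u) (hv : ContDiff ℝ ∞ v) (x : Pl) :
    der η1 (gN ε u v η2) x = der η2 (gN ε u v η1) x +
      (der η1 v x * gN ε u v η2 x - der η2 v x * gN ε u v η1 x) := by
  have hv0 : DifferentiableAt ℝ v x := hv.differentiable (by simp) x
  have e : ∀ η ξ : Pl, der η (gN ε u v ξ) x = der η v x * gN ε u v ξ x +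
      ε * Real.exp (v x) * (der η (der ξ u) x + der η (der ξ v) x) := by
    intro η ξ
    have hu1 : DifferentiableAt ℝ (der ξ u) x := (contDiff_der ξ hu).differentiable (by simp) x
    have hv1 : DifferentiableAt ℝ (der ξ v) x := (contDiff_der ξ hv).differentiable (by simp) x
    unfold gN
    rw [der_mul' η ((differentiableAt_const ε).fun_mul hv0.exp) (hu1.fun_add hv1),
      der_const_mul' η ε hv0.exp, der_comp' η (Real.hasDerivAt_exp _) hv0, der_add' η hu1 hv1]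
    ring
  rw [e η1 η2, e η2 η1, der_comm' hu η2 η1, der_comm' hv η2 η1]
  ring

theorem frame_metric (hS : ∀ x, gS η1 η2 ε u v x < 1) (x : Pl) :
    ((starRingEnd ℂ) (frame1 η1 η2 ε u v x) * frame1 η1 η2 ε u v x).re
        = Real.exp (-v x) ^ 2 * (1 - gN ε u v η1 x ^ 2) ∧
      ((starRingEnd ℂ) (frame1 η1 η2 ε u v x) * frame2 η1 η2 ε u v x).re
        = Real.exp (-v x) ^ 2 * (-(gN ε u v η1 x * gN ε u v η2 x)) ∧
      ((starRingEnd ℂ) (frame2 η1 η2 ε u v x) * frame2 η1 η2 ε u v x).re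
        = Real.exp (-v x) ^ 2 * (1 - gN ε u v η2 x ^ 2) ∧
      ((starRingEnd ℂ) (frame1 η1 η2 ε u v x) * frame2 η1 η2 ε u v x).im
        = Real.exp (-v x) ^ 2 * gR η1 η2 ε u v x := by
  have hr := gR_sq hS x
  have hp : (1 + gR η1 η2 ε u v x) ≠ 0 := by linarith [gR_pos hS x]
  rw [gS] at hr
  refine ⟨?_, ?_, ?_, ?_⟩ <;>
    simp only [frame1, frame2, Complex.mul_re, Complex.mul_im, Complex.conj_re, Complex.conj_im,
      Complex.add_re, Complex.add_im, Complex.mul_I_re, Complex.mul_I_im, Complex.ofReal_re,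
      Complex.ofReal_im, Complex.I_re, Complex.I_im] <;>
    field_simp <;> grind

theorem frame_str (hu : ContDiff ℝ ∞ u) (hv : ContDiff ℝ ∞ v)
    (hS : ∀ x, gS η1 η2 ε u v x < 1) (x : Pl) :
    der η1 (frame2 η1 η2 ε u v) x - der η2 (frame1 η1 η2 ε u v) x =
      I * ((conn1 η1 η2 ε u v x : ℂ) * frame2 η1 η2 ε u v x -
        (conn2 η1 η2 ε u v x : ℂ) * frame1 η1 η2 ε u v x) := by
  have h1 : DifferentiableAt ℝ (gN ε u v η1) x := (contDiff_gN hu hv η1).differentiable (by simp) x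
  have h2 : DifferentiableAt ℝ (gN ε u v η2) x := (contDiff_gN hu hv η2).differentiable (by simp) x
  have hR : DifferentiableAt ℝ (gR η1 η2 ε u v) x := (contDiff_gR hu hv hS).differentiable (by simp) x
  have hp : 1 + gR η1 η2 ε u v x ≠ 0 := by linarith [gR_pos hS x]
  have hp' : gR η1 η2 ε u v x ≠ 0 := (gR_pos hS x).ne'
  have hd : DifferentiableAt ℝ (fun y => (1 + gR η1 η2 ε u v y)⁻¹) x :=
    ((differentiableAt_const (1 : ℝ)).fun_add hR).fun_inv hp
  have hv0 : DifferentiableAt ℝ v x := hv.differentiable (by simp) x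
  have hE : DifferentiableAt ℝ (fun y => Real.exp (-v y)) x := hv0.neg.exp
  have hinv : ∀ η, der η (fun y => (1 + gR η1 η2 ε u v y)⁻¹) x =
      -((1 + gR η1 η2 ε u v x) ^ 2)⁻¹ * der η (gR η1 η2 ε u v) x := by
    intro η
    exact der_comp' η (φ := fun t => (1 + t)⁻¹) (hasDerivAt_one_add_inv hp) hR
  have hexp : ∀ η, der η (fun y => Real.exp (-v y)) x = -Real.exp (-v x) * der η v x := by
    intro η
    exact der_comp' η (φ := fun t => Real.exp (-t)) (hasDerivAt_exp_neg _) hv0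
  have hF : ∀ (η : Pl) (c : ℝ) (f g : Pl → ℝ), DifferentiableAt ℝ f x → DifferentiableAt ℝ g x →
      der η (fun y => Real.exp (-v y) * (c - f y * g y * (1 + gR η1 η2 ε u v y)⁻¹)) x =
      -Real.exp (-v x) * der η v x * (c - f x * g x * (1 + gR η1 η2 ε u v x)⁻¹) +
        Real.exp (-v x) * (0 - ((der η f x * g x + f x * der η g x) * (1 + gR η1 η2 ε u v x)⁻¹ +
          f x * g x * (-((1 + gR η1 η2 ε u v x) ^ 2)⁻¹ * der η (gR η1 η2 ε u v) x))) := by
    intro η c f g hf hg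
    rw [der_mul' η hE ((differentiableAt_const c).fun_sub ((hf.fun_mul hg).fun_mul hd)),
      der_sub' η (differentiableAt_const c) ((hf.fun_mul hg).fun_mul hd), der_mul' η (hf.fun_mul hg) hd,
      der_mul' η hf hg, hinv, hexp]
    simp [der]
  have hD : ∀ (c : ℝ) (f g : Pl → ℝ), DifferentiableAt ℝ f x → DifferentiableAt ℝ g x →
      DifferentiableAt ℝ (fun y => Real.exp (-v y) * (c - f y * g y * (1 + gR η1 η2 ε u v y)⁻¹)) x :=
    fun c f g hf hg => hE.fun_mul ((differentiableAt_const c).fun_sub ((hf.fun_mul hg).fun_mul hd))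
  unfold frame1 frame2
  rw [der_cplx η1 (hD 0 _ _ h1 h2) (hD 1 _ _ h2 h2), der_cplx η2 (hD 1 _ _ h1 h1) (hD 0 _ _ h2 h1),
    hF η1 0 _ _ h1 h2, hF η1 1 _ _ h2 h2, hF η2 1 _ _ h1 h1, hF η2 0 _ _ h2 h1,
    der_gR hu hv hS η1, der_gR hu hv hS η2]
  have hc := gN_compat (η1 := η1) (η2 := η2) (ε := ε) hu hv x
  have hr := gR_sq hS x
  rw [gS] at hr
  apply Complex.ext <;>
    simp only [conn1, conn2, gH, gX, Complex.sub_re, Complex.sub_im, Complex.mul_re, Complex.mul_im,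
      Complex.add_re, Complex.add_im, Complex.mul_I_re, Complex.mul_I_im, Complex.ofReal_re,
      Complex.ofReal_im, Complex.I_re, Complex.I_im] <;>
    rw [hc] <;> field_simp <;> grind

theorem conn_curv (hu : ContDiff ℝ ∞ u) (hv : ContDiff ℝ ∞ v)
    (hS : ∀ x, gS η1 η2 ε u v x < 1) (x : Pl) :
    der η1 (conn2 η1 η2 ε u v) x - der η2 (conn1 η1 η2 ε u v) x =
      (gR η1 η2 ε u v x ^ 3)⁻¹ * curvQ η1 η2 ε u v x := by
  have h1 : ∀ η, DifferentiableAt ℝ (gN ε u v η) x :=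
    fun η => (contDiff_gN hu hv η).differentiable (by simp) x
  have h1' : ∀ η ξ, DifferentiableAt ℝ (der ξ (gN ε u v η)) x :=
    fun η ξ => (contDiff_der ξ (contDiff_gN hu hv η)).differentiable (by simp) x
  have hR : DifferentiableAt ℝ (gR η1 η2 ε u v) x := (contDiff_gR hu hv hS).differentiable (by simp) x
  have hp : 1 + gR η1 η2 ε u v x ≠ 0 := by linarith [gR_pos hS x]
  have hp' : gR η1 η2 ε u v x ≠ 0 := (gR_pos hS x).ne'
  have hv1 : ∀ η, DifferentiableAt ℝ (der η v) x :=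
    fun η => (contDiff_der η hv).differentiable (by simp) x
  have hi : DifferentiableAt ℝ (fun y => (gR η1 η2 ε u v y)⁻¹) x := hR.fun_inv hp'
  have hH : DifferentiableAt ℝ (gH η1 η2 ε u v) x :=
    (hR.fun_mul ((differentiableAt_const (1 : ℝ)).fun_add hR)).inv (mul_ne_zero hp' hp)
  have hX : ∀ η, DifferentiableAt ℝ (gX η1 η2 ε u v η) x := fun η =>
    ((h1 η1).fun_mul (h1' η2 η)).fun_sub ((h1 η2).fun_mul (h1' η1 η))
  have dX : ∀ η ξ, der ξ (gX η1 η2 ε u v η) x =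
      (der ξ (gN ε u v η1) x * der η (gN ε u v η2) x +
        gN ε u v η1 x * der ξ (der η (gN ε u v η2)) x) -
      (der ξ (gN ε u v η2) x * der η (gN ε u v η1) x +
        gN ε u v η2 x * der ξ (der η (gN ε u v η1)) x) := by
    intro η ξ
    unfold gX
    rw [der_sub' ξ ((h1 η1).fun_mul (h1' η2 η)) ((h1 η2).fun_mul (h1' η1 η)),
      der_mul' ξ (h1 η1) (h1' η2 η), der_mul' ξ (h1 η2) (h1' η1 η)]
  have di : ∀ ξ, der ξ (fun y => (gR η1 η2 ε u v y)⁻¹) x =
      -((gR η1 η2 ε u v x) ^ 2)⁻¹ * der ξ (gR η1 η2 ε u v) x := fun ξ =>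
    der_comp' ξ (hasDerivAt_inv hp') hR
  have dH : ∀ ξ, der ξ (gH η1 η2 ε u v) x =
      -(1 + 2 * gR η1 η2 ε u v x) * ((gR η1 η2 ε u v x * (1 + gR η1 η2 ε u v x)) ^ 2)⁻¹ *
        der ξ (gR η1 η2 ε u v) x := fun ξ =>
    der_comp' ξ (φ := fun t => (t * (1 + t))⁻¹) (hasDerivAt_h (mul_ne_zero hp' hp)) hR
  have dn : der η2 (fun y => -der η2 v y) x = -der η2 (der η2 v) x := by
    change fderiv ℝ (fun y => -(der η2 v) y) x η2 = _
    rw [fderiv_fun_neg]
    rfl
  have dS : ∀ ξ, der ξ (gS η1 η2 ε u v) x =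
      2 * gN ε u v η1 x * der ξ (gN ε u v η1) x + 2 * gN ε u v η2 x * der ξ (gN ε u v η2) x := by
    intro ξ
    unfold gS
    simp only [sq]
    rw [der_add' ξ ((h1 η1).fun_mul (h1 η1)) ((h1 η2).fun_mul (h1 η2)), der_mul' ξ (h1 η1) (h1 η1),
      der_mul' ξ (h1 η2) (h1 η2)]
    ring
  unfold conn1 conn2
  rw [der_sub' η1 (hi.fun_mul (hv1 η1)) (hH.fun_mul (hX η2)), der_mul' η1 hi (hv1 η1),
    der_mul' η1 hH (hX η2),
    der_sub' η2 (hi.fun_mul (hv1 η2).fun_neg) (hH.fun_mul (hX η1)), der_mul' η2 hi (hv1 η2).fun_neg,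
    der_mul' η2 hH (hX η1), dn, dX, dX, di, di, dH, dH, der_gR hu hv hS η1, der_gR hu hv hS η2,
    der_comm' (contDiff_gN hu hv η1) η2 η1, der_comm' (contDiff_gN hu hv η2) η2 η1]
  simp only [curvQ, gH, gX, dS]
  have hr := gR_sq hS x
  rw [gS] at hr
  rw [show gS η1 η2 ε u v x = gN ε u v η1 x ^ 2 + gN ε u v η2 x ^ 2 from rfl]
  field_simp
  grind

end Vale.Agent.P205.Full
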