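import Mathlib

/-!
Flat Hopf tori in the unit three-sphere with prescribed periods.

A horizontal lift `c(f) = (√((1+z)/2) e^{iA}, √((1-z)/2) e^{iB})` over the curve of height
`z = z₀ + β sin 8f` and longitude `f` turns through a prescribed angle along `2πN`; the amplitude
`β` is tuned so that its length there is the prescribed one.  The torus is
`(x, t) ↦ e^{ix} c(t)` with `t` the arc length.
-/

open scoped ContDiff
open Real Set MeasureTheory

namespace Vale.Agent.P205.Full

namespace Hopf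

/-- Height of the curve in the two-sphere. -/
noncomputable def ht (z β f : ℝ) : ℝ := z + β * sin (8 * f)

/-- Speed of the horizontal lift. -/
noncomputable def spd (z β f : ℝ) : ℝ :=
  √((8 * β * cos (8 * f)) ^ 2 / (1 - ht z β f ^ 2) + (1 - ht z β f ^ 2)) / 2

/-- Phase of the first coordinate. -/
noncomputable def ph1 (z β f : ℝ) : ℝ := -((1 - z) / 2) * f - β / 16 * cos (8 * f)

/-- Phase of the second coordinate. -/
noncomputable def ph2 (z β f : ℝ) : ℝ := (1 + z) / 2 * f - β / 16 * cos (8 * f)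

/-- The torus, given the inverse `φ` of the arc length. -/
noncomputable def torus (z β : ℝ) (φ : ℝ → ℝ) (w : ℂ) : EuclideanSpace ℝ (Fin 4) :=
  WithLp.toLp 2 ![√((1 + ht z β (φ w.im)) / 2) * cos (w.re + ph1 z β (φ w.im)),
    √((1 + ht z β (φ w.im)) / 2) * sin (w.re + ph1 z β (φ w.im)),
    √((1 - ht z β (φ w.im)) / 2) * cos (w.re + ph2 z β (φ w.im)),
    √((1 - ht z β (φ w.im)) / 2) * sin (w.re + ph2 z β (φ w.im))]

variable {z β : ℝ} (hz : z ∈ Icc (0 : ℝ) (1 / 4)) (hβ : β ∈ Icc (0 : ℝ) (1 / 2))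
include hz hβ

theorem ht_mem (f : ℝ) : -(3 / 4) ≤ ht z β f ∧ ht z β f ≤ 3 / 4 := by
  have h1 := mul_le_mul_of_nonneg_left (neg_one_le_sin (8 * f)) hβ.1
  have h2 := mul_le_mul_of_nonneg_left (sin_le_one (8 * f)) hβ.1
  unfold ht
  constructor <;> linarith [hz.1, hz.2, hβ.2]

theorem one_sub_sq_ge (f : ℝ) : 7 / 16 ≤ 1 - ht z β f ^ 2 := by
  obtain ⟨h1, h2⟩ := ht_mem hz hβ f
  nlinarith

theorem spd_ge (f : ℝ) : 1 / 4 ≤ spd z β f := by
  have h := one_sub_sq_ge hz hβ f
  have h0 : 0 ≤ (8 * β * cos (8 * f)) ^ 2 / (1 - ht z β f ^ 2) :=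
    div_nonneg (sq_nonneg _) (by linarith)
  have : (1 : ℝ) / 2 ≤ √((8 * β * cos (8 * f)) ^ 2 / (1 - ht z β f ^ 2) + (1 - ht z β f ^ 2)) :=
    le_sqrt_of_sq_le (by linarith)
  unfold spd
  linarith

omit hz hβ in
theorem contDiff_ht : ContDiff ℝ ∞ (ht z β) := by
  unfold ht
  fun_prop

theorem contDiff_spd : ContDiff ℝ ∞ (spd z β) := by
  have hh := contDiff_ht (z := z) (β := β)
  refine ContDiff.div_const (ContDiff.sqrt ?_ fun f => ?_) 2
  · exact (ContDiff.div (by fun_prop) (by fun_prop)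
      fun f => (by linarith [one_sub_sq_ge hz hβ f] : (0 : ℝ) < _).ne').add (by fun_prop)
  · have h := one_sub_sq_ge hz hβ f
    have h0 : 0 ≤ (8 * β * cos (8 * f)) ^ 2 / (1 - ht z β f ^ 2) :=
      div_nonneg (sq_nonneg _) (by linarith)
    linarith

omit hβ in
/-- Some amplitude gives any length between `πN` and `2πN`. -/
theorem exists_length {N : ℕ} {b : ℝ} (h1 : π * N ≤ b) (h2 : b ≤ 2 * π * N) :
    ∃ β ∈ Icc (0 : ℝ) (1 / 2), ∫ f in (0)..(2 * π * N), spd z β f = b := by
  have hT : (0 : ℝ) ≤ 2 * π * N := by positivity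
  have hcs : Continuous fun q : Icc (0 : ℝ) (1 / 2) × ℝ => spd z q.1 q.2 := by
    unfold spd ht
    refine Continuous.div_const (Continuous.sqrt (Continuous.add (Continuous.div (by fun_prop)
      (by fun_prop) fun q => ?_) (by fun_prop))) 2
    have := one_sub_sq_ge hz q.1.2 q.2
    unfold ht at this
    linarith
  have hc : ContinuousOn (fun β => ∫ f in (0)..(2 * π * N), spd z β f) (Icc (0 : ℝ) (1 / 2)) := by
    rw [continuousOn_iff_continuous_domRestrict]
    have hp := intervalIntegral.continuous_parametric_primitive_of_continuous (a₀ := (0 : ℝ)) (μ := volume)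
      (f := fun (β : Icc (0 : ℝ) (1 / 2)) f => spd z β f) hcs
    exact hp.comp ((continuous_id (X := Icc (0 : ℝ) (1 / 2))).prodMk
      (continuous_const (y := 2 * π * N)))
  refine intermediate_value_Icc (by norm_num : (0 : ℝ) ≤ 1 / 2) hc
    (show b ∈ Icc _ _ from ⟨?_, ?_⟩)
  · have h0 : (0 : ℝ) ∈ Icc (0 : ℝ) (1 / 2) := ⟨le_rfl, by norm_num⟩
    refine le_trans (le_trans (intervalIntegral.integral_mono_on hT
      ((contDiff_spd hz h0).continuous.intervalIntegrable _ _)
      (intervalIntegrable_const (c := (1 / 2 : ℝ))) fun f _ => ?_) ?_) h1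
    · simp only [spd, ht, zero_mul, mul_zero, add_zero, zero_pow two_ne_zero, zero_div, zero_add]
      have : √(1 - z ^ 2) ≤ 1 := sqrt_le_one.2 (by nlinarith [hz.1])
      linarith
    · rw [intervalIntegral.integral_const, smul_eq_mul]
      linarith
  · have h0 : (1 / 2 : ℝ) ∈ Icc (0 : ℝ) (1 / 2) := ⟨by norm_num, le_rfl⟩
    have hd : ∀ f : ℝ, HasDerivAt (fun f => f + sin (16 * f) / 16) (2 * cos (8 * f) ^ 2) f := by
      intro f
      have h := (hasDerivAt_id f).add ((((hasDerivAt_id f).const_mul (16 : ℝ)).sin).div_const 16)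
      refine h.congr_deriv ?_
      rw [id, show (16 : ℝ) * f = 2 * (8 * f) by ring, cos_two_mul]
      ring
    have hi : Continuous fun f : ℝ => 2 * cos (8 * f) ^ 2 := by fun_prop
    have hint := intervalIntegral.integral_eq_sub_of_hasDerivAt (fun f _ => hd f)
      (hi.intervalIntegrable (0 : ℝ) (2 * π * N))
    have hs : sin (16 * (2 * π * N)) = 0 := by
      rw [show 16 * (2 * π * (N : ℝ)) = ((32 * N : ℕ) : ℝ) * π by push_cast; ring, sin_nat_mul_pi]
    refine le_trans (le_trans h2 (le_of_eq ?_)) (intervalIntegral.integral_mono_on hT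
      (hi.intervalIntegrable _ _) ((contDiff_spd hz h0).continuous.intervalIntegrable _ _)
      fun f _ => ?_)
    · rw [hint, hs]
      simp
    · unfold spd
      have hb := one_sub_sq_ge hz h0 f
      have hu : 1 - ht z (1 / 2) f ^ 2 ≤ 1 := by nlinarith [sq_nonneg (ht z (1 / 2) f)]
      have hc1 := cos_sq_le_one (8 * f)
      have key : (4 * cos (8 * f) ^ 2) ^ 2 ≤ (8 * (1 / 2) * cos (8 * f)) ^ 2 /
          (1 - ht z (1 / 2) f ^ 2) + (1 - ht z (1 / 2) f ^ 2) := by
        have h4 : (8 * (1 / 2) * cos (8 * f)) ^ 2 ≤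
            (8 * (1 / 2) * cos (8 * f)) ^ 2 / (1 - ht z (1 / 2) f ^ 2) :=
          le_div_self (sq_nonneg _) (by linarith) hu
        nlinarith [sq_nonneg (cos (8 * f))]
      linarith [le_sqrt_of_sq_le key]

/-- The torus over a curve of length `b` has periods `2π` and `a + b i` and is isometric. -/
theorem torus_spec {N : ℕ} {k : ℤ} {a b : ℝ} (ha : (1 - z) * (π * N) = a + 2 * π * k)
    (hb : ∫ f in (0)..(2 * π * N), spd z β f = b) :
    ∃ P : ℂ → EuclideanSpace ℝ (Fin 4), ContDiff ℝ ∞ P ∧ (∀ w, ‖P w‖ = 1) ∧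
      (∀ w, P (w + ((2 * π : ℝ) : ℂ)) = P w) ∧
      (∀ w, P (w + ((a : ℂ) + (b : ℂ) * Complex.I)) = P w) ∧
      ∀ w v u, inner ℝ (fderiv ℝ P w v) (fderiv ℝ P w u) = inner ℝ v u := by
  set s := spd z β with hs
  have hsc : ContDiff ℝ ∞ s := contDiff_spd hz hβ
  have hs0 : ∀ f, 0 < s f := fun f => lt_of_lt_of_le (by norm_num) (spd_ge hz hβ f)
  have hi : ∀ x y, IntervalIntegrable s volume x y := fun x y =>
    hsc.continuous.intervalIntegrable x y
  set S : ℝ → ℝ := fun f => ∫ t in (0)..f, s t with hS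
  have hSd : ∀ f, HasDerivAt S (s f) f := fun f =>
    intervalIntegral.integral_hasDerivAt_right (hi _ _)
      (hsc.continuous.stronglyMeasurableAtFilter _ _) hsc.continuous.continuousAt
  have hSs : ContDiff ℝ ∞ S := by
    rw [contDiff_infty_iff_deriv]
    refine ⟨fun f => (hSd f).differentiableAt, ?_⟩
    rwa [funext fun f => (hSd f).deriv]
  have hSm : StrictMono S := strictMono_of_hasDerivAt_pos hSd hs0
  have hSsurj : Function.Surjective S := by
    intro y
    set M := 4 * |y| with hM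
    have hM0 : 0 ≤ M := by positivity
    have h1 : y ≤ S M := by
      have := intervalIntegral.integral_mono_on hM0 intervalIntegrable_const (hi 0 M)
        fun f _ => spd_ge hz hβ f
      rw [intervalIntegral.integral_const, smul_eq_mul] at this
      linarith [le_abs_self y]
    have h2 : S (-M) ≤ y := by
      have := intervalIntegral.integral_mono_on (neg_nonpos.2 hM0) intervalIntegrable_const
        (hi (-M) 0) fun f _ => spd_ge hz hβ f
      rw [intervalIntegral.integral_const, smul_eq_mul] at this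
      have e : S (-M) = -∫ f in (-M)..0, s f := intervalIntegral.integral_symm _ _
      linarith [neg_abs_le y]
    obtain ⟨f, -, hf⟩ := intermediate_value_Icc (by linarith : -M ≤ M) hSs.continuous.continuousOn
      (show y ∈ Icc _ _ from ⟨h2, h1⟩)
    exact ⟨f, hf⟩
  set e : ℝ ≃ₜ ℝ := (StrictMono.orderIsoOfSurjective S hSm hSsurj).toHomeomorph with he
  have he' : ⇑e = S := rfl
  set φ : ℝ → ℝ := ⇑e.symm with hφ
  have hφS : ∀ f, φ (S f) = f := fun f => e.symm_apply_apply f
  have hSφ : ∀ t, S (φ t) = t := fun t => e.apply_symm_apply t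
  have hφs : ContDiff ℝ ∞ φ :=
    e.contDiff_symm_deriv (f' := s) (fun f => (hs0 f).ne') (fun f => by rw [he']; exact hSd f)
      (by rw [he']; exact hSs)
  have hφd : ∀ t, HasDerivAt φ (s (φ t))⁻¹ t := fun t =>
    HasDerivAt.of_local_left_inverse hφs.continuous.continuousAt (hSd _) (hs0 _).ne'
      (Filter.Eventually.of_forall hSφ)
  have hper : Function.Periodic s (2 * π * N) := by
    intro f
    have e1 : 8 * (f + 2 * π * N) = 8 * f + ((8 * N : ℕ) : ℝ) * (2 * π) := by push_cast; ring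
    simp only [hs, spd, ht, e1, cos_add_nat_mul_two_pi, sin_add_nat_mul_two_pi]
  have hSper : ∀ f, S (f + 2 * π * N) = S f + b := by
    intro f
    simp only [hS]
    rw [← intervalIntegral.integral_add_adjacent_intervals (hi 0 f) (hi f (f + 2 * π * N)),
      hper.intervalIntegral_add_eq f 0, zero_add, hb]
  have hφb : ∀ t, φ (t + b) = φ t + 2 * π * N := by
    intro t
    conv_lhs => rw [← hSφ t, ← hSper, hφS]
  have hr : ∀ f, 0 < (1 + ht z β f) / 2 ∧ 0 < (1 - ht z β f) / 2 := fun f => by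
    obtain ⟨h1, h2⟩ := ht_mem hz hβ f
    constructor <;> linarith
  set P := torus z β φ with hP
  have him : ContDiff ℝ ∞ fun w : ℂ => φ w.im := hφs.comp Complex.imCLM.contDiff
  have hre : ContDiff ℝ ∞ fun w : ℂ => w.re := Complex.reCLM.contDiff
  have hhs : ContDiff ℝ ∞ fun w : ℂ => ht z β (φ w.im) := (contDiff_ht (z := z) (β := β)).comp him
  have hR1 : ContDiff ℝ ∞ fun w : ℂ => √((1 + ht z β (φ w.im)) / 2) :=
    ((contDiff_const.add hhs).div_const 2).sqrt fun w => (hr _).1.ne'
  have hR2 : ContDiff ℝ ∞ fun w : ℂ => √((1 - ht z β (φ w.im)) / 2) :=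
    ((contDiff_const.sub hhs).div_const 2).sqrt fun w => (hr _).2.ne'
  have hA : ContDiff ℝ ∞ fun w : ℂ => w.re + ph1 z β (φ w.im) := by
    unfold ph1
    exact hre.add ((contDiff_const.mul him).sub (contDiff_const.mul (contDiff_const.mul him).cos))
  have hB : ContDiff ℝ ∞ fun w : ℂ => w.re + ph2 z β (φ w.im) := by
    unfold ph2
    exact hre.add ((contDiff_const.mul him).sub (contDiff_const.mul (contDiff_const.mul him).cos))
  have hPs : ContDiff ℝ ∞ P := by
    refine (contDiff_piLp 2).2 fun i => ?_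
    fin_cases i
    · simpa [hP, torus] using hR1.mul hA.cos
    · simpa [hP, torus] using hR1.mul hA.sin
    · simpa [hP, torus] using hR2.mul hB.cos
    · simpa [hP, torus] using hR2.mul hB.sin
  refine ⟨P, hPs, fun w => ?_, fun w => ?_, fun w => ?_, fun w v u => ?_⟩
  · rw [EuclideanSpace.norm_eq, sqrt_eq_one]
    simp only [hP, torus, Fin.sum_univ_four, norm_eq_abs, sq_abs, Matrix.cons_val, mul_pow,
      sq_sqrt (hr _).1.le, sq_sqrt (hr _).2.le]
    linear_combination (1 + ht z β (φ w.im)) / 2 * sin_sq_add_cos_sq (w.re + ph1 z β (φ w.im))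
      + (1 - ht z β (φ w.im)) / 2 * sin_sq_add_cos_sq (w.re + ph2 z β (φ w.im))
  · have e1 : ∀ x : ℝ, w.re + 2 * π + x = w.re + x + 2 * π := fun x => by ring
    simp [hP, torus, e1]
  · have e8 : 8 * (φ w.im + 2 * π * N) = 8 * φ w.im + ((8 * N : ℕ) : ℝ) * (2 * π) := by
      push_cast; ring
    have e0 : ht z β (φ w.im + 2 * π * N) = ht z β (φ w.im) := by
      simp only [ht, e8, sin_add_nat_mul_two_pi]
    have e1 : w.re + a + ph1 z β (φ w.im + 2 * π * N)
        = w.re + ph1 z β (φ w.im) + ((-k : ℤ) : ℝ) * (2 * π) := by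
      simp only [ph1, e8, cos_add_nat_mul_two_pi]
      push_cast
      linear_combination -ha
    have e2 : w.re + a + ph2 z β (φ w.im + 2 * π * N)
        = w.re + ph2 z β (φ w.im) + ((N - k : ℤ) : ℝ) * (2 * π) := by
      simp only [ph2, e8, cos_add_nat_mul_two_pi]
      push_cast
      linear_combination -ha
    have hw1 : (w + ((a : ℂ) + (b : ℂ) * Complex.I)).re = w.re + a := by simp
    have hw2 : (w + ((a : ℂ) + (b : ℂ) * Complex.I)).im = w.im + b := by simp
    simp only [hP, torus, hw1, hw2, hφb, e0, e1, e2, cos_add_int_mul_two_pi,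
      sin_add_int_mul_two_pi]
  · set f := φ w.im with hf
    set h := ht z β f with hh
    set g := 8 * β * cos (8 * f) with hg
    set p := (s f)⁻¹ with hp
    have hid : HasDerivAt (fun x : ℝ => 8 * x) 8 f := by
      simpa using (hasDerivAt_id f).const_mul (8 : ℝ)
    have hdh : HasDerivAt (ht z β) g f :=
      ((hid.sin.const_mul β).const_add z).congr_deriv (by rw [hg]; ring)
    have hd1 : HasDerivAt (ph1 z β) (-((1 - h) / 2)) f :=
      (((hasDerivAt_id f).const_mul (-((1 - z) / 2))).sub (hid.cos.const_mul (β / 16))).congr_deriv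
        (by rw [hh, ht]; ring)
    have hd2 : HasDerivAt (ph2 z β) ((1 + h) / 2) f :=
      (((hasDerivAt_id f).const_mul ((1 + z) / 2)).sub (hid.cos.const_mul (β / 16))).congr_deriv
        (by rw [hh, ht]; ring)
    have hq1 := ((hdh.const_add 1).div_const 2).sqrt (hr f).1.ne'
    have hq2 := ((hdh.const_sub 1).div_const 2).sqrt (hr f).2.ne'
    have hI : HasFDerivAt (fun x : ℂ => φ x.im) (p • Complex.imCLM) w :=
      (hφd w.im).comp_hasFDerivAt w Complex.imCLM.hasFDerivAt
    have hRe : HasFDerivAt (fun x : ℂ => x.re) Complex.reCLM w := Complex.reCLM.hasFDerivAt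
    have HR1 := hq1.comp_hasFDerivAt w hI
    have HR2 := hq2.comp_hasFDerivAt w hI
    have HA := hRe.add (hd1.comp_hasFDerivAt w hI)
    have HB := hRe.add (hd2.comp_hasFDerivAt w hI)
    have H0 := HR1.mul HA.cos
    have H1 := HR1.mul HA.sin
    have H2 := HR2.mul HB.cos
    have H3 := HR2.mul HB.sin
    have hpj : ∀ (i : Fin 4) {F : ℂ → ℝ} {L : ℂ →L[ℝ] ℝ}, HasFDerivAt F L w →
        (∀ x, P x i = F x) → ∀ y, fderiv ℝ P w y i = L y := by
      intro i F L hF heq y
      have h1 := (PiLp.proj (𝕜 := ℝ) 2 (fun _ : Fin 4 => ℝ) i).hasFDerivAt.comp w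
        (hPs.differentiable (by simp)).differentiableAt.hasFDerivAt
      have e' : (PiLp.proj (𝕜 := ℝ) 2 (fun _ : Fin 4 => ℝ) i) ∘ P = F := funext heq
      rw [e'] at h1
      exact DFunLike.congr_fun (h1.unique hF) y
    have q0 := hpj 0 H0 fun x => by simp [hP, torus]
    have q1 := hpj 1 H1 fun x => by simp [hP, torus]
    have q2 := hpj 2 H2 fun x => by simp [hP, torus]
    have q3 := hpj 3 H3 fun x => by simp [hP, torus]
    rw [PiLp.inner_apply]
    simp only [Fin.sum_univ_four, RCLike.inner_apply, conj_trivial, q0, q1, q2, q3, Complex.inner,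
      Complex.mul_re, Complex.conj_re, Complex.conj_im, mul_neg, sub_neg_eq_add,
      Function.comp_apply, add_apply, smul_apply,
      Complex.reCLM_apply, Complex.imCLM_apply, smul_eq_mul, Pi.add_apply, ← hf, ← hh]
    set r1 := √((1 + h) / 2) with hr1
    set r2 := √((1 - h) / 2) with hr2
    set θ1 := w.re + ph1 z β f
    set θ2 := w.re + ph2 z β f
    have h10 : r1 ^ 2 = (1 + h) / 2 := sq_sqrt (hr f).1.le
    have h20 : r2 ^ 2 = (1 - h) / 2 := sq_sqrt (hr f).2.le
    have hn := hr f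
    have hn1 : 1 + h ≠ 0 := by rw [hh]; linarith [hn.1]
    have hn2 : 1 - h ≠ 0 := by rw [hh]; linarith [hn.2]
    have hn3 : 1 - h ^ 2 ≠ 0 := by
      rw [show 1 - h ^ 2 = (1 + h) * (1 - h) by ring]; exact mul_ne_zero hn1 hn2
    have key : ∀ (X Z : ℝ) (x y x' y' : ℝ),
        (Z * (-(sin X) * x) + cos X * y) * (Z * (-(sin X) * x') + cos X * y')
          + (Z * (cos X * x) + sin X * y) * (Z * (cos X * x') + sin X * y')
          = Z ^ 2 * (x * x') + y * y' := by
      intro X Z x y x' y'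
      linear_combination (Z ^ 2 * (x * x') + y * y') * sin_sq_add_cos_sq X
    have hsp : (g ^ 2 / (1 - h ^ 2) + (1 - h ^ 2)) / 4 * p ^ 2 = 1 := by
      have h0 : 0 ≤ g ^ 2 / (1 - h ^ 2) + (1 - h ^ 2) := by
        have := one_sub_sq_ge hz hβ f
        rw [← hh] at this
        have := div_nonneg (sq_nonneg g) (show 0 ≤ 1 - h ^ 2 by linarith)
        linarith
      have e' : s f ^ 2 = (g ^ 2 / (1 - h ^ 2) + (1 - h ^ 2)) / 4 := by
        rw [hs, spd, ← hg, ← hh, div_pow, sq_sqrt h0]; norm_num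
      rw [← e', hp, inv_pow, mul_inv_cancel₀ (pow_ne_zero 2 (hs0 f).ne')]
    clear_value r1 r2 θ1 θ2
    have e3 : (g / 2 / (2 * r1)) ^ 2 + ((-g) / 2 / (2 * r2)) ^ 2 = g ^ 2 / (1 - h ^ 2) / 4 := by
      clear_value g h
      simp only [div_pow, mul_pow, neg_sq, h10, h20]
      field_simp
      ring
    calc _ = (r1 ^ 2 * ((v.re + -((1 - h) / 2) * (p * v.im)) * (u.re + -((1 - h) / 2) * (p * u.im)))
          + g / 2 / (2 * r1) * (p * v.im) * (g / 2 / (2 * r1) * (p * u.im)))
          + (r2 ^ 2 * ((v.re + (1 + h) / 2 * (p * v.im)) * (u.re + (1 + h) / 2 * (p * u.im)))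
          + (-g) / 2 / (2 * r2) * (p * v.im) * ((-g) / 2 / (2 * r2) * (p * u.im))) := by
          rw [← key θ1 r1, ← key θ2 r2]
          ring
      _ = _ := by
          rw [h10, h20]
          linear_combination (v.im * u.im) * hsp + (p ^ 2 * (v.im * u.im)) * e3

end Hopf

/-- Periods `2π` and `a + b i`, with any `a` and any large `b`, are realised by an isometric
immersion of the flat plane into the unit sphere of four-space. -/
theorem exists_hopf : ∃ B : ℝ, ∀ a b : ℝ, B ≤ b →
    ∃ P : ℂ → EuclideanSpace ℝ (Fin 4), ContDiff ℝ ∞ P ∧ (∀ z, ‖P z‖ = 1) ∧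
      (∀ z, P (z + ((2 * Real.pi : ℝ) : ℂ)) = P z) ∧
      (∀ z, P (z + ((a : ℂ) + (b : ℂ) * Complex.I)) = P z) ∧
      ∀ z v w, inner ℝ (fderiv ℝ P z v) (fderiv ℝ P z w) = inner ℝ v w := by
  refine ⟨10 * π, fun a b hb => ?_⟩
  have hπ := pi_pos
  set N := ⌊b / π⌋₊ with hN
  have hb0 : 0 ≤ b / π := div_nonneg (by linarith) hπ.le
  have hN1 := Nat.floor_le hb0
  have hN2 := Nat.lt_floor_add_one (b / π)
  rw [le_div_iff₀ hπ] at hN1
  rw [div_lt_iff₀ hπ] at hN2
  rw [← hN] at hN1 hN2
  have hN8 : (8 : ℝ) ≤ N := by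
    have : 10 * π < ((N : ℝ) + 1) * π := by linarith
    have := lt_of_mul_lt_mul_right this hπ.le
    linarith
  set k := ⌊(π * N - a) / (2 * π)⌋
  have hk1 := Int.floor_le ((π * N - a) / (2 * π))
  have hk2 := Int.lt_floor_add_one ((π * N - a) / (2 * π))
  rw [le_div_iff₀ (by positivity)] at hk1
  rw [div_lt_iff₀ (by positivity)] at hk2
  have hπN : 0 < π * N := by positivity
  set z := 1 - (a + 2 * π * k) / (π * N)
  have hz : z ∈ Icc (0 : ℝ) (1 / 4) := by
    constructor
    · rw [sub_nonneg, div_le_one hπN]; linarith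
    · rw [sub_le_comm, le_div_iff₀ hπN]; nlinarith
  obtain ⟨β, hβ, hl⟩ := Hopf.exists_length hz (by linarith : π * N ≤ b)
    (by nlinarith : b ≤ 2 * π * N)
  refine Hopf.torus_spec hz hβ (N := N) (k := k) ?_ hl
  simp only [z, sub_sub_cancel]
  rw [div_mul_cancel₀ _ hπN.ne']

end Vale.Agent.P205.Full
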