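import Vale.Agent.P205.Full.Linear.Series

/-!
The linear divergence-form equation on the torus.
-/

open scoped ContDiff
open Complex

namespace Vale.Agent.P205.Full

namespace Lin

theorem sp_re_ev {c : Coef} (hc : Rap c) : SP fun x => (ev c x).re :=
  ⟨Complex.reCLM.contDiff.comp (contDiff_ev hc),
    ⟨fun x => by rw [(isPer_ev c).add1], fun x => by rw [(isPer_ev c).add2]⟩⟩

theorem der_re_ev {c : Coef} (hc : Rap c) (η x : Pl) :
    der η (fun y => (ev c y).re) x = (ev (Full.dC η c) x).re := by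
  have h := (hasFDerivAt_ev' (hc 1) x).differentiableAt.hasFDerivAt
  have h2 := Complex.reCLM.hasFDerivAt.comp x h
  show fderiv ℝ (Complex.reCLM ∘ ev c) x η = _
  rw [h2.fderiv, ContinuousLinearMap.comp_apply, hasFDerivAt_ev (hc 1) x η]
  rfl

theorem Rap.sub {c d : Coef} (hc : Rap c) (hd : Rap d) : Rap (c - d) :=
  fun m => (hc m).sub (hd m)

/-- The pointwise contraction. -/
theorem real_bound {A B C c δ : ℝ} (hA : 0 < A) (hδ : δ ≤ A * C - B ^ 2) (hδ0 : 0 < δ) (hc : 0 < c)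
    (htr : A + C ≤ c) (u w : ℝ) :
    ((1 - A / c) * u + -(B / c) * w) ^ 2 + (-(B / c) * u + (1 - C / c) * w) ^ 2
      ≤ (1 - δ / c ^ 2) * (u ^ 2 + w ^ 2) := by
  have hq : 0 ≤ A * u ^ 2 + 2 * B * u * w + C * w ^ 2 := by
    have h : 0 ≤ A * (A * u ^ 2 + 2 * B * u * w + C * w ^ 2) := by
      have e : A * (A * u ^ 2 + 2 * B * u * w + C * w ^ 2)
          = (A * u + B * w) ^ 2 + (A * C - B ^ 2) * w ^ 2 := by ring
      rw [e]
      have : 0 ≤ A * C - B ^ 2 := by linarith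
      positivity
    exact nonneg_of_mul_nonneg_right h hA
  have e : ((1 - A / c) * u + -(B / c) * w) ^ 2 + (-(B / c) * u + (1 - C / c) * w) ^ 2
      = (u ^ 2 + w ^ 2) + ((A + C - 2 * c) * (A * u ^ 2 + 2 * B * u * w + C * w ^ 2)
        - (A * C - B ^ 2) * (u ^ 2 + w ^ 2)) / c ^ 2 := by
    field_simp
    ring
  rw [e, show (1 - δ / c ^ 2) * (u ^ 2 + w ^ 2) = u ^ 2 + w ^ 2 + -(δ * (u ^ 2 + w ^ 2)) / c ^ 2 by ring]
  gcongr
  nlinarith [mul_nonneg hq (by linarith : (0 : ℝ) ≤ 2 * c - (A + C)),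
    mul_le_mul_of_nonneg_right hδ (by positivity : (0 : ℝ) ≤ u ^ 2 + w ^ 2)]

theorem exists_ellipticity {A B C : Pl → ℝ} (hA : SP A) (hB : SP B) (hC : SP C)
    (hdet : ∀ x, B x ^ 2 < A x * C x) :
    ∃ δ c θ : ℝ, 0 < δ ∧ 0 < c ∧ 0 ≤ θ ∧ θ < 1 ∧ θ = 1 - δ / c ^ 2 ∧
      (∀ x, A x + C x ≤ c) ∧ ∀ x, δ ≤ A x * C x - B x ^ 2 := by
  have hd : ∀ x, A x * C x - B x ^ 2 ≠ 0 := fun x => by have := hdet x; linarith
  obtain ⟨S, hS⟩ := exists_bound_per (g := fun x => ((A x + C x : ℝ) : ℂ))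
    (Complex.continuous_ofReal.comp (hA.smooth.continuous.add hC.smooth.continuous))
    ⟨fun x => by simp [hA.per.add1, hC.per.add1], fun x => by simp [hA.per.add2, hC.per.add2]⟩
  obtain ⟨T, hT⟩ := exists_bound_per (g := fun x => (((A x * C x - B x ^ 2)⁻¹ : ℝ) : ℂ))
    (Complex.continuous_ofReal.comp (((hA.smooth.continuous.mul hC.smooth.continuous).sub
      (hB.smooth.continuous.pow 2)).inv₀ hd))
    ⟨fun x => by simp [hA.per.add1, hB.per.add1, hC.per.add1],
      fun x => by simp [hA.per.add2, hB.per.add2, hC.per.add2]⟩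
  simp only [Complex.norm_real, Real.norm_eq_abs] at hS hT
  have hT0 : 0 < T := lt_of_lt_of_le (abs_pos.2 (inv_ne_zero (hd 0))) (hT 0)
  have hδ : ∀ x, T⁻¹ ≤ A x * C x - B x ^ 2 := fun x => by
    have := inv_anti₀ (inv_pos.2 (by have := hdet x; linarith)) ((le_abs_self _).trans (hT x))
    rwa [inv_inv] at this
  have hS0 : 0 ≤ S := (abs_nonneg _).trans (hS 0)
  refine ⟨T⁻¹, S + 1, _, inv_pos.2 hT0, by linarith, ?_, ?_, rfl,
    fun x => by have := le_abs_self (A x + C x); have := hS x; linarith, hδ⟩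
  · rw [sub_nonneg, div_le_one (by positivity)]
    have h := hδ 0
    have := sq_abs (A 0 + C 0)
    have := pow_le_pow_left₀ (abs_nonneg _) (hS 0) 2
    nlinarith [sq_nonneg (A 0 - C 0)]
  · have : 0 < T⁻¹ / (S + 1) ^ 2 := by positivity
    linarith

end Lin

open Lin

/-- A smooth periodic uniformly elliptic divergence-form equation with right side a curl. -/
theorem exists_div_eq {P11 P12 P22 a b : Pl → ℝ} (h11 : SP P11) (h12 : SP P12) (h22 : SP P22)
    (ha : SP a) (hb : SP b) (hpos : ∀ x, 0 < P11 x) (hdet : ∀ x, P12 x ^ 2 < P11 x * P22 x) :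
    ∃ v : Pl → ℝ, SP v ∧ ∀ x,
      der e1 (fun y => P11 y * der e1 v y + P12 y * der e2 v y) x +
        der e2 (fun y => P12 y * der e1 v y + P22 y * der e2 v y) x =
      der e1 b x - der e2 a x := by
  obtain ⟨δ, c, θ, hδ, hc, hθ0, hθ1, hθ, htr, hdt⟩ := exists_ellipticity h11 h12 h22 hdet
  obtain ⟨m11, -, r11, E11⟩ := exists_coef (f := fun x => 1 - P11 x / c)
    ⟨contDiff_const.sub (h11.smooth.div_const c),
      ⟨fun x => by simp [h11.per.add1], fun x => by simp [h11.per.add2]⟩⟩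
  obtain ⟨m12, -, r12, E12⟩ := exists_coef (f := fun x => -(P12 x / c))
    ⟨(h12.smooth.div_const c).neg,
      ⟨fun x => by simp [h12.per.add1], fun x => by simp [h12.per.add2]⟩⟩
  obtain ⟨m22, -, r22, E22⟩ := exists_coef (f := fun x => 1 - P22 x / c)
    ⟨contDiff_const.sub (h22.smooth.div_const c),
      ⟨fun x => by simp [h22.per.add1], fun x => by simp [h22.per.add2]⟩⟩
  obtain ⟨g1, -, s1, G1⟩ := exists_coef (f := fun x => b x / c)
    ⟨hb.smooth.div_const c, ⟨fun x => by simp [hb.per.add1], fun x => by simp [hb.per.add2]⟩⟩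
  obtain ⟨g2, -, s2, G2⟩ := exists_coef (f := fun x => -(a x / c))
    ⟨(ha.smooth.div_const c).neg, ⟨fun x => by simp [ha.per.add1], fun x => by simp [ha.per.add2]⟩⟩
  set M : Mt := ((m11, m12), (m12, m22)) with hMdef
  have hM : RapM M := ⟨⟨r11, r12⟩, ⟨r12, r22⟩⟩
  have hbd : MBd M θ := by
    intro p z w
    simp only [hMdef, E11, E12, E22, Complex.sq_norm, Complex.normSq_apply, Complex.add_re,
      Complex.add_im, Complex.re_ofReal_mul, Complex.im_ofReal_mul, ← pow_two]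
    have h := real_bound (hpos p) (hdt p) hδ hc (htr p)
    have := h z.re w.re
    have := h z.im w.im
    rw [hθ]
    linarith
  obtain ⟨X, hX, hfix⟩ := exists_fix hM (show RapP (g1, g2) from ⟨s1, s2⟩) hθ0 hθ1 hbd
  set Y := mv M X + (g1, g2) with hYdef
  have hY : RapP Y := (hX.mv hM).add (show RapP (g1, g2) from ⟨s1, s2⟩)
  have hv := Rap.pot hY
  have hd1 : ∀ y, der e1 (fun y => (ev (pot Y) y).re) y = (ev X.1 y).re := fun y => by
    rw [der_re_ev hv]; rw [← hfix]; rfl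
  have hd2 : ∀ y, der e2 (fun y => (ev (pot Y) y).re) y = (ev X.2 y).re := fun y => by
    rw [der_re_ev hv]; rw [← hfix]; rfl
  refine ⟨fun y => (ev (pot Y) y).re, sp_re_ev hv, fun x => ?_⟩
  set Z1 : Coef := X.1 - Y.1 with hZ1
  set Z2' : Coef := X.2 - Y.2 with hZ2
  have q1 : Rap Z1 := Rap.sub hX.1 hY.1
  have q2 : Rap Z2' := Rap.sub hX.2 hY.2
  have hF1 : (fun y => P11 y * der e1 (fun y => (ev (pot Y) y).re) y
      + P12 y * der e2 (fun y => (ev (pot Y) y).re) y)
      = fun y => c * (ev Z1 y).re + b y := by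
    funext y
    rw [hd1, hd2, hZ1, ev_sub (hX.1 0) (hY.1 0)]
    simp only [hYdef, hMdef, mv, Prod.fst_add,
      Full.ev_add (((r11 0).conv (hX.1 0)).add ((r12 0).conv (hX.2 0))) (s1 0),
      Full.ev_add ((r11 0).conv (hX.1 0)) ((r12 0).conv (hX.2 0)),
      ev_conv (r11 0) (hX.1 0), ev_conv (r12 0) (hX.2 0), E11, E12, G1,
      Complex.sub_re, Complex.add_re, Complex.re_ofReal_mul, Complex.ofReal_re]
    field_simp
    ring
  have hF2 : (fun y => P12 y * der e1 (fun y => (ev (pot Y) y).re) y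
      + P22 y * der e2 (fun y => (ev (pot Y) y).re) y)
      = fun y => c * (ev Z2' y).re + -a y := by
    funext y
    rw [hd1, hd2, hZ2, ev_sub (hX.2 0) (hY.2 0)]
    simp only [hYdef, hMdef, mv, Prod.snd_add,
      Full.ev_add (((r12 0).conv (hX.1 0)).add ((r22 0).conv (hX.2 0))) (s2 0),
      Full.ev_add ((r12 0).conv (hX.1 0)) ((r22 0).conv (hX.2 0)),
      ev_conv (r12 0) (hX.1 0), ev_conv (r22 0) (hX.2 0), E12, E22, G2,
      Complex.sub_re, Complex.add_re, Complex.re_ofReal_mul, Complex.ofReal_re]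
    field_simp
    ring
  rw [hF1, hF2]
  have hlin : ∀ (η : Pl) {Z : Coef} {g : Pl → ℝ}, Rap Z → SP g →
      der η (fun y => c * (ev Z y).re + g y) x = c * (ev (dC η Z) x).re + der η g x := by
    intro η Z g hZ hg
    have h1 : HasFDerivAt (fun y => (ev Z y).re) (fderiv ℝ (fun y => (ev Z y).re) x) x :=
      ((sp_re_ev hZ).smooth.differentiable (by simp) x).hasFDerivAt
    have h2 : HasFDerivAt g (fderiv ℝ g x) x :=
      (hg.smooth.differentiable (by simp) x).hasFDerivAt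
    have h3 := (h1.const_mul c).fun_add h2
    have e := der_re_ev hZ η x
    simp only [der] at e ⊢
    rw [h3.fderiv]
    simp only [add_apply, smul_apply, smul_eq_mul, e]
  rw [hlin e1 q1 hb, hlin e2 q2 (show SP fun y => -a y from
    ⟨ha.smooth.neg, ⟨fun y => by rw [ha.per.add1], fun y => by rw [ha.per.add2]⟩⟩)]
  have hzero : dC e1 Z1 + dC e2 Z2' = 0 := by
    funext k
    obtain ⟨p, q⟩ := k
    have f1 := congrFun (congrArg Prod.fst hfix) (p, q)
    have f2 := congrFun (congrArg Prod.snd hfix) (p, q)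
    simp only [proj, dC] at f1 f2
    simp only [hZ1, hZ2, Pi.add_apply, Pi.zero_apply, dC, Pi.sub_apply, ← f1, ← f2]
    simp only [pot, dsym, e1, e2]
    by_cases h0 : (p : ℝ) ^ 2 + (q : ℝ) ^ 2 = 0
    · have hp : (p : ℝ) = 0 := by nlinarith [sq_nonneg (q : ℝ)]
      have hq : (q : ℝ) = 0 := by nlinarith [sq_nonneg (p : ℝ)]
      simp [hp, hq]
    · have hN : (p : ℂ) ^ 2 + (q : ℂ) ^ 2 ≠ 0 := by exact_mod_cast h0
      have hpi : (Real.pi : ℂ) ≠ 0 := by exact_mod_cast Real.pi_ne_zero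
      push_cast
      field_simp [Complex.I_ne_zero]
      ring
  have hz : (ev (dC e1 Z1) x).re + (ev (dC e2 Z2') x).re = 0 := by
    rw [← Complex.add_re, ← Full.ev_add (q1.dC e1 0) (q2.dC e2 0), hzero]
    simp [ev]
  have hn : der e2 (fun y => -a y) x = -der e2 a x := by
    simp [der]
  rw [hn]
  linear_combination c * hz

end Vale.Agent.P205.Full
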