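import Vale.Agent.P205.Full.Develop
import Vale.Agent.P205.Full.Linear
import Vale.Agent.P205.Full.Frame

/-!
Every smooth metric on the torus is conformal to a flat one, globally.
-/

open scoped ContDiff
open Complex

namespace Vale.Agent.P205.Full

theorem fderiv_eq_der {α : Type*} [NormedAddCommGroup α] [NormedSpace ℝ α] (f : Pl → α) (x v : Pl) :
    fderiv ℝ f x v = v.1 • der e1 f x + v.2 • der e2 f x := by
  have hv : v = v.1 • e1 + v.2 • e2 := by simp [e1, e2]
  conv_lhs => rw [hv, map_add, map_smul, map_smul]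
  rfl

theorem der_dir {α : Type*} [NormedAddCommGroup α] [NormedSpace ℝ α] (f : Pl → α) (η x : Pl) :
    der η f x = η.1 • der e1 f x + η.2 • der e2 f x := fderiv_eq_der f x η

theorem SP.derR {α : Type*} [NormedAddCommGroup α] [NormedSpace ℝ α] {f : Pl → α} (hf : SP f)
    (η : Pl) : SP (der η f) := by
  refine ⟨(hf.smooth.fderiv_right (by simp)).clm_apply contDiff_const, ⟨fun x => ?_, fun x => ?_⟩⟩
  · have h : (fun y => f (y + e1)) = f := funext hf.per.add1
    have := fderiv_comp_add_right (𝕜 := ℝ) (f := f) (x := x) e1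
    rw [h] at this
    simp only [der, this]
  · have h : (fun y => f (y + e2)) = f := funext hf.per.add2
    have := fderiv_comp_add_right (𝕜 := ℝ) (f := f) (x := x) e2
    rw [h] at this
    simp only [der, this]

theorem periodMap_apply (t1 t2 : ℂ) (v : Pl) :
    Develop.periodMap t1 t2 v = v.1 • t1 + v.2 • t2 := Develop.cof_apply _ _ _ v

/-- The oriented area of two periods. -/
def area (t1 t2 : ℂ) : ℝ := t1.re * t2.im - t1.im * t2.re

theorem area_eq (t1 t2 : ℂ) : area t1 t2 = ((starRingEnd ℂ) t1 * t2).im := by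
  simp [area]; ring

/-- The preimage of one under the period map. -/
noncomputable def dirA (t1 t2 : ℂ) : Pl := (t2.im / area t1 t2, -t1.im / area t1 t2)

/-- The preimage of the imaginary unit under the period map. -/
noncomputable def dirB (t1 t2 : ℂ) : Pl := (-t2.re / area t1 t2, t1.re / area t1 t2)

/-- The inverse of the period map. -/
noncomputable def periodInv (t1 t2 : ℂ) : ℂ →L[ℝ] Pl :=
  Complex.reCLM.smulRight (dirA t1 t2) + Complex.imCLM.smulRight (dirB t1 t2)

theorem periodMap_periodInv {t1 t2 : ℂ} (h : area t1 t2 ≠ 0) (z : ℂ) :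
    Develop.periodMap t1 t2 (periodInv t1 t2 z) = z := by
  rw [periodMap_apply]
  apply Complex.ext <;> simp [periodInv, dirA, dirB] <;> field_simp <;> simp only [area] <;> ring

theorem periodInv_periodMap {t1 t2 : ℂ} (h : area t1 t2 ≠ 0) (v : Pl) :
    periodInv t1 t2 (Develop.periodMap t1 t2 v) = v := by
  rw [periodMap_apply]
  apply Prod.ext <;> simp [periodInv, dirA, dirB] <;> field_simp <;> simp only [area] <;> ring

/-- An orientation reversing or preserving linear isometry making two periods positive. -/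
theorem exists_orient {t1 t2 : ℂ} (h : area t1 t2 ≠ 0) :
    ∃ C : ℂ ≃ₗᵢ[ℝ] ℂ, 0 < area (C t1) (C t2) := by
  rcases lt_or_gt_of_ne h with h | h
  · refine ⟨Complex.conjLIE, ?_⟩
    simp [area] at h ⊢
    linarith
  · exact ⟨LinearIsometryEquiv.refl ℝ ℂ, h⟩

/-- Isothermal coordinates on the torus. -/
theorem exists_isothermal {E F H : Pl → ℝ} (hE : SP E) (hF : SP F) (hH : SP H)
    (hpos : ∀ x, 0 < E x) (hdet : ∀ x, F x ^ 2 < E x * H x) :
    ∃ (t1 t2 : ℂ) (ψ : Pl → Pl) (u : Pl → ℝ), 0 < area t1 t2 ∧ SP u ∧ ContDiff ℝ ∞ ψ ∧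
      (∀ x, ψ (x + e1) = ψ x + e1) ∧ (∀ x, ψ (x + e2) = ψ x + e2) ∧
      ∀ x v w, Real.exp (u (ψ x)) ^ 2 *
          inner ℝ (Develop.periodMap t1 t2 (fderiv ℝ ψ x v))
            (Develop.periodMap t1 t2 (fderiv ℝ ψ x w)) =
        E x * (v.1 * w.1) + F x * (v.1 * w.2 + v.2 * w.1) + H x * (v.2 * w.2) := by
  set D : Pl → ℝ := fun x => Real.sqrt (E x * H x - F x ^ 2) with hD
  set r : Pl → ℝ := fun x => Real.sqrt (E x) with hr
  have Dp : ∀ x, 0 < D x := fun x => Real.sqrt_pos.2 (by linarith [hdet x])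
  have rp : ∀ x, 0 < r x := fun x => Real.sqrt_pos.2 (hpos x)
  have Dsq : ∀ x, D x ^ 2 = E x * H x - F x ^ 2 := fun x => Real.sq_sqrt (by linarith [hdet x])
  have rsq : ∀ x, r x ^ 2 = E x := fun x => Real.sq_sqrt (hpos x).le
  have hDs : SP D := ⟨((hE.smooth.mul hH.smooth).sub (hF.smooth.pow 2)).sqrt
      (fun x => by linarith [hdet x]),
    ⟨fun x => by simp [hD, hE.per.add1, hF.per.add1, hH.per.add1],
      fun x => by simp [hD, hE.per.add2, hF.per.add2, hH.per.add2]⟩⟩
  have hrs : SP r := ⟨hE.smooth.sqrt fun x => (hpos x).ne',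
    ⟨fun x => by simp [hr, hE.per.add1], fun x => by simp [hr, hE.per.add2]⟩⟩
  set p : Pl → ℂ := fun x => (r x : ℂ) with hp
  set q : Pl → ℂ := fun x => ((F x / r x : ℝ) : ℂ) + ((D x / r x : ℝ) : ℂ) * I with hq
  have hps : SP p := ⟨Complex.ofRealCLM.contDiff.comp hrs.smooth,
    ⟨fun x => by simp [hp, hrs.per.add1], fun x => by simp [hp, hrs.per.add2]⟩⟩
  have hqs : SP q := ⟨(Complex.ofRealCLM.contDiff.comp
      (hF.smooth.div hrs.smooth fun x => (rp x).ne')).add
      ((Complex.ofRealCLM.contDiff.comp (hDs.smooth.div hrs.smooth fun x => (rp x).ne')).mul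
        contDiff_const),
    ⟨fun x => by simp [hq, hrs.per.add1, hF.per.add1, hDs.per.add1],
      fun x => by simp [hq, hrs.per.add2, hF.per.add2, hDs.per.add2]⟩⟩
  have hqim : ∀ x, 0 < (q x).im := fun x => by
    simp [hq]; exact div_pos (Dp x) (rp x)
  set W : Pl → ℂ := fun x => der e1 q x - der e2 p x with hW
  have hWs : SP W := ⟨(hqs.derR e1).smooth.sub (hps.derR e2).smooth,
    ⟨fun x => by simp [hW, (hqs.derR e1).per.add1, (hps.derR e2).per.add1],
      fun x => by simp [hW, (hqs.derR e1).per.add2, (hps.derR e2).per.add2]⟩⟩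
  set a : Pl → ℝ := fun x => -(W x).re / (q x).im with ha
  set b : Pl → ℝ := fun x => (a x * (q x).re - (W x).im) / r x with hb
  have has : SP a := ⟨((Complex.reCLM.contDiff.comp hWs.smooth).neg).div
      (Complex.imCLM.contDiff.comp hqs.smooth) fun x => (hqim x).ne',
    ⟨fun x => by simp [ha, hWs.per.add1, hqs.per.add1],
      fun x => by simp [ha, hWs.per.add2, hqs.per.add2]⟩⟩
  have hbs : SP b := ⟨((has.smooth.mul (Complex.reCLM.contDiff.comp hqs.smooth)).sub
      (Complex.imCLM.contDiff.comp hWs.smooth)).div hrs.smooth fun x => (rp x).ne',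
    ⟨fun x => by simp [hb, hWs.per.add1, hqs.per.add1, has.per.add1, hrs.per.add1],
      fun x => by simp [hb, hWs.per.add2, hqs.per.add2, has.per.add2, hrs.per.add2]⟩⟩
  have hWab : ∀ x, W x = I * ((a x : ℂ) * q x - (b x : ℂ) * p x) := fun x => by
    have h1 := (hqim x).ne'
    have h2 := (rp x).ne'
    apply Complex.ext <;> simp [hp, ha, hb] <;> field_simp <;> ring
  have h11 : SP fun x => H x / D x := ⟨hH.smooth.div hDs.smooth fun x => (Dp x).ne',
    ⟨fun x => by simp [hH.per.add1, hDs.per.add1], fun x => by simp [hH.per.add2, hDs.per.add2]⟩⟩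
  have h12 : SP fun x => -F x / D x := ⟨hF.smooth.neg.div hDs.smooth fun x => (Dp x).ne',
    ⟨fun x => by simp [hF.per.add1, hDs.per.add1], fun x => by simp [hF.per.add2, hDs.per.add2]⟩⟩
  have h22 : SP fun x => E x / D x := ⟨hE.smooth.div hDs.smooth fun x => (Dp x).ne',
    ⟨fun x => by simp [hE.per.add1, hDs.per.add1], fun x => by simp [hE.per.add2, hDs.per.add2]⟩⟩
  obtain ⟨v, hv, hdiv⟩ := exists_div_eq h11 h12 h22 has hbs
    (fun x => div_pos (by nlinarith [hpos x, hdet x, sq_nonneg (F x)]) (Dp x))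
    (fun x => by
      rw [div_mul_div_comm, div_pow, neg_sq, ← sq]
      gcongr
      · exact pow_pos (Dp x) 2
      · linarith [hdet x])
  set v1 := der e1 v with hv1
  set v2 := der e2 v with hv2
  set σ1 : Pl → ℝ := fun x => (-F x * v1 x + E x * v2 x) / D x with hσ1
  set σ2 : Pl → ℝ := fun x => (-H x * v1 x + F x * v2 x) / D x with hσ2
  have hv1s : SP v1 := hv.derR e1
  have hv2s : SP v2 := hv.derR e2
  have hσ1s : SP σ1 := ⟨((hF.smooth.neg.mul hv1s.smooth).add (hE.smooth.mul hv2s.smooth)).div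
      hDs.smooth fun x => (Dp x).ne',
    ⟨fun x => by simp [hσ1, hF.per.add1, hE.per.add1, hDs.per.add1, hv1s.per.add1, hv2s.per.add1],
      fun x => by simp [hσ1, hF.per.add2, hE.per.add2, hDs.per.add2, hv1s.per.add2, hv2s.per.add2]⟩⟩
  have hσ2s : SP σ2 := ⟨((hH.smooth.neg.mul hv1s.smooth).add (hF.smooth.mul hv2s.smooth)).div
      hDs.smooth fun x => (Dp x).ne',
    ⟨fun x => by simp [hσ2, hF.per.add1, hH.per.add1, hDs.per.add1, hv1s.per.add1, hv2s.per.add1],
      fun x => by simp [hσ2, hF.per.add2, hH.per.add2, hDs.per.add2, hv1s.per.add2, hv2s.per.add2]⟩⟩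
  set ev' : Pl → ℝ := fun x => Real.exp (v x) with hev
  set p' : Pl → ℂ := fun x => (ev' x : ℂ) * p x with hp'
  set q' : Pl → ℂ := fun x => (ev' x : ℂ) * q x with hq'
  set a' : Pl → ℝ := fun x => a x + σ1 x with ha'
  set b' : Pl → ℝ := fun x => b x + σ2 x with hb'
  have dE : ∀ (η : Pl) (g : Pl → ℂ), SP g → ∀ x,
      der η (fun y => (ev' y : ℂ) * g y) x =
        ((ev' x * der η v x : ℝ) : ℂ) * g x + (ev' x : ℂ) * der η g x := by
    intro η g hg x
    have h1 : HasFDerivAt v (fderiv ℝ v x) x :=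
      (hv.smooth.differentiable (by simp) x).hasFDerivAt
    have h2 : HasFDerivAt g (fderiv ℝ g x) x :=
      (hg.smooth.differentiable (by simp) x).hasFDerivAt
    have h3 := (h1.exp.fun_smul h2).fderiv
    simp only [der, hev]
    rw [show (fun y => ((Real.exp (v y) : ℝ) : ℂ) * g y) = fun y => Real.exp (v y) • g y from
      funext fun y => (Complex.real_smul).symm, h3]
    simp [Complex.real_smul]
    ring
  have hfc : FlatCoframe p' q' a' b' := by
    refine ⟨⟨(Complex.ofRealCLM.contDiff.comp hv.smooth.exp).mul hps.smooth,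
        ⟨fun x => by simp [hp', hev, hv.per.add1, hps.per.add1],
          fun x => by simp [hp', hev, hv.per.add2, hps.per.add2]⟩⟩,
      ⟨(Complex.ofRealCLM.contDiff.comp hv.smooth.exp).mul hqs.smooth,
        ⟨fun x => by simp [hq', hev, hv.per.add1, hqs.per.add1],
          fun x => by simp [hq', hev, hv.per.add2, hqs.per.add2]⟩⟩,
      ⟨has.smooth.add hσ1s.smooth, ⟨fun x => by simp [ha', has.per.add1, hσ1s.per.add1],
        fun x => by simp [ha', has.per.add2, hσ1s.per.add2]⟩⟩,
      ⟨hbs.smooth.add hσ2s.smooth, ⟨fun x => by simp [hb', hbs.per.add1, hσ2s.per.add1],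
        fun x => by simp [hb', hbs.per.add2, hσ2s.per.add2]⟩⟩, ?_, ?_, ?_⟩
    · intro x
      have h0 : 0 < ev' x := Real.exp_pos _
      have h := mul_pos (mul_pos h0 h0) (mul_pos (rp x) (hqim x))
      have : ((starRingEnd ℂ) (p' x) * q' x).im = ev' x * ev' x * (r x * (q x).im) := by
        simp [hp', hq', hp]; ring
      linarith
    · intro x
      rw [hp', hq', dE e1 q hqs, dE e2 p hps, ← hv1, ← hv2]
      have hw := hWab x
      simp only [hW] at hw
      have h2 := (rp x).ne'
      have h3 := (Dp x).ne'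
      have hD2 := Dsq x
      have hr2 := rsq x
      have key : (v1 x : ℂ) * q x - (v2 x : ℂ) * p x =
          I * ((σ1 x : ℂ) * q x - (σ2 x : ℂ) * p x) := by
        clear hw
        apply Complex.ext <;> simp [hp, hq, hσ1, hσ2] <;> field_simp <;> grind
      simp only [ha', hb']
      push_cast
      linear_combination (ev' x : ℂ) * hw + (ev' x : ℂ) * key
    · intro x
      have hd := hdiv x
      have e1' : (fun y => H y / D y * der e1 v y + -F y / D y * der e2 v y) = fun y => -σ2 y := by
        funext y; simp only [hσ2, hv1, hv2]; ring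
      have e2' : (fun y => -F y / D y * der e1 v y + E y / D y * der e2 v y) = σ1 := by
        funext y; simp only [hσ1, hv1, hv2]; ring
      rw [e1', e2'] at hd
      have n1 : der e1 (fun y => -σ2 y) x = -der e1 σ2 x := by simp [der]
      rw [n1] at hd
      rw [hb', ha', der_add' e1 (hbs.smooth.differentiable (by simp) x)
          (hσ2s.smooth.differentiable (by simp) x),
        der_add' e2 (has.smooth.differentiable (by simp) x)
          (hσ1s.smooth.differentiable (by simp) x)]
      linarith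
  obtain ⟨hds, hd1, hd2, hne, hmet⟩ := dev_spec hfc
  obtain ⟨G, hG, hGl, hGr⟩ := dev_inverse hfc
  obtain ⟨C, hC⟩ := exists_orient (t1 := dev p' q' a' b' e1) (t2 := dev p' q' a' b' e2)
    (by rwa [area_eq])
  set t1 := C (dev p' q' a' b' e1) with ht1
  set t2 := C (dev p' q' a' b' e2) with ht2
  have ht : area t1 t2 ≠ 0 := hC.ne'
  set ψ : Pl → Pl := fun x => periodInv t1 t2 (C (dev p' q' a' b' x)) with hψ
  set back : Pl → Pl := fun y => G (C.symm (Develop.periodMap t1 t2 y)) with hback
  have hL : ∀ x, Develop.periodMap t1 t2 (ψ x) = C (dev p' q' a' b' x) :=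
    fun x => periodMap_periodInv ht _
  have hbl : ∀ x, back (ψ x) = x := fun x => by
    simp only [hback, hL, LinearIsometryEquiv.symm_apply_apply, hGl]
  have L1 : Develop.periodMap t1 t2 e1 = t1 := by simp [periodMap_apply, e1]
  have L2 : Develop.periodMap t1 t2 e2 = t2 := by simp [periodMap_apply, e2]
  have hb1 : ∀ y, back (y + e1) = back y + e1 := by
    intro y
    have h := hGl (back y + e1)
    rw [hd1, hback, hGr] at h
    simp only [hback, map_add, L1]
    rw [show C.symm t1 = dev p' q' a' b' e1 from C.symm_apply_apply _]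
    exact h
  have hb2 : ∀ y, back (y + e2) = back y + e2 := by
    intro y
    have h := hGl (back y + e2)
    rw [hd2, hback, hGr] at h
    simp only [hback, map_add, L2]
    rw [show C.symm t2 = dev p' q' a' b' e2 from C.symm_apply_apply _]
    exact h
  refine ⟨t1, t2, ψ, fun y => -v (back y), hC, ⟨?_, ⟨fun y => by rw [hb1, hv.per.add1],
      fun y => by rw [hb2, hv.per.add2]⟩⟩, ?_, fun x => ?_, fun x => ?_, fun x z w => ?_⟩
  · exact (hv.smooth.comp (hG.comp (C.symm.toContinuousLinearEquiv.contDiff.comp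
      (Develop.periodMap t1 t2).contDiff))).neg
  · exact (periodInv t1 t2).contDiff.comp (C.toContinuousLinearEquiv.contDiff.comp hds)
  · simp only [hψ, hd1, map_add]
    rw [← ht1]
    have h := periodInv_periodMap ht e1
    rw [L1] at h
    rw [h]
  · simp only [hψ, hd2, map_add]
    rw [← ht2]
    have h := periodInv_periodMap ht e2
    rw [L2] at h
    rw [h]
  · have hdF : HasFDerivAt ψ ((periodInv t1 t2).comp
        ((C.toContinuousLinearEquiv : ℂ →L[ℝ] ℂ).comp (fderiv ℝ (dev p' q' a' b') x))) x :=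
      (periodInv t1 t2).hasFDerivAt.comp x (C.toContinuousLinearEquiv.hasFDerivAt.comp x
        (hds.differentiable (by simp) x).hasFDerivAt)
    rw [hdF.fderiv]
    simp only [ContinuousLinearMap.comp_apply, periodMap_periodInv ht, hbl]
    change Real.exp (-v x) ^ 2 * inner ℝ (C (fderiv ℝ (dev p' q' a' b') x z))
      (C (fderiv ℝ (dev p' q' a' b') x w)) = _
    rw [LinearIsometryEquiv.inner_map_map, hmet]
    have he : Real.exp (-v x) * ev' x = 1 := by rw [hev, ← Real.exp_add]; simp
    have h2 := (rp x).ne'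
    have hD2 := Dsq x
    have hr2 := rsq x
    simp [Complex.inner, hp', hq', hp, hq]
    field_simp
    grind

end Vale.Agent.P205.Full
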