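import Vale.Agent.P205.Full.Solve

/-!
Functions solving the flatness equation.
-/

open scoped ContDiff
open Complex

namespace Vale.Agent.P205.Full

theorem ev_ofReal_re {c : Coef} (hc : Sym c) (x : Pl) : ((ev c x).re : ℂ) = ev c x :=
  (Complex.conj_eq_iff_re.1 (ev_real hc x))

theorem SP_re_ev {c : Coef} (hc : ∀ m, Mem m c) : SP (fun x => (ev c x).re) :=
  ⟨Complex.reCLM.contDiff.comp (contDiff_ev hc),
    ⟨fun x => by rw [(isPer_ev c).add1], fun x => by rw [(isPer_ev c).add2]⟩⟩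

theorem der_re_ev {c : Coef} (hc : Mem 1 c) (η x : Pl) :
    der η (fun y => (ev c y).re) x = (ev (dC η c) x).re := by
  have h := (Complex.reCLM.hasFDerivAt.comp x (hasFDerivAt_ev' hc x)).fderiv
  have h' : fderiv ℝ (fun y => (ev c y).re) x = _ := h
  rw [der, h', ← hasFDerivAt_ev hc x η, (hasFDerivAt_ev' hc x).fderiv]
  rfl

theorem der2_re_ev {c : Coef} (hc : Mem 2 c) (η ξ x : Pl) :
    der ξ (der η fun y => (ev c y).re) x = (ev (dC ξ (dC η c)) x).re := by
  have : der η (fun y => (ev c y).re) = fun y => (ev (dC η c) y).re :=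
    funext (der_re_ev (hc.mono one_le_two) η)
  rw [this, der_re_ev (hc.dC η)]

variable {u : Pl → ℝ} {cu : Coef}

theorem der_u (hm : ∀ m, Mem m cu) (he : ∀ x, ev cu x = (u x : ℂ)) (η x : Pl) :
    der η u x = (ev (dC η cu) x).re := by
  rw [← der_re_ev (hm 1) η x]
  simp [he]

theorem der2_u (hm : ∀ m, Mem m cu) (he : ∀ x, ev cu x = (u x : ℂ)) (η ξ x : Pl) :
    der ξ (der η u) x = (ev (dC ξ (dC η cu)) x).re := by
  rw [← der2_re_ev (hm 2) η ξ x]
  simp [he]

theorem exists_solution {η1 η2 : Pl} (hdet : η1.1 * η2.2 - η1.2 * η2.1 ≠ 0) (hu : SP u) :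
    ∃ (ε0 : ℝ) (v : ℝ → Pl → ℝ), 0 < ε0 ∧
      (∀ ε ∈ Set.Icc (0 : ℝ) ε0, SP (v ε) ∧ (∀ x, gS η1 η2 ε u (v ε) x < 1) ∧
        ∃ q : ℝ, ∀ x, curvQ η1 η2 ε u (v ε) x = q) ∧
      (∀ x, v 0 x = 0) ∧
      ContinuousOn (fun z : ℝ × Pl => v z.1 z.2) (Set.Icc 0 ε0 ×ˢ Set.univ) ∧
      (∀ η, ContinuousOn (fun z : ℝ × Pl => der η (v z.1) z.2) (Set.Icc 0 ε0 ×ˢ Set.univ)) ∧
      ∀ η ξ, ContinuousOn (fun z : ℝ × Pl => der ξ (der η (v z.1)) z.2)
        (Set.Icc 0 ε0 ×ˢ Set.univ) := by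
  obtain ⟨cu, hs, hm, he⟩ := exists_coef hu
  obtain ⟨t0, c, L, ht0, hL, hfix, hlip⟩ := exists_fixed hdet hm hs
  obtain ⟨W1, _, hW1⟩ := (tame_wC hm hs η1).bdd
  obtain ⟨W2, _, hW2⟩ := (tame_wC hm hs η2).bdd
  set ε0 : ℝ := min (Real.sqrt t0) (1 / (|W1| + |W2| + 1)) with hε0
  have hε0p : 0 < ε0 := lt_min (Real.sqrt_pos.2 ht0) (by positivity)
  have hsq : ∀ ε ∈ Set.Icc (0 : ℝ) ε0, ε ^ 2 ∈ Set.Icc (0 : ℝ) t0 := by
    intro ε hε
    refine ⟨sq_nonneg ε, ?_⟩
    have := pow_le_pow_left₀ hε.1 (hε.2.trans (min_le_left _ _)) 2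
    rwa [Real.sq_sqrt ht0.le] at this
  refine ⟨ε0, fun ε x => (ev (c (ε ^ 2)) x).re, hε0p, ?_, ?_, ?_⟩
  · intro ε hε
    obtain ⟨hb, hall, heq⟩ := hfix (ε ^ 2) (hsq ε hε)
    set d := c (ε ^ 2) with hd
    set v : Pl → ℝ := fun x => (ev d x).re with hv
    have hvs : SP v := SP_re_ev hall
    have hW : ∀ η x, gN ε u v η x = ε * (ev (wC cu η d) x).re ∧
        (ev (wC cu η d) x).im = 0 := by
      intro η x
      have m1 : Mem 0 (dC η cu) := (hm 1).dC η
      have m2 : Mem 0 (dC η d) := (hall 1).dC η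
      rw [wC, ev_conv (expC_bound (hall 0)).1 (m1.add m2), ev_expC (hall 0), ev_add m1 m2,
        ← ev_ofReal_re hb.2.2, ← ev_ofReal_re (hs.dC η), ← ev_ofReal_re (hb.2.2.dC η),
        ← Complex.ofReal_exp, ← Complex.ofReal_add, ← Complex.ofReal_mul]
      refine ⟨?_, Complex.ofReal_im _⟩
      rw [Complex.ofReal_re, gN, der_u hm he η x, der_re_ev (hall 1) η x]
      ring
    have hDW : ∀ ξ η x, der ξ (gN ε u v η) x = ε * (ev (wwC cu ξ η d) x).re ∧
        (ev (wwC cu ξ η d) x).im = 0 := by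
      intro ξ η x
      have m1 : Mem 0 (dC η cu) := (hm 1).dC η
      have m2 : Mem 0 (dC η d) := (hall 1).dC η
      have m3 : Mem 0 (dC ξ (dC η cu)) := ((hm 2).dC η).dC ξ
      have m4 : Mem 0 (dC ξ (dC η d)) := ((hall 2).dC η).dC ξ
      have m5 : Mem 0 (wC cu η d) := (expC_bound (hall 0)).1.conv (m1.add m2)
      have m6 : Mem 0 (expC d) := (expC_bound (hall 0)).1
      rw [wwC, ev_add (((hall 1).dC ξ).conv m5) (m6.conv (m3.add m4)), ev_conv ((hall 1).dC ξ) m5,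
        ev_conv m6 (m3.add m4), ev_add m3 m4, ev_expC (hall 0), wC, ev_conv m6 (m1.add m2),
        ev_expC (hall 0), ev_add m1 m2,
        ← ev_ofReal_re hb.2.2, ← ev_ofReal_re (hs.dC η), ← ev_ofReal_re (hb.2.2.dC η),
        ← ev_ofReal_re ((hs.dC η).dC ξ), ← ev_ofReal_re ((hb.2.2.dC η).dC ξ),
        ← ev_ofReal_re (hb.2.2.dC ξ),
        ← Complex.ofReal_exp, ← Complex.ofReal_add, ← Complex.ofReal_mul, ← Complex.ofReal_mul,
        ← Complex.ofReal_add, ← Complex.ofReal_mul, ← Complex.ofReal_add]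
      refine ⟨?_, Complex.ofReal_im _⟩
      have hu1 : DifferentiableAt ℝ (der η u) x :=
        (contDiff_der η hu.smooth).differentiable (by simp) x
      have hv1 : DifferentiableAt ℝ (der η v) x :=
        (contDiff_der η hvs.smooth).differentiable (by simp) x
      have hv0 : DifferentiableAt ℝ v x := hvs.smooth.differentiable (by simp) x
      unfold gN
      rw [der_mul' ξ ((differentiableAt_const ε).fun_mul hv0.exp) (hu1.fun_add hv1),
        der_const_mul' ξ ε hv0.exp, der_comp' ξ (Real.hasDerivAt_exp _) hv0,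
        der_add' ξ hu1 hv1, der_u hm he η x, der2_u hm he η ξ x,
        der_re_ev (hall 1) η x, der_re_ev (hall 1) ξ x, der2_re_ev (hall 2) η ξ x]
      simp only [hv, Complex.ofReal_re]
      ring
    have hS : ∀ x, gS η1 η2 ε u v x < 1 := by
      intro x
      have a1 : |(ev (wC cu η1 d) x).re| ≤ |W1| :=
        (Complex.abs_re_le_norm _).trans ((norm_ev_le (hW1 d hb).1 x).trans
          ((hW1 d hb).2.trans (le_abs_self _)))
      have a2 : |(ev (wC cu η2 d) x).re| ≤ |W2| :=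
        (Complex.abs_re_le_norm _).trans ((norm_ev_le (hW2 d hb).1 x).trans
          ((hW2 d hb).2.trans (le_abs_self _)))
      have hε' : ε * (|W1| + |W2| + 1) ≤ 1 := by
        have := hε.2.trans (min_le_right _ _)
        rwa [le_div_iff₀ (by positivity)] at this
      rw [gS, (hW η1 x).1, (hW η2 x).1]
      have b1 := pow_le_pow_left₀ (abs_nonneg _) a1 2
      have b2 := pow_le_pow_left₀ (abs_nonneg _) a2 2
      rw [sq_abs] at b1 b2
      by_cases h0 : ε = 0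
      · subst h0; norm_num
      · have hep : 0 < ε := lt_of_le_of_ne hε.1 (Ne.symm h0)
        have c2 : (ε * (|W1| + |W2| + 1)) ^ 2 ≤ 1 := pow_le_one₀ (by positivity) hε'
        have c3 : 0 < ε ^ 2 * (2 * |W1| * |W2| + 2 * |W1| + 2 * |W2| + 1) := by positivity
        have c4 := mul_le_mul_of_nonneg_left (add_le_add b1 b2) (sq_nonneg ε)
        linarith
    refine ⟨hvs, hS, -(ε ^ 2) * (rhsC η1 η2 cu d 0).re, fun x => ?_⟩
    obtain ⟨_, _, hT⟩ := (tame_rhsC η1 η2 hm hs).bdd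
    have hr : Mem 0 (rhsC η1 η2 cu d) := (hT d hb).1
    have hrs : Sym (rhsC η1 η2 cu d) := (tame_rhsC η1 η2 hm hs).sym d hb
    have hL : dC η1 (dC η1 d) + dC η2 (dC η2 d) =
        ((ε ^ 2 : ℝ) : ℂ) • rhsC η1 η2 cu d -
          (((ε ^ 2 : ℝ) : ℂ) * rhsC η1 η2 cu d 0) • unit := by
      funext k
      simp only [Pi.add_apply, Pi.sub_apply, Pi.smul_apply, smul_eq_mul, dC]
      rw [← mul_assoc, ← mul_assoc, ← add_mul, dsym_sq]
      conv_lhs => rw [heq]
      unfold linv unit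
      by_cases hk : k = 0
      · subst hk; simp
      · obtain ⟨K, _, hK⟩ := exists_lsym_bound hdet
        have hn : ((lsym η1 η2 k : ℝ) : ℂ) ≠ 0 := Complex.ofReal_ne_zero.2 (hK k hk).1.ne
        simp only [if_neg hk, Pi.smul_apply, smul_eq_mul, mul_zero, sub_zero]
        push_cast
        field_simp
    have hlap : (ev (dC η1 (dC η1 d)) x).re + (ev (dC η2 (dC η2 d)) x).re
        = ε ^ 2 * (ev (rhsC η1 η2 cu d) x).re - ε ^ 2 * (rhsC η1 η2 cu d 0).re := by
      rw [← Complex.add_re, ← ev_add (((hall 2).dC η1).dC η1) (((hall 2).dC η2).dC η2), hL,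
        ev_sub (hr.smul _) ((mem_unit 0).smul _), ev_smul, ev_smul, ev_unit, Complex.sub_re,
        mul_one, Complex.re_ofReal_mul, Complex.re_ofReal_mul]
    have w : ∀ η, Mem 0 (wC cu η d) := fun η => by
      obtain ⟨_, _, h⟩ := (tame_wC hm hs η).bdd; exact (h d hb).1
    have ww : ∀ ξ η, Mem 0 (wwC cu ξ η d) := fun ξ η => by
      obtain ⟨_, _, h⟩ := (tame_wwC hm hs ξ η).bdd; exact (h d hb).1
    have p1 : ∀ η, Mem 0 (dC η d) := fun η => (hall 1).dC η
    have p2 : ∀ η, Mem 0 (dC η (dC η d)) := fun η => ((hall 2).dC η).dC η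
    have q1 := ((w η1).conv (w η1)).add ((w η2).conv (w η2))
    have q2 := ((w η1).conv (ww η1 η1)).add ((w η2).conv (ww η1 η2))
    have q3 := ((w η1).conv (ww η2 η1)).add ((w η2).conv (ww η2 η2))
    have hrhs : (ev (rhsC η1 η2 cu d) x).re =
        ((ev (wC cu η1 d) x).re ^ 2 + (ev (wC cu η2 d) x).re ^ 2) *
            ((ev (dC η1 (dC η1 d)) x).re + (ev (dC η2 (dC η2 d)) x).re) -
          (((ev (wC cu η1 d) x).re * (ev (wwC cu η1 η1 d) x).re +
              (ev (wC cu η2 d) x).re * (ev (wwC cu η1 η2 d) x).re) * (ev (dC η1 d) x).re +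
            ((ev (wC cu η1 d) x).re * (ev (wwC cu η2 η1 d) x).re +
              (ev (wC cu η2 d) x).re * (ev (wwC cu η2 η2 d) x).re) * (ev (dC η2 d) x).re) +
          ((ev (wwC cu η1 η1 d) x).re * (ev (wwC cu η2 η2 d) x).re -
            (ev (wwC cu η2 η1 d) x).re * (ev (wwC cu η1 η2 d) x).re) := by
      rw [rhsC,
        ev_add ((q1.conv ((p2 η1).add (p2 η2))).add (((q2.conv (p1 η1)).add (q3.conv (p1 η2))).smul _))
          (((ww η1 η1).conv (ww η2 η2)).add (((ww η2 η1).conv (ww η1 η2)).smul _)),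
        ev_add (q1.conv ((p2 η1).add (p2 η2))) (((q2.conv (p1 η1)).add (q3.conv (p1 η2))).smul _),
        ev_add ((ww η1 η1).conv (ww η2 η2)) (((ww η2 η1).conv (ww η1 η2)).smul _),
        ev_smul, ev_smul, ev_add (q2.conv (p1 η1)) (q3.conv (p1 η2)),
        ev_conv q1 ((p2 η1).add (p2 η2)), ev_conv q2 (p1 η1), ev_conv q3 (p1 η2),
        ev_conv (ww η1 η1) (ww η2 η2), ev_conv (ww η2 η1) (ww η1 η2),
        ev_add ((w η1).conv (w η1)) ((w η2).conv (w η2)), ev_add (p2 η1) (p2 η2),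
        ev_add ((w η1).conv (ww η1 η1)) ((w η2).conv (ww η1 η2)),
        ev_add ((w η1).conv (ww η2 η1)) ((w η2).conv (ww η2 η2)),
        ev_conv (w η1) (w η1), ev_conv (w η2) (w η2), ev_conv (w η1) (ww η1 η1),
        ev_conv (w η2) (ww η1 η2), ev_conv (w η1) (ww η2 η1), ev_conv (w η2) (ww η2 η2)]
      simp only [Complex.add_re, Complex.mul_re, Complex.add_im, Complex.mul_im, Complex.ofReal_re,
        Complex.ofReal_im, (hW η1 x).2, (hW η2 x).2, (hDW η1 η1 x).2, (hDW η1 η2 x).2,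
        (hDW η2 η1 x).2, (hDW η2 η2 x).2]
      ring
    have hg : ∀ η, DifferentiableAt ℝ (gN ε u v η) x :=
      fun η => (contDiff_gN hu.smooth hvs.smooth η).differentiable (by simp) x
    have dS : ∀ ξ, der ξ (gS η1 η2 ε u v) x =
        2 * gN ε u v η1 x * der ξ (gN ε u v η1) x + 2 * gN ε u v η2 x * der ξ (gN ε u v η2) x := by
      intro ξ
      unfold gS
      simp only [sq]
      rw [der_add' ξ ((hg η1).fun_mul (hg η1)) ((hg η2).fun_mul (hg η2)),
        der_mul' ξ (hg η1) (hg η1), der_mul' ξ (hg η2) (hg η2)]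
      ring
    rw [curvQ, dS, dS, gS, (hW η1 x).1, (hW η2 x).1, (hDW η1 η1 x).1, (hDW η1 η2 x).1,
      (hDW η2 η1 x).1, (hDW η2 η2 x).1, der2_re_ev (hall 2), der2_re_ev (hall 2),
      der_re_ev (hall 1), der_re_ev (hall 1)]
    linear_combination hlap + ε ^ 2 * hrhs
  · intro x
    obtain ⟨hb, _, heq⟩ := hfix (0 ^ 2) (hsq 0 ⟨le_rfl, hε0p.le⟩)
    have : c ((0 : ℝ) ^ 2) = 0 := by
      rw [heq]; funext k; simp [linv]
    show (ev (c ((0 : ℝ) ^ 2)) x).re = 0
    rw [this]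
    simp [ev]
  · have hcont : ∀ (F : Coef → Coef) (B : ℝ), 0 ≤ B →
        (∀ d, Mem 2 d → Mem 0 (F d) ∧ nrm 0 (F d) ≤ B * nrm 2 d) →
        (∀ d e, F (d - e) = F d - F e) →
        ContinuousOn (fun z : ℝ × Pl => (ev (F (c (z.1 ^ 2))) z.2).re)
          (Set.Icc 0 ε0 ×ˢ Set.univ) := by
      intro F B hB hF hlin z hz
      obtain ⟨hz1, -⟩ := hz
      have hc0 : Continuous fun y : Pl => (ev (F (c (z.1 ^ 2))) y).re :=
        Complex.continuous_re.comp (continuous_ev (hF _ (hfix _ (hsq _ hz1)).1.1).1)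
      have key : ∀ w : ℝ × Pl, w.1 ∈ Set.Icc 0 ε0 →
          |(ev (F (c (w.1 ^ 2))) w.2).re - (ev (F (c (z.1 ^ 2))) z.2).re| ≤
            B * (L * |w.1 ^ 2 - z.1 ^ 2|) +
              |(ev (F (c (z.1 ^ 2))) w.2).re - (ev (F (c (z.1 ^ 2))) z.2).re| := by
        intro w hw
        refine (abs_sub_le _ (ev (F (c (z.1 ^ 2))) w.2).re _).trans (add_le_add ?_ le_rfl)
        have ma := (hfix _ (hsq _ hw)).1.1
        have mb := (hfix _ (hsq _ hz1)).1.1
        rw [← Complex.sub_re, ← ev_sub (hF _ ma).1 (hF _ mb).1, ← hlin]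
        refine (Complex.abs_re_le_norm _).trans ((norm_ev_le (hF _ (ma.sub mb)).1 _).trans ?_)
        exact (hF _ (ma.sub mb)).2.trans
          (mul_le_mul_of_nonneg_left (hlip _ (hsq _ hw) _ (hsq _ hz1)) hB)
      rw [ContinuousWithinAt, tendsto_iff_dist_tendsto_zero]
      have hg : Filter.Tendsto (fun w : ℝ × Pl => B * (L * |w.1 ^ 2 - z.1 ^ 2|) +
          |(ev (F (c (z.1 ^ 2))) w.2).re - (ev (F (c (z.1 ^ 2))) z.2).re|)
          (nhdsWithin z (Set.Icc 0 ε0 ×ˢ Set.univ)) (nhds 0) := by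
        have : Continuous fun w : ℝ × Pl => B * (L * |w.1 ^ 2 - z.1 ^ 2|) +
            |(ev (F (c (z.1 ^ 2))) w.2).re - (ev (F (c (z.1 ^ 2))) z.2).re| :=
          (continuous_const.mul (continuous_const.mul
            ((continuous_fst.pow 2).sub continuous_const).abs)).add
            ((hc0.comp continuous_snd).sub continuous_const).abs
        have h0 := this.continuousWithinAt (s := Set.Icc 0 ε0 ×ˢ Set.univ) (x := z)
        simpa [ContinuousWithinAt] using h0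
      refine squeeze_zero' (Filter.Eventually.of_forall fun w => dist_nonneg) ?_ hg
      filter_upwards [self_mem_nhdsWithin] with w hw
      rw [Real.dist_eq]
      exact key w hw.1
    refine ⟨?_, fun η => ?_, fun η ξ => ?_⟩
    · exact hcont id 1 zero_le_one (fun d hd => ⟨hd.mono (Nat.zero_le 2),
        by rw [one_mul]; exact nrm_mono (Nat.zero_le 2) hd⟩) fun d e => rfl
    · refine (hcont (dC η) (dconst η) (dconst_nonneg η) (fun d hd => ⟨(hd.mono one_le_two).dC η,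
        (nrm_dC_le η (hd.mono one_le_two)).trans (mul_le_mul_of_nonneg_left
          (nrm_mono one_le_two hd) (dconst_nonneg η))⟩) (dC_sub η)).congr fun z hz => ?_
      exact der_re_ev ((hfix _ (hsq _ hz.1)).2.1 1) η z.2
    · refine (hcont (fun d => dC ξ (dC η d)) (dconst ξ * dconst η)
        (mul_nonneg (dconst_nonneg ξ) (dconst_nonneg η))
        (fun d hd => ⟨(hd.dC η).dC ξ, (nrm_dC_le ξ (hd.dC η)).trans
          ((mul_le_mul_of_nonneg_left (nrm_dC_le η hd) (dconst_nonneg ξ)).trans_eq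
            (mul_assoc _ _ _).symm)⟩)
        (fun d e => by rw [dC_sub, dC_sub])).congr fun z hz => ?_
      exact der2_re_ev ((hfix _ (hsq _ hz.1)).2.1 2) η ξ z.2

end Vale.Agent.P205.Full
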