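import Vale.Agent.P205.Full.Isothermal
import Vale.Agent.P205.Full.Solution
import Vale.Agent.P205.Full.Hopf

/-!
Every smooth metric on the torus is induced by a smooth immersion into four-space.
-/

open scoped ContDiff
open Complex Set

namespace Vale.Agent.P205.Full

theorem eq_zero_of_curl {a b r : Pl → ℝ} {q : ℝ} (ha : SP a) (hb : SP b) (hr : Continuous r)
    (hpos : ∀ x, 0 < r x) (h : ∀ x, der e1 b x - der e2 a x = r x * q) : q = 0 := by
  have cb : Continuous (der e1 b) := (hb.derR e1).smooth.continuous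
  have ca : Continuous (der e2 a) := (ha.derR e2).smooth.continuous
  have hb0 : ∀ y, ∫ x in (0 : ℝ)..1, der e1 b (x, y) = 0 := by
    intro y
    rw [intervalIntegral.integral_eq_sub_of_hasDerivAt
      (f := fun t => b (t, y)) (f' := fun t => der e1 b (t, y)) (fun t _ =>
        ((hb.smooth.differentiable (by simp) (t, y)).hasFDerivAt).comp_hasDerivAt t
          ((hasDerivAt_id t).prodMk (hasDerivAt_const t y))) ?_]
    · rw [sub_eq_zero]
      simpa using (per_at hb.per 0 y).1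
    · exact (cb.comp (continuous_id.prodMk continuous_const)).intervalIntegrable _ _
  have ha0 : ∀ x, ∫ y in (0 : ℝ)..1, der e2 a (x, y) = 0 := by
    intro x
    rw [intervalIntegral.integral_eq_sub_of_hasDerivAt
      (f := fun t => a (x, t)) (f' := fun t => der e2 a (x, t)) (fun t _ =>
        ((ha.smooth.differentiable (by simp) (x, t)).hasFDerivAt).comp_hasDerivAt t
          ((hasDerivAt_const t x).prodMk (hasDerivAt_id t))) ?_]
    · rw [sub_eq_zero]
      simpa using (per_at ha.per x 0).2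
    · exact (ca.comp (continuous_const.prodMk continuous_id)).intervalIntegrable _ _
  have hswap : ∫ y in (0 : ℝ)..1, ∫ x in (0 : ℝ)..1, der e2 a (x, y) = 0 := by
    rw [MeasureTheory.intervalIntegral_intervalIntegral_swap]
    · simp [ha0]
    · have hc : Continuous fun p : ℝ × ℝ => der e2 a (p.2, p.1) :=
        ca.comp (continuous_snd.prodMk continuous_fst)
      exact hc.continuousOn.integrableOn_compact (isCompact_uIcc.prod isCompact_uIcc)
        |>.mono_set (Set.prod_mono Set.uIoc_subset_uIcc Set.uIoc_subset_uIcc)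
  have hR : Continuous fun y => ∫ x in (0 : ℝ)..1, r (x, y) :=
    intervalIntegral.continuous_parametric_intervalIntegral_of_continuous'
      (f := fun y x => r (x, y)) (hr.comp (continuous_snd.prodMk continuous_fst)) 0 1
  have hA : Continuous fun y => ∫ x in (0 : ℝ)..1, der e2 a (x, y) :=
    intervalIntegral.continuous_parametric_intervalIntegral_of_continuous'
      (f := fun y x => der e2 a (x, y)) (ca.comp (continuous_snd.prodMk continuous_fst)) 0 1
  have hy : ∀ y, (∫ x in (0 : ℝ)..1, r (x, y)) * q = -∫ x in (0 : ℝ)..1, der e2 a (x, y) := by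
    intro y
    have cx : Continuous fun x : ℝ => ((x, y) : Pl) := continuous_id.prodMk continuous_const
    rw [← intervalIntegral.integral_mul_const]
    simp only [← h]
    rw [intervalIntegral.integral_sub (cb.comp' cx |>.intervalIntegrable _ _)
      (ca.comp' cx |>.intervalIntegrable _ _), hb0, zero_sub]
  have hI : 0 < ∫ y in (0 : ℝ)..1, ∫ x in (0 : ℝ)..1, r (x, y) :=
    intervalIntegral.intervalIntegral_pos_of_pos (hR.intervalIntegrable _ _)
      (fun y => intervalIntegral.intervalIntegral_pos_of_pos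
        ((hr.comp' (continuous_id.prodMk continuous_const)).intervalIntegrable _ _)
        (fun x => hpos _) one_pos) one_pos
  have : (∫ y in (0 : ℝ)..1, ∫ x in (0 : ℝ)..1, r (x, y)) * q = 0 := by
    rw [← intervalIntegral.integral_mul_const]
    simp only [hy, intervalIntegral.integral_neg, hswap, neg_zero]
  exact (mul_eq_zero.1 this).resolve_left hI.ne'

section Combos

variable (η1 η2 : Pl) (ε : ℝ) (u v : Pl → ℝ)

/-- The coframe component along a vector with coordinates `t`. -/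
noncomputable def cofr (t : ℂ) (x : Pl) : ℂ :=
  (t.re : ℂ) * frame1 η1 η2 ε u v x + (t.im : ℂ) * frame2 η1 η2 ε u v x

/-- The connection component along a vector with coordinates `t`. -/
noncomputable def conn (t : ℂ) (x : Pl) : ℝ :=
  t.re * conn1 η1 η2 ε u v x + t.im * conn2 η1 η2 ε u v x

variable {η1 η2 ε u v}

theorem sp_gN (hu : SP u) (hv : SP v) (η : Pl) : SP (gN ε u v η) :=
  ⟨contDiff_gN hu.smooth hv.smooth η,
    ⟨fun x => by simp [gN, hv.per.add1, (hu.derR η).per.add1, (hv.derR η).per.add1],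
      fun x => by simp [gN, hv.per.add2, (hu.derR η).per.add2, (hv.derR η).per.add2]⟩⟩

theorem sp_gR (hu : SP u) (hv : SP v) (hS : ∀ x, gS η1 η2 ε u v x < 1) :
    SP (gR η1 η2 ε u v) :=
  ⟨contDiff_gR hu.smooth hv.smooth hS,
    ⟨fun x => by simp [gR, gS, (sp_gN hu hv η1).per.add1, (sp_gN hu hv η2).per.add1],
      fun x => by simp [gR, gS, (sp_gN hu hv η1).per.add2, (sp_gN hu hv η2).per.add2]⟩⟩

theorem sp_cofr (hu : SP u) (hv : SP v) (hS : ∀ x, gS η1 η2 ε u v x < 1) (t : ℂ) :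
    SP (cofr η1 η2 ε u v t) := by
  have hR := sp_gR hu hv hS
  have h1 := sp_gN (ε := ε) hu hv η1
  have h2 := sp_gN (ε := ε) hu hv η2
  have hp : ∀ x, 1 + gR η1 η2 ε u v x ≠ 0 := fun x => by linarith [gR_pos hS x]
  have hi : ContDiff ℝ ∞ fun x => (1 + gR η1 η2 ε u v x)⁻¹ :=
    (contDiff_const.add hR.smooth).inv hp
  have he := hv.smooth.neg.exp
  refine ⟨?_, ⟨fun x => ?_, fun x => ?_⟩⟩
  · unfold cofr frame1 frame2
    have hc : ContDiff ℝ ∞ (fun r : ℝ => (r : ℂ)) := Complex.ofRealCLM.contDiff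
    exact (contDiff_const.mul ((hc.comp (he.mul (contDiff_const.sub
        ((h1.smooth.mul h1.smooth).mul hi)))).add ((hc.comp (he.mul (contDiff_const.sub
        ((h2.smooth.mul h1.smooth).mul hi)))).mul contDiff_const))).add
      (contDiff_const.mul ((hc.comp (he.mul (contDiff_const.sub
        ((h1.smooth.mul h2.smooth).mul hi)))).add ((hc.comp (he.mul (contDiff_const.sub
        ((h2.smooth.mul h2.smooth).mul hi)))).mul contDiff_const)))
  · simp [cofr, frame1, frame2, hv.per.add1, h1.per.add1, h2.per.add1, hR.per.add1]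
  · simp [cofr, frame1, frame2, hv.per.add2, h1.per.add2, h2.per.add2, hR.per.add2]

theorem sp_conn (hu : SP u) (hv : SP v) (hS : ∀ x, gS η1 η2 ε u v x < 1) (t : ℂ) :
    SP (conn η1 η2 ε u v t) := by
  have hR := sp_gR hu hv hS
  have h1 := sp_gN (ε := ε) hu hv η1
  have h2 := sp_gN (ε := ε) hu hv η2
  have hp : ∀ x, gR η1 η2 ε u v x * (1 + gR η1 η2 ε u v x) ≠ 0 := fun x =>
    mul_ne_zero (gR_pos hS x).ne' (by linarith [gR_pos hS x])
  have hi : ContDiff ℝ ∞ fun x => (gR η1 η2 ε u v x)⁻¹ :=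
    hR.smooth.inv fun x => (gR_pos hS x).ne'
  have hH : ContDiff ℝ ∞ fun x => (gR η1 η2 ε u v x * (1 + gR η1 η2 ε u v x))⁻¹ :=
    (hR.smooth.mul (contDiff_const.add hR.smooth)).inv hp
  have hX : ∀ η, ContDiff ℝ ∞ (gX η1 η2 ε u v η) := fun η =>
    (h1.smooth.mul (h2.derR η).smooth).sub (h2.smooth.mul (h1.derR η).smooth)
  refine ⟨?_, ⟨fun x => ?_, fun x => ?_⟩⟩
  · unfold conn conn1 conn2 gH
    exact (contDiff_const.mul ((hi.mul (hv.derR η2).smooth.neg).sub (hH.mul (hX η1)))).add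
      (contDiff_const.mul ((hi.mul (hv.derR η1).smooth).sub (hH.mul (hX η2))))
  · simp [conn, conn1, conn2, gH, gX, h1.per.add1, h2.per.add1, hR.per.add1,
      (hv.derR η1).per.add1, (hv.derR η2).per.add1, (h1.derR η1).per.add1, (h1.derR η2).per.add1,
      (h2.derR η1).per.add1, (h2.derR η2).per.add1]
  · simp [conn, conn1, conn2, gH, gX, h1.per.add2, h2.per.add2, hR.per.add2,
      (hv.derR η1).per.add2, (hv.derR η2).per.add2, (h1.derR η1).per.add2, (h1.derR η2).per.add2,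
      (h2.derR η1).per.add2, (h2.derR η2).per.add2]

theorem sp_frame1 (hu : SP u) (hv : SP v) (hS : ∀ x, gS η1 η2 ε u v x < 1) :
    SP (frame1 η1 η2 ε u v) := by
  have h := sp_cofr hu hv hS 1
  have e : cofr η1 η2 ε u v 1 = frame1 η1 η2 ε u v := by funext x; simp [cofr]
  rwa [e] at h

theorem sp_frame2 (hu : SP u) (hv : SP v) (hS : ∀ x, gS η1 η2 ε u v x < 1) :
    SP (frame2 η1 η2 ε u v) := by
  have h := sp_cofr hu hv hS I
  have e : cofr η1 η2 ε u v I = frame2 η1 η2 ε u v := by funext x; simp [cofr]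
  rwa [e] at h

theorem sp_conn1 (hu : SP u) (hv : SP v) (hS : ∀ x, gS η1 η2 ε u v x < 1) :
    SP (conn1 η1 η2 ε u v) := by
  have h := sp_conn hu hv hS 1
  have e : conn η1 η2 ε u v 1 = conn1 η1 η2 ε u v := by funext x; simp [conn]
  rwa [e] at h

theorem sp_conn2 (hu : SP u) (hv : SP v) (hS : ∀ x, gS η1 η2 ε u v x < 1) :
    SP (conn2 η1 η2 ε u v) := by
  have h := sp_conn hu hv hS I
  have e : conn η1 η2 ε u v I = conn2 η1 η2 ε u v := by funext x; simp [conn]
  rwa [e] at h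

/-- The frame is a flat coframe when the curvature expression is constant. -/
theorem flatCoframe_frame {t1 t2 : ℂ} (ht : 0 < area t1 t2) (hu : SP u) (hv : SP v)
    (hS : ∀ x, gS (dirA t1 t2) (dirB t1 t2) ε u v x < 1) {q0 : ℝ}
    (hq : ∀ x, curvQ (dirA t1 t2) (dirB t1 t2) ε u v x = q0) :
    FlatCoframe (cofr (dirA t1 t2) (dirB t1 t2) ε u v t1) (cofr (dirA t1 t2) (dirB t1 t2) ε u v t2)
      (conn (dirA t1 t2) (dirB t1 t2) ε u v t1) (conn (dirA t1 t2) (dirB t1 t2) ε u v t2) := by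
  set η1 := dirA t1 t2 with hη1
  set η2 := dirB t1 t2 with hη2
  have de : ∀ {α : Type} [NormedAddCommGroup α] [NormedSpace ℝ α] (f : Pl → α) (x : Pl),
      der e1 f x = t1.re • der η1 f x + t1.im • der η2 f x ∧
      der e2 f x = t2.re • der η1 f x + t2.im • der η2 f x := by
    intro α _ _ f x
    have a1 : e1 = t1.re • η1 + t1.im • η2 := by
      have := ht.ne'
      simp only [hη1, hη2, dirA, dirB, e1]
      apply Prod.ext <;> simp <;> field_simp <;> simp only [area] <;> ring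
    have a2 : e2 = t2.re • η1 + t2.im • η2 := by
      have := ht.ne'
      simp only [hη1, hη2, dirA, dirB, e2]
      apply Prod.ext <;> simp <;> field_simp <;> simp only [area] <;> ring
    constructor
    · rw [a1]; simp [der, map_add, map_smul]
    · rw [a2]; simp [der, map_add, map_smul]
  have f1 := sp_frame1 hu hv hS
  have f2 := sp_frame2 hu hv hS
  have c1 := sp_conn1 hu hv hS
  have c2 := sp_conn2 hu hv hS
  have dF : ∀ (η : Pl) (t : ℂ) (x : Pl), der η (cofr η1 η2 ε u v t) x =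
      (t.re : ℂ) * der η (frame1 η1 η2 ε u v) x + (t.im : ℂ) * der η (frame2 η1 η2 ε u v) x := by
    intro η t x
    have h1 := ((f1.smooth.differentiable (by simp) x).hasFDerivAt.const_mul (t.re : ℂ))
    have h2 := ((f2.smooth.differentiable (by simp) x).hasFDerivAt.const_mul (t.im : ℂ))
    have h := (h1.fun_add h2).fderiv
    unfold cofr
    simp only [der, h]
    simp
  have dC' : ∀ (η : Pl) (t : ℂ) (x : Pl), der η (conn η1 η2 ε u v t) x =
      t.re * der η (conn1 η1 η2 ε u v) x + t.im * der η (conn2 η1 η2 ε u v) x := by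
    intro η t x
    have h1 := c1.smooth.differentiable (by simp) x
    have h2 := c2.smooth.differentiable (by simp) x
    unfold conn
    rw [der_add' η (h1.const_mul _) (h2.const_mul _), der_const_mul' η _ h1,
      der_const_mul' η _ h2]
  have hcurl : ∀ x, der e1 (conn η1 η2 ε u v t2) x - der e2 (conn η1 η2 ε u v t1) x =
      area t1 t2 * (gR η1 η2 ε u v x ^ 3)⁻¹ * q0 := by
    intro x
    rw [(de _ x).1, (de _ x).2, dC', dC', dC', dC', mul_assoc,
      show (gR η1 η2 ε u v x ^ 3)⁻¹ * q0 =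
        (gR η1 η2 ε u v x ^ 3)⁻¹ * curvQ η1 η2 ε u v x by rw [hq],
      ← conn_curv hu.smooth hv.smooth hS]
    simp only [smul_eq_mul, area]
    ring
  have h0 : q0 = 0 := eq_zero_of_curl (sp_conn hu hv hS t1) (sp_conn hu hv hS t2)
    (continuous_const.mul (((sp_gR hu hv hS).smooth.continuous.pow 3).inv₀
      fun x => (pow_pos (gR_pos hS x) 3).ne'))
    (fun x => mul_pos ht (inv_pos.2 (pow_pos (gR_pos hS x) 3))) hcurl
  refine ⟨sp_cofr hu hv hS t1, sp_cofr hu hv hS t2, sp_conn hu hv hS t1, sp_conn hu hv hS t2,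
    fun x => ?_, fun x => ?_, fun x => ?_⟩
  · obtain ⟨m1, m2, m3, m4⟩ := frame_metric hS x
    have key : ((starRingEnd ℂ) (cofr η1 η2 ε u v t1 x) * cofr η1 η2 ε u v t2 x).im =
        area t1 t2 * (Real.exp (-v x) ^ 2 * gR η1 η2 ε u v x) := by
      rw [← m4]
      simp [cofr, area]
      ring
    rw [key]
    exact mul_pos ht (mul_pos (pow_pos (Real.exp_pos _) 2) (gR_pos hS x))
  · rw [(de _ x).1, (de _ x).2, dF, dF, dF, dF]
    have hs := frame_str hu.smooth hv.smooth hS x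
    simp only [cofr, conn, Complex.real_smul]
    push_cast
    simp only [area] at *
    linear_combination ((t1.re : ℂ) * (t2.im : ℂ) - (t1.im : ℂ) * (t2.re : ℂ)) * hs
  · have := hcurl x
    rw [h0, mul_zero] at this
    linarith

end Combos

/-- The conformally flat case. -/
theorem exists_conformal {t1 t2 : ℂ} (ht : 0 < area t1 t2) {u : Pl → ℝ} (hu : SP u) :
    ∃ Φ : Pl → EuclideanSpace ℝ (Fin 4), SP Φ ∧ ∀ y z w,
      inner ℝ (fderiv ℝ Φ y z) (fderiv ℝ Φ y w) = Real.exp (u y) ^ 2 *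
        inner ℝ (Develop.periodMap t1 t2 z) (Develop.periodMap t1 t2 w) := by
  obtain ⟨B0, hB⟩ := exists_hopf
  set η1 := dirA t1 t2 with hη1
  set η2 := dirB t1 t2 with hη2
  have hdet : η1.1 * η2.2 - η1.2 * η2.1 ≠ 0 := by
    have : η1.1 * η2.2 - η1.2 * η2.1 = 1 / area t1 t2 := by
      have := ht.ne'
      simp only [hη1, hη2, dirA, dirB]
      field_simp
      simp only [area]; ring
    rw [this]
    exact one_div_ne_zero ht.ne'
  obtain ⟨ε0, v, hε0, hsol, hv0, cv, cdv, cddv⟩ := exists_solution hdet hu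
  set S : Set ℝ := Icc 0 ε0 with hS
  set P : ℝ → Pl → ℂ := fun ε => cofr η1 η2 ε u (v ε) t1 with hP
  set Q : ℝ → Pl → ℂ := fun ε => cofr η1 η2 ε u (v ε) t2 with hQ
  set A : ℝ → Pl → ℝ := fun ε => conn η1 η2 ε u (v ε) t1 with hA
  set Bc : ℝ → Pl → ℝ := fun ε => conn η1 η2 ε u (v ε) t2 with hBc
  have hfc : ∀ ε ∈ S, FlatCoframe (P ε) (Q ε) (A ε) (Bc ε) := fun ε hε => by
    obtain ⟨h1, h2, q0, h3⟩ := hsol ε hε
    exact flatCoframe_frame ht hu h1 h2 h3
  -- continuity in the parameter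
  have cε : ContinuousOn (fun z : ℝ × Pl => z.1) (S ×ˢ univ) := continuousOn_fst
  have cE : ContinuousOn (fun z : ℝ × Pl => Real.exp (-v z.1 z.2)) (S ×ˢ univ) := cv.neg.rexp
  have cu : ∀ η, ContinuousOn (fun z : ℝ × Pl => der η u z.2) (S ×ˢ univ) := fun η =>
    ((hu.derR η).smooth.continuous.comp continuous_snd).continuousOn
  have cuu : ∀ η ξ, ContinuousOn (fun z : ℝ × Pl => der ξ (der η u) z.2) (S ×ˢ univ) := fun η ξ =>
    (((hu.derR η).derR ξ).smooth.continuous.comp continuous_snd).continuousOn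
  have cN : ∀ η, ContinuousOn (fun z : ℝ × Pl => gN z.1 u (v z.1) η z.2) (S ×ˢ univ) :=
    fun η => (cε.mul cv.rexp).mul ((cu η).add (cdv η))
  have cR : ContinuousOn (fun z : ℝ × Pl => gR η1 η2 z.1 u (v z.1) z.2) (S ×ˢ univ) :=
    (continuousOn_const.sub (((cN η1).pow 2).add ((cN η2).pow 2))).sqrt
  have cRpos : ∀ z ∈ S ×ˢ (univ : Set Pl), 0 < gR η1 η2 z.1 u (v z.1) z.2 :=
    fun z hz => gR_pos (hsol z.1 hz.1).2.1 z.2
  have cI : ContinuousOn (fun z : ℝ × Pl => (1 + gR η1 η2 z.1 u (v z.1) z.2)⁻¹) (S ×ˢ univ) :=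
    (continuousOn_const.add cR).inv₀ fun z hz => ne_of_gt (add_pos one_pos (cRpos z hz))
  have cDN : ∀ η ξ, ContinuousOn (fun z : ℝ × Pl => der η (gN z.1 u (v z.1) ξ) z.2) (S ×ˢ univ) := by
    intro η ξ
    refine (((cdv η).mul (cN ξ)).add
      ((cε.mul cv.rexp).mul ((cuu ξ η).add (cddv ξ η)))).congr fun z hz => ?_
    have hvs := (hsol z.1 hz.1).1
    set x := z.2
    set w := v z.1
    have hv0 : DifferentiableAt ℝ w x := hvs.smooth.differentiable (by simp) x
    have hu1 : DifferentiableAt ℝ (der ξ u) x := (hu.derR ξ).smooth.differentiable (by simp) x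
    have hv1 : DifferentiableAt ℝ (der ξ w) x := (hvs.derR ξ).smooth.differentiable (by simp) x
    simp only [Pi.add_apply, Pi.mul_apply]
    unfold gN
    rw [der_mul' η ((differentiableAt_const z.1).fun_mul hv0.exp) (hu1.fun_add hv1),
      der_const_mul' η z.1 hv0.exp, der_comp' η (Real.hasDerivAt_exp _) hv0, der_add' η hu1 hv1]
    ring
  have cX : ∀ η, ContinuousOn (fun z : ℝ × Pl => gX η1 η2 z.1 u (v z.1) η z.2) (S ×ˢ univ) :=
    fun η => ((cN η1).mul (cDN η η2)).sub ((cN η2).mul (cDN η η1))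
  have cH : ContinuousOn (fun z : ℝ × Pl => gH η1 η2 z.1 u (v z.1) z.2) (S ×ˢ univ) :=
    (cR.mul (continuousOn_const.add cR)).inv₀ fun z hz =>
      mul_ne_zero (cRpos z hz).ne' (ne_of_gt (add_pos one_pos (cRpos z hz)))
  have cRi : ContinuousOn (fun z : ℝ × Pl => (gR η1 η2 z.1 u (v z.1) z.2)⁻¹) (S ×ˢ univ) :=
    cR.inv₀ fun z hz => (cRpos z hz).ne'
  have cr : Continuous (fun r : ℝ => (r : ℂ)) := Complex.continuous_ofReal
  have cP : ∀ t : ℂ, ContinuousOn (fun z : ℝ × Pl => cofr η1 η2 z.1 u (v z.1) t z.2) (S ×ˢ univ) :=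
    fun t => by
      have e : ∀ (c : ℝ) (η η' : Pl), ContinuousOn (fun z : ℝ × Pl =>
          ((Real.exp (-v z.1 z.2) * (c - gN z.1 u (v z.1) η z.2 * gN z.1 u (v z.1) η' z.2 *
            (1 + gR η1 η2 z.1 u (v z.1) z.2)⁻¹) : ℝ) : ℂ)) (S ×ˢ univ) := fun c η η' =>
        cr.comp_continuousOn (cE.mul (continuousOn_const.sub (((cN η).mul (cN η')).mul cI)))
      exact (continuousOn_const.mul ((e 1 η1 η1).add ((e 0 η2 η1).mul continuousOn_const))).add
        (continuousOn_const.mul ((e 0 η1 η2).add ((e 1 η2 η2).mul continuousOn_const)))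
  have cA : ∀ t : ℂ, ContinuousOn (fun z : ℝ × Pl => conn η1 η2 z.1 u (v z.1) t z.2) (S ×ˢ univ) :=
    fun t => (continuousOn_const.mul ((cRi.mul (cdv η2).neg).sub (cH.mul (cX η1)))).add
      (continuousOn_const.mul ((cRi.mul (cdv η1)).sub (cH.mul (cX η2))))
  set T1 : ℝ → ℂ := fun ε => dev (P ε) (Q ε) (A ε) (Bc ε) e1 with hT1
  set T2 : ℝ → ℂ := fun ε => dev (P ε) (Q ε) (A ε) (Bc ε) e2 with hT2
  have cT1 : ContinuousOn T1 S := continuousOn_dev (cP t1) (cP t2) (cA t1) (cA t2) e1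
  have cT2 : ContinuousOn T2 S := continuousOn_dev (cP t1) (cP t2) (cA t1) (cA t2) e2
  have hv00 : v 0 = fun _ => (0 : ℝ) := funext hv0
  have hz : ∀ x, P 0 x = t1 ∧ Q 0 x = t2 ∧ A 0 x = 0 ∧ Bc 0 x = 0 := by
    intro x
    have hN : ∀ η : Pl, gN 0 u (fun _ => (0 : ℝ)) η = fun _ => (0 : ℝ) :=
      fun η => funext fun y => by simp [gN]
    have hd : ∀ η y : Pl, der η (fun _ : Pl => (0 : ℝ)) y = 0 := fun η y => by simp [der]
    refine ⟨?_, ?_, ?_, ?_⟩ <;>
      simp [hP, hQ, hA, hBc, hv00, cofr, conn, frame1, frame2, conn1, conn2, gX, gR, gS, hN, hd]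
  have hph : ∀ x, phase (A 0) (Bc 0) x = 0 := fun x => by
    simp [phase, (hz _).2.2.1, (hz _).2.2.2]
  have hT10 : T1 0 = t1 := by
    simp [hT1, dev, hph, (hz _).1, (hz _).2.1, e1]
  have hT20 : T2 0 = t2 := by
    simp [hT2, dev, hph, (hz _).1, (hz _).2.1, e2]
  -- choice of the parameter
  set f0 : ℝ := ‖t1‖ with hf0
  have hf0p : 0 < f0 := norm_pos_iff.2 fun h => by simp [area, h] at ht
  set d := area t1 t2 with hd
  have h0S : (0 : ℝ) ∈ S := ⟨le_rfl, hε0.le⟩
  have cm : ContinuousOn (fun ε => area (T1 ε) (T2 ε)) S :=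
    ((Complex.continuous_re.comp_continuousOn cT1).mul
      (Complex.continuous_im.comp_continuousOn cT2)).sub
      ((Complex.continuous_im.comp_continuousOn cT1).mul
        (Complex.continuous_re.comp_continuousOn cT2))
  have hev : ∀ᶠ ε in nhdsWithin (0 : ℝ) S, d / 2 < area (T1 ε) (T2 ε) ∧ ‖T1 ε‖ < 2 * f0 := by
    refine ((cm 0 h0S).eventually_const_lt (by simp [hT10, hT20, ← hd]; linarith)).and
      ((cT1.norm 0 h0S).eventually_lt_const (by simp [hT10, ← hf0]; linarith))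
  obtain ⟨δ, hδ, hball⟩ := Metric.mem_nhdsWithin_iff.1 hev
  set ε1 : ℝ := min (min ε0 (δ / 2)) (d / (4 * f0 * (|B0| + 1))) with hε1
  have hε1p : 0 < ε1 := lt_min (lt_min hε0 (half_pos hδ)) (by positivity)
  have hin : ∀ ε ∈ Icc (0 : ℝ) ε1, ε ∈ S ∧ d / 2 < area (T1 ε) (T2 ε) ∧ ‖T1 ε‖ < 2 * f0 := by
    intro ε hε
    have h1 : ε ∈ S := ⟨hε.1, hε.2.trans ((min_le_left _ _).trans (min_le_left _ _))⟩
    refine ⟨h1, hball ⟨?_, h1⟩⟩
    rw [Metric.mem_ball, Real.dist_eq, sub_zero, abs_of_nonneg hε.1]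
    linarith [hε.2.trans ((min_le_left _ _).trans (min_le_right ε0 (δ / 2)))]
  obtain ⟨k, hk⟩ := exists_nat_gt (2 * f0 / (2 * Real.pi * ε1))
  rw [div_lt_iff₀ (by positivity)] at hk
  have cg : ContinuousOn (fun ε => ‖T1 ε‖ - 2 * Real.pi * k * ε) (Icc 0 ε1) :=
    (cT1.norm.mono fun ε hε => (hin ε hε).1).sub (continuousOn_const.mul continuousOn_id)
  obtain ⟨ε, hεI, hεeq⟩ := intermediate_value_Icc' hε1p.le cg (show (0 : ℝ) ∈ Icc
      (‖T1 ε1‖ - 2 * Real.pi * k * ε1) (‖T1 0‖ - 2 * Real.pi * k * 0) from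
    ⟨by nlinarith [(hin ε1 ⟨hε1p.le, le_rfl⟩).2.2], by simp [hT10, ← hf0]; linarith⟩)
  obtain ⟨hεS, hm, hnorm⟩ := hin ε hεI
  have hlen : ‖T1 ε‖ = 2 * Real.pi * k * ε := by linarith
  have hεp : 0 < ε := by
    rcases hεI.1.eq_or_lt with h | h
    · subst h
      rw [hT10, mul_zero] at hlen
      rw [hf0, hlen] at hf0p
      exact absurd hf0p (lt_irrefl _)
    · exact h
  obtain ⟨hvs, hSl, -⟩ := hsol ε hεS
  obtain ⟨hds, hd1, hd2, -, hmet⟩ := dev_spec (hfc ε hεS)
  have hT1ne : T1 ε ≠ 0 := fun h => by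
    rw [show area (T1 ε) (T2 ε) = 0 by simp [area, h]] at hm
    linarith [div_pos ht two_pos]
  have hn0 : 0 < ‖T1 ε‖ := norm_pos_iff.2 hT1ne
  set ρ : ℂ := (starRingEnd ℂ) (T1 ε) / (‖T1 ε‖ : ℂ) with hρ
  have hρn : ‖ρ‖ = 1 := by
    simp [hρ, hT1ne]
  set σ : ℂ := ρ * T2 ε / (ε : ℂ) with hσ
  have hσim : B0 ≤ σ.im := by
    have e : σ.im = area (T1 ε) (T2 ε) / (‖T1 ε‖ * ε) := by
      simp only [hσ, hρ, area]
      rw [div_mul_eq_mul_div, Complex.div_ofReal_im, Complex.div_ofReal_im]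
      simp
      field_simp
      ring
    rw [e, le_div_iff₀ (mul_pos hn0 hεp)]
    have h1 : ε * (4 * f0 * (|B0| + 1)) ≤ d := by
      have := hεI.2.trans (min_le_right _ _)
      rwa [le_div_iff₀ (by positivity)] at this
    have h2 : ‖T1 ε‖ * ε ≤ 2 * f0 * ε := by gcongr
    have h3 : B0 * (‖T1 ε‖ * ε) ≤ |B0| * (2 * f0 * ε) :=
      mul_le_mul (le_abs_self _) h2 (by positivity) (abs_nonneg _)
    nlinarith [mul_pos hf0p hεp]
  obtain ⟨H, hH, hH1, hHa, hHb, hHm⟩ := hB σ.re σ.im hσim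
  rw [Complex.re_add_im] at hHb
  have hHk : ∀ z, H (z + ((2 * Real.pi * k : ℝ) : ℂ)) = H z := by
    intro z
    have h := (Function.Periodic.nat_mul (f := H) (c := ((2 * Real.pi : ℝ) : ℂ)) hHa k) z
    convert h using 3
    push_cast; ring
  set F : Pl → ℂ := dev (P ε) (Q ε) (A ε) (Bc ε) with hF
  set Z : Pl → ℂ := fun y => ρ * F y / (ε : ℂ) with hZ
  have hεc : (ε : ℂ) ≠ 0 := Complex.ofReal_ne_zero.2 hεp.ne'
  have hZ1 : ∀ y, Z (y + e1) = Z y + ((2 * Real.pi * k : ℝ) : ℂ) := by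
    intro y
    have e : ρ * T1 ε = (‖T1 ε‖ : ℂ) := by
      rw [hρ, div_mul_eq_mul_div, Complex.conj_mul']
      rw [sq, mul_div_assoc, div_self (Complex.ofReal_ne_zero.2 hn0.ne'), mul_one]
    simp only [hZ, hd1]
    rw [mul_add, add_div, show ρ * dev (P ε) (Q ε) (A ε) (Bc ε) e1 = (‖T1 ε‖ : ℂ) from e, hlen,
      Complex.ofReal_mul, mul_div_assoc ((2 * Real.pi * k : ℝ) : ℂ), div_self hεc, mul_one]
  have hZ2 : ∀ y, Z (y + e2) = Z y + σ := fun y => by
    simp only [hZ, hd2, hσ]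
    rw [mul_add, add_div]
  set w : Pl → ℝ := fun y => u y + v ε y with hw
  set Φ : Pl → EuclideanSpace ℝ (Fin 4) := fun y => (ε * Real.exp (w y)) • H (Z y) with hΦ
  have hZs : ContDiff ℝ ∞ Z := (contDiff_const.mul hds).div_const _
  refine ⟨Φ, ⟨(contDiff_const.mul (hu.smooth.add hvs.smooth).exp).smul (hH.comp hZs),
    ⟨fun y => by simp only [hΦ, hw, hZ1, hHk, hu.per.add1, hvs.per.add1],
      fun y => by simp only [hΦ, hw, hZ2, hHb, hu.per.add2, hvs.per.add2]⟩⟩, fun y z z' => ?_⟩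
  -- the induced metric
  have hwd : HasFDerivAt w (fderiv ℝ u y + fderiv ℝ (v ε) y) y :=
    (hu.smooth.differentiable (by simp) y).hasFDerivAt.fun_add
      (hvs.smooth.differentiable (by simp) y).hasFDerivAt
  set D := fderiv ℝ u y + fderiv ℝ (v ε) y with hD
  set J : Pl →L[ℝ] EuclideanSpace ℝ (Fin 4) := fderiv ℝ (fun y => H (Z y)) y with hJ
  have hG : HasFDerivAt (fun y => H (Z y)) J y :=
    ((hH.comp hZs).differentiable (by simp) y).hasFDerivAt
  have hJa : ∀ z, J z = fderiv ℝ H (Z y) (ρ * fderiv ℝ F y z / (ε : ℂ)) := by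
    intro z
    have hF' : HasFDerivAt F (fderiv ℝ F y) y := (hds.differentiable (by simp) y).hasFDerivAt
    have hZd : HasFDerivAt Z (((ε : ℂ)⁻¹) • (ρ • fderiv ℝ F y)) y := by
      have := (hF'.const_mul ρ).mul_const ((ε : ℂ)⁻¹)
      simpa [hZ, div_eq_mul_inv] using this
    have := (((hH.differentiable (by simp)) (Z y)).hasFDerivAt.comp y hZd).fderiv
    rw [hJ, show (fun y => H (Z y)) = H ∘ Z from rfl, this]
    simp [div_eq_mul_inv, mul_comm]
  have horth : ∀ z, inner ℝ (H (Z y)) (J z) = (0 : ℝ) := by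
    intro z
    have h1 := (hG.inner ℝ hG).fderiv
    have h2 : (fun y => inner ℝ (H (Z y)) (H (Z y))) = fun _ : Pl => (1 : ℝ) :=
      funext fun y => by rw [real_inner_self_eq_norm_sq, hH1, one_pow]
    rw [h2] at h1
    have h3 := DFunLike.congr_fun h1 z
    simp [fderivInnerCLM_apply, real_inner_comm] at h3
    linarith
  have hΦd : ∀ z, fderiv ℝ Φ y z =
      (ε * Real.exp (w y)) • (D z • H (Z y) + J z) := by
    intro z
    have := ((hwd.exp.const_mul ε).fun_smul hG).fderiv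
    simp only [hΦ, this]
    simp [smul_add, smul_smul, mul_comm, mul_left_comm, add_comm]
  have hJi : inner ℝ (J z) (J z') =
      inner ℝ (fderiv ℝ F y z) (fderiv ℝ F y z') / ε ^ 2 := by
    rw [hJa, hJa, hHm, ← Develop.inner_rot hρn (fderiv ℝ F y z) (fderiv ℝ F y z')]
    rw [div_eq_mul_inv _ (ε : ℂ), mul_comm _ ((ε : ℂ)⁻¹), ← Complex.ofReal_inv,
      ← Complex.real_smul, real_inner_smul_left, div_eq_mul_inv _ (ε : ℂ),
      mul_comm _ ((ε : ℂ)⁻¹), ← Complex.ofReal_inv, ← Complex.real_smul, real_inner_smul_right]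
    field_simp
  have hnn : inner ℝ (H (Z y)) (H (Z y)) = (1 : ℝ) := by
    rw [real_inner_self_eq_norm_sq, hH1, one_pow]
  rw [hΦd, hΦd]
  simp only [inner_smul_left, inner_smul_right, inner_add_left, inner_add_right, horth,
    real_inner_comm (H (Z y)) (J z), hnn, conj_trivial]
  rw [hJi, hmet]
  -- the identity of quadratic forms
  set V := Develop.periodMap t1 t2 z with hV
  set V' := Develop.periodMap t1 t2 z' with hV'
  have hsplit : ∀ z, z.1 • P ε y + z.2 • Q ε y =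
      ((Develop.periodMap t1 t2 z).re : ℂ) * frame1 η1 η2 ε u (v ε) y +
        ((Develop.periodMap t1 t2 z).im : ℂ) * frame2 η1 η2 ε u (v ε) y := by
    intro z
    simp only [hP, hQ, cofr, periodMap_apply, Complex.real_smul]
    simp
    ring
  have hDV : ∀ z, ε * Real.exp (v ε y) * D z =
      (Develop.periodMap t1 t2 z).re * gN ε u (v ε) η1 y +
        (Develop.periodMap t1 t2 z).im * gN ε u (v ε) η2 y := by
    intro z
    have hz' : z = (Develop.periodMap t1 t2 z).re • η1 + (Develop.periodMap t1 t2 z).im • η2 := by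
      conv_lhs => rw [← periodInv_periodMap ht.ne' z]
      simp [periodInv, hη1, hη2]
    conv_lhs => rw [hz', map_add, map_smul, map_smul]
    simp only [hD, add_apply, gN, der, smul_eq_mul]
    ring
  rw [hsplit, hsplit, ← hV, ← hV']
  obtain ⟨m1, m2, m3, -⟩ := frame_metric hSl y
  have hform : inner ℝ ((V.re : ℂ) * frame1 η1 η2 ε u (v ε) y + (V.im : ℂ) * frame2 η1 η2 ε u (v ε) y)
      ((V'.re : ℂ) * frame1 η1 η2 ε u (v ε) y + (V'.im : ℂ) * frame2 η1 η2 ε u (v ε) y) =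
      Real.exp (-v ε y) ^ 2 * (inner ℝ V V' - (ε * Real.exp (v ε y) * D z) *
        (ε * Real.exp (v ε y) * D z')) := by
    rw [hDV, hDV, ← hV, ← hV']
    simp [Complex.inner] at m1 m2 m3 ⊢
    linear_combination (V.re * V'.re) * m1 + (V.re * V'.im + V.im * V'.re) * m2 +
      (V.im * V'.im) * m3
  rw [hform]
  have ew : Real.exp (w y) = Real.exp (u y) * Real.exp (v ε y) := Real.exp_add _ _
  rw [ew, Real.exp_neg]
  field_simp
  ring

/-- Every smooth metric on the torus is induced by a smooth immersion into four-space. -/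
theorem exists_torus_immersion {E F G : Pl → ℝ} (hE : SP E) (hF : SP F) (hG : SP G)
    (hpos : ∀ x, 0 < E x) (hdet : ∀ x, F x ^ 2 < E x * G x) :
    ∃ Φ : Pl → EuclideanSpace ℝ (Fin 4), SP Φ ∧ ∀ x v w,
      inner ℝ (fderiv ℝ Φ x v) (fderiv ℝ Φ x w) =
        E x * (v.1 * w.1) + F x * (v.1 * w.2 + v.2 * w.1) + G x * (v.2 * w.2) := by
  obtain ⟨t1, t2, ψ, u, ht, hu, hψ, hψ1, hψ2, hm⟩ := exists_isothermal hE hF hG hpos hdet
  obtain ⟨Φ, hΦ, hΦm⟩ := exists_conformal ht hu
  refine ⟨fun x => Φ (ψ x), ⟨hΦ.smooth.comp hψ,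
    ⟨fun x => by rw [hψ1, hΦ.per.add1], fun x => by rw [hψ2, hΦ.per.add2]⟩⟩, fun x v w => ?_⟩
  have := ((hΦ.smooth.differentiable (by simp) (ψ x)).hasFDerivAt.comp x
    (hψ.differentiable (by simp) x).hasFDerivAt).fderiv
  rw [show (fun x => Φ (ψ x)) = Φ ∘ ψ from rfl, this, ContinuousLinearMap.comp_apply,
    ContinuousLinearMap.comp_apply, hΦm, hm]

end Vale.Agent.P205.Full
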