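import Vale.Agent.P205.Full.Wiener

/-!
Tame nonlinear operations on coefficient families.
-/

open scoped ContDiff
open Complex

namespace Vale.Agent.P205.Full

theorem summable_conv {c d : Coef} (hc : Mem 0 c) (hd : Mem 0 d) (k : Z2) :
    Summable fun l => c l * d (k - l) := by
  refine Summable.of_norm (Summable.of_nonneg_of_le (fun l => norm_nonneg _) (fun l => ?_)
    (hc.summable_norm.mul_right (nrm 0 d)))
  rw [norm_mul]
  refine mul_le_mul_of_nonneg_left ?_ (norm_nonneg _)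
  rw [nrm_zero_eq]
  exact hd.summable_norm.le_tsum (k - l) fun j _ => norm_nonneg _

theorem conv_sub_left {c c' d : Coef} (hc : Mem 0 c) (hc' : Mem 0 c') (hd : Mem 0 d) :
    conv (c - c') d = conv c d - conv c' d := by
  funext k
  simp only [conv, Pi.sub_apply, sub_mul]
  exact Summable.tsum_sub (summable_conv hc hd k) (summable_conv hc' hd k)

theorem conv_sub_right {c d d' : Coef} (hc : Mem 0 c) (hd : Mem 0 d) (hd' : Mem 0 d') :
    conv c (d - d') = conv c d - conv c d' := by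
  funext k
  simp only [conv, Pi.sub_apply, mul_sub]
  exact Summable.tsum_sub (summable_conv hc hd k) (summable_conv hc hd' k)

theorem sym_conv {c d : Coef} (hc : Sym c) (hd : Sym d) : Sym (conv c d) := by
  intro k
  simp only [conv, Complex.conj_tsum]
  rw [← (Equiv.neg Z2).tsum_eq]
  refine tsum_congr fun l => ?_
  rw [Equiv.neg_apply, map_mul, hc, ← hd (k - l)]
  congr 2
  abel

theorem Sym.add {c d : Coef} (hc : Sym c) (hd : Sym d) : Sym (c + d) := fun k => by
  simp only [Pi.add_apply, hc k, hd k, map_add]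

theorem Sym.smul (a : ℝ) {c : Coef} (hc : Sym c) : Sym ((a : ℂ) • c) := fun k => by
  simp only [Pi.smul_apply, smul_eq_mul, hc k, map_mul, Complex.conj_ofReal]

theorem Sym.sub {c d : Coef} (hc : Sym c) (hd : Sym d) : Sym (c - d) := fun k => by
  simp only [Pi.sub_apply, hc k, hd k, map_sub]

theorem dsym_neg (η : Pl) (k : Z2) : dsym η (-k) = (starRingEnd ℂ) (dsym η k) := by
  simp [dsym, map_ofNat]; ring

theorem Sym.dC (η : Pl) {c : Coef} (hc : Sym c) : Sym (dC η c) := fun k => by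
  simp only [Full.dC, hc k, dsym_neg, map_mul]

theorem dC_sub (η : Pl) (c d : Coef) : dC η (c - d) = dC η c - dC η d := by
  funext k; simp only [dC, Pi.sub_apply]; ring

/-- The unit of convolution. -/
noncomputable def unit : Coef := fun k => if k = 0 then 1 else 0

theorem hasSum_unit (m : ℕ) : HasSum (fun k => wt k ^ m * ‖unit k‖) 1 := by
  have h : (fun k => wt k ^ m * ‖unit k‖) = fun k : Z2 => if k = 0 then (1 : ℝ) else 0 := by
    funext k
    unfold unit
    split_ifs with hk <;> simp [hk, wt]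
  rw [h]
  exact hasSum_ite_eq 0 1

theorem mem_unit (m : ℕ) : Mem m unit := (hasSum_unit m).summable

theorem nrm_unit (m : ℕ) : nrm m unit = 1 := (hasSum_unit m).tsum_eq

theorem ev_unit (x : Pl) : ev unit x = 1 := by
  rw [ev, tsum_eq_single 0 (fun k hk => by simp [unit, hk])]
  simp [unit, ch]

theorem sym_unit : Sym unit := fun k => by
  simp only [unit, neg_eq_zero]
  split_ifs <;> simp

/-- Convolution powers. -/
noncomputable def cpow (c : Coef) : ℕ → Coef
  | 0 => unit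
  | n + 1 => conv (cpow c n) c

theorem cpow_bound {m : ℕ} {c : Coef} (hc : Mem m c) :
    ∀ n, Mem m (cpow c n) ∧ nrm m (cpow c n) ≤ nrm m c ^ n
  | 0 => ⟨mem_unit m, by simp [cpow, nrm_unit]⟩
  | n + 1 => by
    obtain ⟨h1, h2⟩ := cpow_bound hc n
    refine ⟨h1.conv hc, (nrm_conv_le h1 hc).trans ?_⟩
    rw [pow_succ]
    exact mul_le_mul_of_nonneg_right h2 (nrm_nonneg m c)

theorem ev_cpow {c : Coef} (hc : Mem 0 c) (x : Pl) : ∀ n, ev (cpow c n) x = ev c x ^ n
  | 0 => by simp [cpow, ev_unit]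
  | n + 1 => by rw [cpow, ev_conv (cpow_bound hc n).1 hc, ev_cpow hc x n, pow_succ]

theorem sym_cpow {c : Coef} (hc : Sym c) : ∀ n, Sym (cpow c n)
  | 0 => sym_unit
  | n + 1 => sym_conv (sym_cpow hc n) hc

theorem cpow_lip {c d : Coef} (hc : Mem 0 c) (hd : Mem 0 d) {R : ℝ} (hR : 1 ≤ R)
    (hc1 : nrm 0 c ≤ R) (hd1 : nrm 0 d ≤ R) :
    ∀ n, nrm 0 (cpow c n - cpow d n) ≤ (2 * R) ^ n * nrm 0 (c - d)
  | 0 => by
    rw [show cpow c 0 - cpow d 0 = 0 from sub_self _, nrm_zero]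
    simpa using nrm_nonneg 0 (c - d)
  | n + 1 => by
    have ha := (cpow_bound hc n).1
    have hb := (cpow_bound hd n).1
    have hR0 : 0 ≤ R := zero_le_one.trans hR
    have key : cpow c (n + 1) - cpow d (n + 1)
        = conv (cpow c n - cpow d n) c + conv (cpow d n) (c - d) := by
      rw [conv_sub_left ha hb hc, conv_sub_right hb hc hd]
      simp only [cpow]
      abel
    rw [key]
    refine (nrm_add_le ((ha.sub hb).conv hc) (hb.conv (hc.sub hd))).trans ?_
    have h1 : nrm 0 (conv (cpow c n - cpow d n) c) ≤ (2 * R) ^ n * nrm 0 (c - d) * R :=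
      (nrm_conv_le (ha.sub hb) hc).trans (mul_le_mul (cpow_lip hc hd hR hc1 hd1 n) hc1
        (nrm_nonneg _ _) (mul_nonneg (by positivity) (nrm_nonneg _ _)))
    have h2 : nrm 0 (conv (cpow d n) (c - d)) ≤ (2 * R) ^ n * nrm 0 (c - d) * R := by
      refine (nrm_conv_le hb (hc.sub hd)).trans ?_
      rw [mul_right_comm]
      refine mul_le_mul_of_nonneg_right ((cpow_bound hd n).2.trans ?_) (nrm_nonneg _ _)
      have h3 : nrm 0 d ^ n ≤ (2 * R) ^ n :=
        pow_le_pow_left₀ (nrm_nonneg 0 d) (by linarith) n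
      nlinarith [pow_nonneg (by linarith : (0 : ℝ) ≤ 2 * R) n]
    refine (add_le_add h1 h2).trans (le_of_eq ?_)
    ring

/-- Exponential series. -/
noncomputable def expC (c : Coef) : Coef :=
  fun k => ∑' n : ℕ, ((n.factorial : ℂ))⁻¹ * cpow c n k

theorem series_bound {m : ℕ} {F : ℕ → Coef} {B : ℕ → ℝ} (hF : ∀ n, Mem m (F n))
    (hB : ∀ n, nrm m (F n) ≤ B n) (hs : Summable B) :
    (∀ k, Summable fun n => F n k) ∧ Mem m (fun k => ∑' n, F n k) ∧
      nrm m (fun k => ∑' n, F n k) ≤ ∑' n, B n := by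
  have h0 : ∀ p : ℕ × Z2, 0 ≤ wt p.2 ^ m * ‖F p.1 p.2‖ := fun p => wt_pow_mul_nonneg m _ _
  have hp : Summable fun p : ℕ × Z2 => wt p.2 ^ m * ‖F p.1 p.2‖ :=
    (summable_prod_of_nonneg h0).2
      ⟨hF, Summable.of_nonneg_of_le (fun n => tsum_nonneg fun k => wt_pow_mul_nonneg m _ k) hB hs⟩
  have hp' := hp.prod_symm
  have hk : ∀ k, Summable fun n => ‖F n k‖ := by
    intro k
    have := (hp'.prod_factor k).mul_left ((wt k ^ m)⁻¹)
    refine this.congr fun n => ?_
    simp only [Prod.fst_swap, Prod.snd_swap]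
    rw [inv_mul_cancel_left₀ (pow_ne_zero m (wt_pos k).ne')]
  have hle : ∀ k, wt k ^ m * ‖∑' n, F n k‖ ≤ ∑' n, wt k ^ m * ‖F n k‖ := by
    intro k
    rw [tsum_mul_left]
    exact mul_le_mul_of_nonneg_left (norm_tsum_le_tsum_norm (hk k))
      (pow_nonneg (wt_nonneg k) m)
  have hS : Summable fun k => ∑' n, wt k ^ m * ‖F n k‖ := hp'.prod
  have hM : Mem m (fun k => ∑' n, F n k) :=
    Summable.of_nonneg_of_le (wt_pow_mul_nonneg m _) hle hS
  refine ⟨fun k => (hk k).of_norm, hM, (hM.tsum_le_tsum hle hS).trans ?_⟩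
  rw [← Summable.tsum_comm (f := fun k n => wt k ^ m * ‖F n k‖) hp']
  exact hp.prod.tsum_le_tsum hB hs

theorem expC_bound {m : ℕ} {c : Coef} (hc : Mem m c) :
    Mem m (expC c) ∧ nrm m (expC c) ≤ Real.exp (nrm m c) := by
  have h := series_bound (F := fun n => ((n.factorial : ℂ))⁻¹ • cpow c n)
    (B := fun n => nrm m c ^ n / n.factorial) (fun n => ((cpow_bound hc n).1.smul _))
    (fun n => by
      rw [nrm_smul, norm_inv, Complex.norm_natCast, inv_mul_eq_div]
      exact div_le_div_of_nonneg_right (cpow_bound hc n).2 (by positivity))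
    (Real.summable_pow_div_factorial _)
  refine ⟨h.2.1, h.2.2.trans_eq ?_⟩
  rw [Real.exp_eq_exp_ℝ, NormedSpace.exp_eq_tsum_div]

theorem ev_expC {c : Coef} (hc : Mem 0 c) (x : Pl) : ev (expC c) x = exp (ev c x) := by
  have hp : Summable fun p : ℕ × Z2 =>
      ‖((p.1.factorial : ℂ))⁻¹ * cpow c p.1 p.2 * ch p.2 x‖ := by
    refine (summable_prod_of_nonneg fun p => norm_nonneg _).2 ⟨fun n => ?_, ?_⟩
    · refine ((cpow_bound hc n).1.summable_norm.mul_left ‖((n.factorial : ℂ))⁻¹‖).congr fun k => ?_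
      rw [norm_mul, norm_mul, norm_ch, mul_one]
    · refine Summable.of_nonneg_of_le (fun n => tsum_nonneg fun k => norm_nonneg _) (fun n => ?_)
        (Real.summable_pow_div_factorial (nrm 0 c))
      simp only [norm_mul, norm_ch, mul_one, norm_inv, Complex.norm_natCast]
      rw [tsum_mul_left, inv_mul_eq_div]
      refine div_le_div_of_nonneg_right ?_ (by positivity)
      rw [← nrm_zero_eq]
      exact (cpow_bound hc n).2
  rw [ev, Complex.exp_eq_exp_ℂ, NormedSpace.exp_eq_tsum_div]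
  calc ∑' k, expC c k * ch k x
      = ∑' k, ∑' n : ℕ, ((n.factorial : ℂ))⁻¹ * cpow c n k * ch k x :=
        tsum_congr fun k => by rw [expC, tsum_mul_right]
    _ = ∑' n : ℕ, ∑' k, ((n.factorial : ℂ))⁻¹ * cpow c n k * ch k x :=
        Summable.tsum_comm hp.of_norm
    _ = ∑' n : ℕ, ev c x ^ n / (n.factorial : ℂ) := tsum_congr fun n => by
        simp only [mul_assoc]
        rw [tsum_mul_left, ← ev, ev_cpow hc, inv_mul_eq_div]

theorem sym_expC {c : Coef} (hc : Sym c) : Sym (expC c) := fun k => by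
  simp only [expC, Complex.conj_tsum, map_mul, map_inv₀, map_natCast, ← sym_cpow hc _ k]

theorem expC_lip {c d : Coef} (hc : Mem 0 c) (hd : Mem 0 d) {R : ℝ} (hR : 1 ≤ R)
    (hc1 : nrm 0 c ≤ R) (hd1 : nrm 0 d ≤ R) :
    nrm 0 (expC c - expC d) ≤ Real.exp (2 * R) * nrm 0 (c - d) := by
  have h := series_bound
    (F := fun n => ((n.factorial : ℂ))⁻¹ • (cpow c n - cpow d n))
    (B := fun n => (2 * R) ^ n / n.factorial * nrm 0 (c - d))
    (fun n => (((cpow_bound hc n).1.sub (cpow_bound hd n).1).smul _))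
    (fun n => by
      rw [nrm_smul, norm_inv, Complex.norm_natCast, inv_mul_eq_div, div_mul_eq_mul_div]
      exact div_le_div_of_nonneg_right (cpow_lip hc hd hR hc1 hd1 n) (by positivity))
    ((Real.summable_pow_div_factorial _).mul_right _)
  have sc : ∀ {e : Coef}, Mem 0 e → ∀ k, Summable fun n : ℕ => ((n.factorial : ℂ))⁻¹ * cpow e n k := by
    intro e he k
    exact (series_bound (F := fun n => ((n.factorial : ℂ))⁻¹ • cpow e n)
      (B := fun n => nrm 0 e ^ n / n.factorial) (fun n => ((cpow_bound he n).1.smul _))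
      (fun n => by
        rw [nrm_smul, norm_inv, Complex.norm_natCast, inv_mul_eq_div]
        exact div_le_div_of_nonneg_right (cpow_bound he n).2 (by positivity))
      (Real.summable_pow_div_factorial _)).1 k
  have he : expC c - expC d = fun k => ∑' n, (((n.factorial : ℂ))⁻¹ • (cpow c n - cpow d n)) k := by
    funext k
    simp only [expC, Pi.sub_apply, Pi.smul_apply, smul_eq_mul, mul_sub]
    exact (Summable.tsum_sub (sc hc k) (sc hd k)).symm
  rw [he]
  refine h.2.2.trans_eq ?_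
  rw [tsum_mul_right, Real.exp_eq_exp_ℝ, NormedSpace.exp_eq_tsum_div]

/-- The working ball. -/
def Ball : Set Coef := {c | Mem 2 c ∧ nrm 2 c ≤ 1 ∧ Sym c}

theorem Ball.mem0 {c : Coef} (hc : c ∈ Ball) : Mem 0 c := hc.1.mono (Nat.zero_le 2)

theorem Ball.nrm0 {c : Coef} (hc : c ∈ Ball) : nrm 0 c ≤ 1 :=
  (nrm_mono (Nat.zero_le 2) hc.1).trans hc.2.1

/-- Second order tame operators on the ball. -/
structure Tame (T : Coef → Coef) : Prop where
  sym : ∀ c ∈ Ball, Sym (T c)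
  bdd : ∃ C : ℝ, 0 ≤ C ∧ ∀ c ∈ Ball, Mem 0 (T c) ∧ nrm 0 (T c) ≤ C
  lip : ∃ L : ℝ, 0 ≤ L ∧ ∀ c ∈ Ball, ∀ d ∈ Ball, nrm 0 (T c - T d) ≤ L * nrm 2 (c - d)
  high : ∃ C : ℝ, 0 ≤ C ∧ ∀ (m : ℕ) (R : ℝ), ∃ D : ℝ, ∀ c ∈ Ball, Mem (m + 2) c →
    nrm (m + 1) c ≤ R → Mem m (T c) ∧ nrm m (T c) ≤ C * nrm (m + 2) c + D

theorem tame_const {a : Coef} (ha : ∀ m, Mem m a) (hs : Sym a) : Tame (fun _ => a) where
  sym := fun _ _ => hs
  bdd := ⟨nrm 0 a, nrm_nonneg _ _, fun _ _ => ⟨ha 0, le_rfl⟩⟩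
  lip := ⟨0, le_rfl, fun c _ d _ => by simp [nrm_zero]⟩
  high := ⟨0, le_rfl, fun m R => ⟨nrm m a, fun c _ _ _ => ⟨ha m, by simp⟩⟩⟩

/-- The operator norm constant of a derivative. -/
noncomputable def dconst (η : Pl) : ℝ := 2 * Real.pi * (|η.1| + |η.2|)

theorem dconst_nonneg (η : Pl) : 0 ≤ dconst η := by unfold dconst; positivity

theorem tame_dC (η : Pl) : Tame (dC η) where
  sym := fun _ hc => hc.2.2.dC η
  bdd := ⟨dconst η, dconst_nonneg η, fun c hc => ⟨(hc.1.mono one_le_two).dC η,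
    (nrm_dC_le η (hc.1.mono one_le_two)).trans ((mul_le_mul_of_nonneg_left
      ((nrm_mono one_le_two hc.1).trans hc.2.1) (dconst_nonneg η)).trans_eq (mul_one _))⟩⟩
  lip := ⟨dconst η, dconst_nonneg η, fun c hc d hd => by
    rw [← dC_sub]
    exact (nrm_dC_le η ((hc.1.sub hd.1).mono one_le_two)).trans
      (mul_le_mul_of_nonneg_left (nrm_mono one_le_two (hc.1.sub hd.1)) (dconst_nonneg η))⟩
  high := ⟨0, le_rfl, fun m R => ⟨dconst η * R, fun c _ hm hR =>
    ⟨(hm.mono (by omega)).dC η, by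
      rw [zero_mul, zero_add]
      exact (nrm_dC_le η (hm.mono (by omega))).trans
        (mul_le_mul_of_nonneg_left hR (dconst_nonneg η))⟩⟩⟩

theorem tame_dC2 (η ξ : Pl) : Tame (fun c => dC η (dC ξ c)) where
  sym := fun _ hc => (hc.2.2.dC ξ).dC η
  bdd := ⟨dconst η * dconst ξ, mul_nonneg (dconst_nonneg η) (dconst_nonneg ξ), fun c hc =>
    ⟨(hc.1.dC ξ).dC η, by
      refine (nrm_dC_le η (hc.1.dC ξ)).trans ?_
      refine (mul_le_mul_of_nonneg_left (nrm_dC_le ξ hc.1) (dconst_nonneg η)).trans ?_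
      have := mul_le_mul_of_nonneg_left hc.2.1 (mul_nonneg (dconst_nonneg η) (dconst_nonneg ξ))
      unfold dconst at this ⊢
      linarith⟩⟩
  lip := ⟨dconst η * dconst ξ, mul_nonneg (dconst_nonneg η) (dconst_nonneg ξ),
    fun c hc d hd => by
      rw [← dC_sub, ← dC_sub]
      refine (nrm_dC_le η ((hc.1.sub hd.1).dC ξ)).trans ?_
      refine (mul_le_mul_of_nonneg_left (nrm_dC_le ξ (hc.1.sub hd.1))
        (dconst_nonneg η)).trans_eq ?_
      unfold dconst; ring⟩
  high := ⟨dconst η * dconst ξ, mul_nonneg (dconst_nonneg η) (dconst_nonneg ξ),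
    fun m R => ⟨0, fun c _ hm _ => ⟨(hm.dC ξ).dC η, by
      rw [add_zero]
      refine (nrm_dC_le η (hm.dC ξ)).trans ?_
      refine (mul_le_mul_of_nonneg_left (nrm_dC_le ξ hm) (dconst_nonneg η)).trans_eq ?_
      unfold dconst; ring⟩⟩⟩

theorem tame_expC : Tame expC where
  sym := fun _ hc => sym_expC hc.2.2
  bdd := ⟨Real.exp 1, (Real.exp_pos 1).le, fun c hc => ⟨(expC_bound (Ball.mem0 hc)).1,
    (expC_bound (Ball.mem0 hc)).2.trans (Real.exp_le_exp.2 (Ball.nrm0 hc))⟩⟩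
  lip := ⟨Real.exp (2 * 1), (Real.exp_pos _).le, fun c hc d hd =>
    (expC_lip (Ball.mem0 hc) (Ball.mem0 hd) le_rfl (Ball.nrm0 hc) (Ball.nrm0 hd)).trans
      (mul_le_mul_of_nonneg_left (nrm_mono (Nat.zero_le 2) (hc.1.sub hd.1)) (Real.exp_pos _).le)⟩
  high := ⟨0, le_rfl, fun m R => ⟨Real.exp R, fun c _ hm hR =>
    ⟨(expC_bound (hm.mono (by omega))).1, by
      rw [zero_mul, zero_add]
      exact (expC_bound (hm.mono (by omega))).2.trans
        (Real.exp_le_exp.2 ((nrm_mono (by omega) (hm.mono (by omega))).trans hR))⟩⟩⟩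

theorem Tame.add {S T : Coef → Coef} (hS : Tame S) (hT : Tame T) :
    Tame (fun c => S c + T c) where
  sym := fun c hc => (hS.sym c hc).add (hT.sym c hc)
  bdd := by
    obtain ⟨A, hA0, hA⟩ := hS.bdd
    obtain ⟨B, hB0, hB⟩ := hT.bdd
    exact ⟨A + B, add_nonneg hA0 hB0, fun c hc => ⟨(hA c hc).1.add (hB c hc).1,
      (nrm_add_le (hA c hc).1 (hB c hc).1).trans (add_le_add (hA c hc).2 (hB c hc).2)⟩⟩
  lip := by
    obtain ⟨A, hA0, hA⟩ := hS.lip
    obtain ⟨B, hB0, hB⟩ := hT.lip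
    obtain ⟨A', _, hA'⟩ := hS.bdd
    obtain ⟨B', _, hB'⟩ := hT.bdd
    refine ⟨A + B, add_nonneg hA0 hB0, fun c hc d hd => ?_⟩
    rw [add_sub_add_comm, add_mul]
    exact (nrm_add_le ((hA' c hc).1.sub (hA' d hd).1) ((hB' c hc).1.sub (hB' d hd).1)).trans
      (add_le_add (hA c hc d hd) (hB c hc d hd))
  high := by
    obtain ⟨A, hA0, hA⟩ := hS.high
    obtain ⟨B, hB0, hB⟩ := hT.high
    refine ⟨A + B, add_nonneg hA0 hB0, fun m R => ?_⟩
    obtain ⟨DA, hDA⟩ := hA m R
    obtain ⟨DB, hDB⟩ := hB m R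
    refine ⟨DA + DB, fun c hc hm hR => ?_⟩
    obtain ⟨m1, n1⟩ := hDA c hc hm hR
    obtain ⟨m2, n2⟩ := hDB c hc hm hR
    exact ⟨m1.add m2, (nrm_add_le m1 m2).trans (by linarith)⟩

theorem Tame.smul {T : Coef → Coef} (a : ℝ) (hT : Tame T) :
    Tame (fun c => (a : ℂ) • T c) where
  sym := fun c hc => (hT.sym c hc).smul a
  bdd := by
    obtain ⟨B, hB0, hB⟩ := hT.bdd
    refine ⟨|a| * B, mul_nonneg (abs_nonneg a) hB0, fun c hc => ⟨(hB c hc).1.smul _, ?_⟩⟩
    rw [nrm_smul, norm_real, Real.norm_eq_abs]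
    exact mul_le_mul_of_nonneg_left (hB c hc).2 (abs_nonneg a)
  lip := by
    obtain ⟨B, hB0, hB⟩ := hT.lip
    refine ⟨|a| * B, mul_nonneg (abs_nonneg a) hB0, fun c hc d hd => ?_⟩
    rw [← smul_sub, nrm_smul, norm_real, Real.norm_eq_abs, mul_assoc]
    exact mul_le_mul_of_nonneg_left (hB c hc d hd) (abs_nonneg a)
  high := by
    obtain ⟨B, hB0, hB⟩ := hT.high
    refine ⟨|a| * B, mul_nonneg (abs_nonneg a) hB0, fun m R => ?_⟩
    obtain ⟨D, hD⟩ := hB m R
    refine ⟨|a| * D, fun c hc hm hR => ⟨(hD c hc hm hR).1.smul _, ?_⟩⟩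
    rw [nrm_smul, norm_real, Real.norm_eq_abs, mul_assoc, ← mul_add]
    exact mul_le_mul_of_nonneg_left (hD c hc hm hR).2 (abs_nonneg a)

theorem Tame.mul {S T : Coef → Coef} (hS : Tame S) (hT : Tame T) :
    Tame (fun c => conv (S c) (T c)) where
  sym := fun c hc => sym_conv (hS.sym c hc) (hT.sym c hc)
  bdd := by
    obtain ⟨A, hA0, hA⟩ := hS.bdd
    obtain ⟨B, hB0, hB⟩ := hT.bdd
    exact ⟨A * B, mul_nonneg hA0 hB0, fun c hc => ⟨(hA c hc).1.conv (hB c hc).1,
      (nrm_conv_le (hA c hc).1 (hB c hc).1).trans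
        (mul_le_mul (hA c hc).2 (hB c hc).2 (nrm_nonneg _ _) hA0)⟩⟩
  lip := by
    obtain ⟨A, hA0, hA⟩ := hS.lip
    obtain ⟨B, hB0, hB⟩ := hT.lip
    obtain ⟨A', hA'0, hA'⟩ := hS.bdd
    obtain ⟨B', hB'0, hB'⟩ := hT.bdd
    refine ⟨A * B' + A' * B, by positivity, fun c hc d hd => ?_⟩
    have s1 := (hA' c hc).1
    have s2 := (hA' d hd).1
    have t1 := (hB' c hc).1
    have t2 := (hB' d hd).1
    have key : conv (S c) (T c) - conv (S d) (T d)
        = conv (S c - S d) (T c) + conv (S d) (T c - T d) := by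
      rw [conv_sub_left s1 s2 t1, conv_sub_right s2 t1 t2]
      abel
    rw [key]
    refine (nrm_add_le ((s1.sub s2).conv t1) (s2.conv (t1.sub t2))).trans ?_
    have h1 := (nrm_conv_le (s1.sub s2) t1).trans (mul_le_mul (hA c hc d hd) (hB' c hc).2
      (nrm_nonneg _ _) (mul_nonneg hA0 (nrm_nonneg _ _)))
    have h2 := (nrm_conv_le s2 (t1.sub t2)).trans (mul_le_mul (hA' d hd).2 (hB c hc d hd)
      (nrm_nonneg _ _) hA'0)
    refine (add_le_add h1 h2).trans_eq ?_
    ring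
  high := by
    obtain ⟨A, hA0, hA⟩ := hS.high
    obtain ⟨B, hB0, hB⟩ := hT.high
    obtain ⟨A', hA'0, hA'⟩ := hS.bdd
    obtain ⟨B', hB'0, hB'⟩ := hT.bdd
    refine ⟨5 * (A * B' + A' * B), by positivity, fun m R => ?_⟩
    cases m with
    | zero =>
      refine ⟨A' * B', fun c hc _ _ => ⟨(hA' c hc).1.conv (hB' c hc).1, ?_⟩⟩
      have := (nrm_conv_le (hA' c hc).1 (hB' c hc).1).trans
        (mul_le_mul (hA' c hc).2 (hB' c hc).2 (nrm_nonneg _ _) hA'0)
      have : 0 ≤ 5 * (A * B' + A' * B) * nrm (0 + 2) c :=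
        mul_nonneg (by positivity) (nrm_nonneg _ _)
      linarith
    | succ j =>
      obtain ⟨D1, hD1⟩ := hA (j + 1) R
      obtain ⟨D2, hD2⟩ := hB (j + 1) R
      cases j with
      | zero =>
        refine ⟨5 * (|D1| * B' + A' * |D2|), fun c hc hm hR => ?_⟩
        obtain ⟨m1, n1⟩ := hD1 c hc hm hR
        obtain ⟨m2, n2⟩ := hD2 c hc hm hR
        refine ⟨m1.conv m2, (nrm_conv_tame (m := 0) m1 m2).trans ?_⟩
        have p1 := nrm_nonneg 1 (S c)
        have p2 := nrm_nonneg 1 (T c)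
        have q1 := (hA' c hc).2
        have q2 := (hB' c hc).2
        have r1 := nrm_nonneg 0 (S c)
        have r2 := nrm_nonneg 0 (T c)
        have e1 : nrm 1 (S c) ≤ A * nrm 3 c + |D1| := n1.trans (by linarith [le_abs_self D1])
        have e2 : nrm 1 (T c) ≤ B * nrm 3 c + |D2| := n2.trans (by linarith [le_abs_self D2])
        have f1 : nrm 1 (S c) * nrm 0 (T c) ≤ (A * nrm 3 c + |D1|) * B' :=
          mul_le_mul e1 q2 r2 (p1.trans e1)
        have f2 : nrm 0 (S c) * nrm 1 (T c) ≤ A' * (B * nrm 3 c + |D2|) :=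
          mul_le_mul q1 e2 p2 hA'0
        have f3 := mul_nonneg p1 r2
        have f4 := mul_nonneg r1 p2
        have g1 : 0 ≤ (A * nrm 3 c + |D1|) * B' := f3.trans f1
        have g2 : 0 ≤ A' * (B * nrm 3 c + |D2|) := f4.trans f2
        norm_num
        linarith
      | succ i =>
        obtain ⟨E1, hE1⟩ := hA (i + 1) R
        obtain ⟨E2, hE2⟩ := hB (i + 1) R
        obtain ⟨F1, hF1⟩ := hA 1 R
        obtain ⟨F2, hF2⟩ := hB 1 R
        refine ⟨5 * (|D1| * B' + A' * |D2|) + 2 ^ (i + 2) *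
          ((A * |R| + |E1|) * (B * |R| + |F2|) + (A * |R| + |F1|) * (B * |R| + |E2|)),
          fun c hc hm hR => ?_⟩
        obtain ⟨m1, n1⟩ := hD1 c hc hm hR
        obtain ⟨m2, n2⟩ := hD2 c hc hm hR
        have hR' : nrm (i + 1 + 1) c ≤ R :=
          (nrm_mono (by omega) (hm.mono (by omega))).trans hR
        have hR'' : nrm (1 + 1) c ≤ R := (nrm_mono (by omega) (hm.mono (by omega))).trans hR
        have hk : nrm (i + 1 + 2) c ≤ |R| := hR.trans (le_abs_self R)
        have hk1 : nrm (1 + 2) c ≤ |R| :=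
          (nrm_mono (by omega) (hm.mono (by omega))).trans (hR.trans (le_abs_self R))
        have a1 : nrm (i + 1) (S c) ≤ A * |R| + |E1| :=
          (hE1 c hc (hm.mono (by omega)) hR').2.trans
            (add_le_add (mul_le_mul_of_nonneg_left hk hA0) (le_abs_self _))
        have a2 : nrm (i + 1) (T c) ≤ B * |R| + |E2| :=
          (hE2 c hc (hm.mono (by omega)) hR').2.trans
            (add_le_add (mul_le_mul_of_nonneg_left hk hB0) (le_abs_self _))
        have b1 : nrm 1 (S c) ≤ A * |R| + |F1| :=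
          (hF1 c hc (hm.mono (by omega)) hR'').2.trans
            (add_le_add (mul_le_mul_of_nonneg_left hk1 hA0) (le_abs_self _))
        have b2 : nrm 1 (T c) ≤ B * |R| + |F2| :=
          (hF2 c hc (hm.mono (by omega)) hR'').2.trans
            (add_le_add (mul_le_mul_of_nonneg_left hk1 hB0) (le_abs_self _))
        have hn := nrm_nonneg (i + 1 + 1 + 2) c
        refine ⟨m1.conv m2, (nrm_conv_tame (m := i + 1) m1 m2).trans ?_⟩
        have f1 : nrm (i + 1 + 1) (S c) * nrm 0 (T c)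
            ≤ (A * nrm (i + 1 + 1 + 2) c + |D1|) * B' :=
          mul_le_mul (n1.trans (by linarith [le_abs_self D1])) (hB' c hc).2 (nrm_nonneg _ _)
            (by positivity)
        have f2 : nrm 0 (S c) * nrm (i + 1 + 1) (T c)
            ≤ A' * (B * nrm (i + 1 + 1 + 2) c + |D2|) :=
          mul_le_mul (hA' c hc).2 (n2.trans (by linarith [le_abs_self D2])) (nrm_nonneg _ _) hA'0
        have f3 : nrm (i + 1) (S c) * nrm 1 (T c) + nrm 1 (S c) * nrm (i + 1) (T c) ≤
            (A * |R| + |E1|) * (B * |R| + |F2|) + (A * |R| + |F1|) * (B * |R| + |E2|) :=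
          add_le_add (mul_le_mul a1 b2 (nrm_nonneg _ _) (by positivity))
            (mul_le_mul b1 a2 (nrm_nonneg _ _) (by positivity))
        have f4 := mul_le_mul_of_nonneg_left f3 (by positivity : (0 : ℝ) ≤ 2 ^ (i + 2))
        have g1 : 0 ≤ (A * nrm (i + 1 + 1 + 2) c + |D1|) * B' := by positivity
        have g2 : 0 ≤ A' * (B * nrm (i + 1 + 1 + 2) c + |D2|) := by positivity
        linarith

end Vale.Agent.P205.Full
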