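import Vale.Agent.P205.Full.Ops
import Vale.Agent.P205.Full.Coef
import Vale.Agent.P205.Full.Frame

/-!
The small fully nonlinear equation: contraction and smoothness.
-/

open scoped ContDiff
open Complex

namespace Vale.Agent.P205.Full

variable (η1 η2 : Pl) (cu : Coef)

/-- Coefficients of `e^v D_j (u + v)`. -/
noncomputable def wC (η : Pl) (c : Coef) : Coef :=
  conv (expC c) (dC η cu + dC η c)

/-- Coefficients of the derivative of `e^v D_j (u + v)`. -/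
noncomputable def wwC (ξ η : Pl) (c : Coef) : Coef :=
  conv (dC ξ c) (wC cu η c) + conv (expC c) (dC ξ (dC η cu) + dC ξ (dC η c))

/-- Coefficients of the nonlinear right hand side, without `ε²`. -/
noncomputable def rhsC (c : Coef) : Coef :=
  conv (conv (wC cu η1 c) (wC cu η1 c) + conv (wC cu η2 c) (wC cu η2 c))
      (dC η1 (dC η1 c) + dC η2 (dC η2 c)) +
    ((-1 : ℝ) : ℂ) • (conv (conv (wC cu η1 c) (wwC cu η1 η1 c) + conv (wC cu η2 c) (wwC cu η1 η2 c))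
        (dC η1 c) +
      conv (conv (wC cu η1 c) (wwC cu η2 η1 c) + conv (wC cu η2 c) (wwC cu η2 η2 c)) (dC η2 c)) +
    (conv (wwC cu η1 η1 c) (wwC cu η2 η2 c) +
      ((-1 : ℝ) : ℂ) • conv (wwC cu η2 η1 c) (wwC cu η1 η2 c))

theorem tame_wC {cu : Coef} (hcu : ∀ m, Mem m cu) (hs : Sym cu) (η : Pl) : Tame (wC cu η) :=
  tame_expC.mul ((tame_const (fun m => (hcu (m + 1)).dC η) (hs.dC η)).add (tame_dC η))

theorem tame_wwC {cu : Coef} (hcu : ∀ m, Mem m cu) (hs : Sym cu) (ξ η : Pl) :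
    Tame (wwC cu ξ η) :=
  ((tame_dC ξ).mul (tame_wC hcu hs η)).add (tame_expC.mul
    ((tame_const (fun m => ((hcu (m + 1 + 1)).dC η).dC ξ) ((hs.dC η).dC ξ)).add (tame_dC2 ξ η)))

theorem tame_rhsC {cu : Coef} (hcu : ∀ m, Mem m cu) (hs : Sym cu) : Tame (rhsC η1 η2 cu) :=
  let W := tame_wC hcu hs
  let V := tame_wwC hcu hs
  ((((W η1).mul (W η1)).add ((W η2).mul (W η2))).mul ((tame_dC2 η1 η1).add (tame_dC2 η2 η2))
    |>.add (Tame.smul (-1)
      (((((W η1).mul (V η1 η1)).add ((W η2).mul (V η1 η2))).mul (tame_dC η1)).add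
        ((((W η1).mul (V η2 η1)).add ((W η2).mul (V η2 η2))).mul (tame_dC η2))))).add
    (((V η1 η1).mul (V η2 η2)).add (Tame.smul (-1) ((V η2 η1).mul (V η1 η2))))

/-- Symbol of the constant coefficient operator. -/
noncomputable def lsym (k : Z2) : ℝ :=
  -((2 * Real.pi * ((k.1 : ℝ) * η1.1 + (k.2 : ℝ) * η1.2)) ^ 2 +
    (2 * Real.pi * ((k.1 : ℝ) * η2.1 + (k.2 : ℝ) * η2.2)) ^ 2)

theorem dsym_sq (k : Z2) :
    dsym η1 k * dsym η1 k + dsym η2 k * dsym η2 k = (lsym η1 η2 k : ℂ) := by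
  simp only [dsym, lsym]
  push_cast
  ring_nf
  rw [I_sq]
  ring

/-- Inverse of the constant coefficient operator on mean zero families. -/
noncomputable def linv (r : Coef) : Coef :=
  fun k => if k = 0 then 0 else ((lsym η1 η2 k)⁻¹ : ℝ) * r k

variable {η1 η2}

theorem exists_lsym_bound (hdet : η1.1 * η2.2 - η1.2 * η2.1 ≠ 0) :
    ∃ K : ℝ, 0 ≤ K ∧ ∀ k : Z2, k ≠ 0 → lsym η1 η2 k < 0 ∧ wt k ^ 2 ≤ K * (-lsym η1 η2 k) := by
  set d := η1.1 * η2.2 - η1.2 * η2.1 with hd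
  set M := (|η1.1| + |η1.2| + |η2.1| + |η2.2|) / |d| with hM
  refine ⟨(4 * M) ^ 2, sq_nonneg _, fun k hk => ?_⟩
  set a := (k.1 : ℝ) * η1.1 + (k.2 : ℝ) * η1.2 with ha
  set b := (k.1 : ℝ) * η2.1 + (k.2 : ℝ) * η2.2 with hb
  have hdp : 0 < |d| := abs_pos.2 hdet
  have h1 : |(k.1 : ℝ)| + |(k.2 : ℝ)| ≤ M * (|a| + |b|) := by
    rw [hM, div_mul_eq_mul_div, le_div_iff₀ hdp, add_mul, ← abs_mul, ← abs_mul]
    have e1 : (k.1 : ℝ) * d = a * η2.2 - b * η1.2 := by rw [hd, ha, hb]; ring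
    have e2 : (k.2 : ℝ) * d = b * η1.1 - a * η2.1 := by rw [hd, ha, hb]; ring
    rw [e1, e2]
    refine (add_le_add (abs_sub _ _) (abs_sub _ _)).trans ?_
    simp only [abs_mul]
    nlinarith [abs_nonneg a, abs_nonneg b, abs_nonneg η1.1, abs_nonneg η1.2, abs_nonneg η2.1,
      abs_nonneg η2.2]
  have h2 : 1 ≤ |(k.1 : ℝ)| + |(k.2 : ℝ)| := by
    by_cases h : k.1 = 0
    · have h' : k.2 ≠ 0 := fun h' => hk (Prod.ext h h')
      have : (1 : ℝ) ≤ |(k.2 : ℝ)| := by exact_mod_cast Int.one_le_abs h'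
      linarith [abs_nonneg (k.1 : ℝ)]
    · have : (1 : ℝ) ≤ |(k.1 : ℝ)| := by exact_mod_cast Int.one_le_abs h
      linarith [abs_nonneg (k.2 : ℝ)]
  have hl : -lsym η1 η2 k = (2 * Real.pi) ^ 2 * (a ^ 2 + b ^ 2) := by rw [lsym, ha, hb]; ring
  have h3 : wt k ≤ 2 * M * (|a| + |b|) := by rw [wt]; linarith
  have hM0 : 0 ≤ M := by rw [hM]; positivity
  have h4 : (|a| + |b|) ^ 2 ≤ 2 * (a ^ 2 + b ^ 2) := by
    nlinarith [sq_nonneg (|a| - |b|), sq_abs a, sq_abs b]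
  have h5 : 1 ≤ (2 * Real.pi) ^ 2 := by nlinarith [Real.pi_gt_three]
  have hab : 0 < a ^ 2 + b ^ 2 := by
    by_contra hneg
    have : |a| + |b| = 0 := by nlinarith [abs_nonneg a, abs_nonneg b, sq_abs a, sq_abs b]
    rw [this, mul_zero] at h1
    linarith
  constructor
  · have : 0 < (2 * Real.pi) ^ 2 * (a ^ 2 + b ^ 2) := by positivity
    linarith
  · rw [hl]
    calc wt k ^ 2 ≤ (2 * M * (|a| + |b|)) ^ 2 := pow_le_pow_left₀ (wt_nonneg k) h3 2
      _ = (2 * M) ^ 2 * (|a| + |b|) ^ 2 := by ring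
      _ ≤ (2 * M) ^ 2 * (2 * (a ^ 2 + b ^ 2)) := mul_le_mul_of_nonneg_left h4 (sq_nonneg _)
      _ ≤ (4 * M) ^ 2 * (1 * (a ^ 2 + b ^ 2)) := by
          nlinarith [mul_nonneg (sq_nonneg M) hab.le]
      _ ≤ (4 * M) ^ 2 * ((2 * Real.pi) ^ 2 * (a ^ 2 + b ^ 2)) :=
          mul_le_mul_of_nonneg_left (mul_le_mul_of_nonneg_right h5 hab.le) (sq_nonneg _)

theorem linv_bound {K : ℝ}
    (hK : ∀ k : Z2, k ≠ 0 → lsym η1 η2 k < 0 ∧ wt k ^ 2 ≤ K * (-lsym η1 η2 k)) (hK0 : 0 ≤ K)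
    {m : ℕ} {r : Coef} (hr : Mem m r) :
    Mem (m + 2) (linv η1 η2 r) ∧ nrm (m + 2) (linv η1 η2 r) ≤ K * nrm m r := by
  have hb : ∀ k, wt k ^ (m + 2) * ‖linv η1 η2 r k‖ ≤ K * (wt k ^ m * ‖r k‖) := by
    intro k
    unfold linv
    split_ifs with hk
    · simp only [norm_zero, mul_zero]
      exact mul_nonneg hK0 (wt_pow_mul_nonneg m r k)
    · obtain ⟨hn, hw⟩ := hK k hk
      rw [norm_mul, norm_real, Real.norm_eq_abs, abs_inv, abs_of_neg hn, pow_add]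
      have hp : 0 < -lsym η1 η2 k := by linarith
      have : wt k ^ 2 * (-lsym η1 η2 k)⁻¹ ≤ K := by
        rw [← div_eq_mul_inv, div_le_iff₀ hp]; exact hw
      calc wt k ^ m * wt k ^ 2 * ((-lsym η1 η2 k)⁻¹ * ‖r k‖)
          = (wt k ^ 2 * (-lsym η1 η2 k)⁻¹) * (wt k ^ m * ‖r k‖) := by ring
        _ ≤ K * (wt k ^ m * ‖r k‖) := mul_le_mul_of_nonneg_right this (wt_pow_mul_nonneg m r k)
  have h0 : Mem (m + 2) (linv η1 η2 r) :=
    Summable.of_nonneg_of_le (wt_pow_mul_nonneg _ _) hb (Summable.mul_left _ hr)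
  refine ⟨h0, ?_⟩
  rw [nrm, nrm, ← tsum_mul_left]
  exact h0.tsum_le_tsum hb (Summable.mul_left _ hr)

theorem sym_linv {r : Coef} (hr : Sym r) : Sym (linv η1 η2 r) := by
  intro k
  have hl : lsym η1 η2 (-k) = lsym η1 η2 k := by simp [lsym]; ring
  simp only [linv, neg_eq_zero, hl, hr k]
  split_ifs with h
  · simp
  · rw [map_mul, Complex.conj_ofReal]

theorem linv_sub (r s : Coef) : linv η1 η2 (r - s) = linv η1 η2 r - linv η1 η2 s := by
  funext k
  simp only [linv, Pi.sub_apply]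
  split_ifs <;> simp [mul_sub]

theorem linv_smul (a : ℂ) (r : Coef) : linv η1 η2 (a • r) = a • linv η1 η2 r := by
  funext k
  simp only [linv, Pi.smul_apply, smul_eq_mul]
  split_ifs <;> ring

/-- The fixed point iteration. -/
noncomputable def iterC (η1 η2 : Pl) (cu : Coef) (t : ℝ) : ℕ → Coef
  | 0 => 0
  | n + 1 => linv η1 η2 ((t : ℂ) • rhsC η1 η2 cu (iterC η1 η2 cu t n))

/-- Analytic package: a family of rapidly decreasing fixed points, Lipschitz in the parameter. -/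
theorem exists_fixed (hdet : η1.1 * η2.2 - η1.2 * η2.1 ≠ 0) {cu : Coef} (hcu : ∀ m, Mem m cu)
    (hs : Sym cu) :
    ∃ (t0 : ℝ) (c : ℝ → Coef) (L : ℝ), 0 < t0 ∧ 0 ≤ L ∧
      (∀ t ∈ Set.Icc (0 : ℝ) t0, c t ∈ Ball ∧ (∀ m, Mem m (c t)) ∧
        c t = linv η1 η2 ((t : ℂ) • rhsC η1 η2 cu (c t))) ∧
      ∀ s ∈ Set.Icc (0 : ℝ) t0, ∀ t ∈ Set.Icc (0 : ℝ) t0, nrm 2 (c s - c t) ≤ L * |s - t| := by
  obtain ⟨K, hK0, hK⟩ := exists_lsym_bound hdet
  have hT := tame_rhsC η1 η2 hcu hs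
  obtain ⟨B, hB0, hB⟩ := hT.bdd
  obtain ⟨Lp, hL0, hL⟩ := hT.lip
  obtain ⟨C, hC0, hC⟩ := hT.high
  set t0 : ℝ := 1 / (2 * (K + 1) * (B + Lp + C + 1)) with ht0
  have htp : 0 < t0 := by rw [ht0]; positivity
  have hkey : ∀ t ∈ Set.Icc (0 : ℝ) t0,
      t * (K * B) ≤ 1 / 2 ∧ t * (K * Lp) ≤ 1 / 2 ∧ t * (K * C) ≤ 1 / 2 := by
    intro t ht
    have h : t * (2 * (K + 1) * (B + Lp + C + 1)) ≤ 1 := by
      have := ht.2
      rw [ht0, le_div_iff₀ (by positivity)] at this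
      exact this
    have h1 := mul_nonneg ht.1 (mul_nonneg hK0 hB0)
    have h2 := mul_nonneg ht.1 (mul_nonneg hK0 hL0)
    have h3 := mul_nonneg ht.1 (mul_nonneg hK0 hC0)
    refine ⟨?_, ?_, ?_⟩ <;>
      nlinarith [ht.1, mul_nonneg ht.1 hK0, mul_nonneg ht.1 hB0, mul_nonneg ht.1 hL0,
        mul_nonneg ht.1 hC0]
  have hnt : ∀ t ∈ Set.Icc (0 : ℝ) t0, ‖(t : ℂ)‖ = t := fun t ht => by
    rw [norm_real, Real.norm_eq_abs, abs_of_nonneg ht.1]
  set T := rhsC η1 η2 cu with hTdef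
  have hstep : ∀ t ∈ Set.Icc (0 : ℝ) t0, ∀ c ∈ Ball, linv η1 η2 ((t : ℂ) • T c) ∈ Ball := by
    intro t ht c hc
    have h := linv_bound hK hK0 (((hB c hc).1).smul (t : ℂ))
    refine ⟨h.1, h.2.trans ?_, sym_linv ((hT.sym c hc).smul t)⟩
    rw [nrm_smul, hnt t ht]
    calc K * (t * nrm 0 (T c)) ≤ K * (t * B) :=
          mul_le_mul_of_nonneg_left (mul_le_mul_of_nonneg_left (hB c hc).2 ht.1) hK0
      _ ≤ 1 := by nlinarith [(hkey t ht).1]
  have hlip : ∀ t ∈ Set.Icc (0 : ℝ) t0, ∀ c ∈ Ball, ∀ d ∈ Ball,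
      nrm 2 (linv η1 η2 ((t : ℂ) • T c) - linv η1 η2 ((t : ℂ) • T d)) ≤ 1 / 2 * nrm 2 (c - d) := by
    intro t ht c hc d hd
    rw [← linv_sub, ← smul_sub]
    refine (linv_bound hK hK0 (((hB c hc).1.sub (hB d hd).1).smul (t : ℂ))).2.trans ?_
    rw [nrm_smul, hnt t ht]
    calc K * (t * nrm 0 (T c - T d)) ≤ K * (t * (Lp * nrm 2 (c - d))) :=
          mul_le_mul_of_nonneg_left (mul_le_mul_of_nonneg_left (hL c hc d hd) ht.1) hK0
      _ = t * (K * Lp) * nrm 2 (c - d) := by ring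
      _ ≤ 1 / 2 * nrm 2 (c - d) :=
          mul_le_mul_of_nonneg_right (hkey t ht).2.1 (nrm_nonneg _ _)
  have h0 : (0 : Coef) ∈ Ball := ⟨mem_zero' 2, by simp [nrm_zero], fun k => by simp⟩
  have hmem : ∀ t ∈ Set.Icc (0 : ℝ) t0, ∀ n, iterC η1 η2 cu t n ∈ Ball := by
    intro t ht n
    induction n with
    | zero => exact h0
    | succ n ih => exact hstep t ht _ ih
  have hgeo : ∀ t ∈ Set.Icc (0 : ℝ) t0, ∀ n,
      nrm 2 (iterC η1 η2 cu t (n + 1) - iterC η1 η2 cu t n) ≤ (1 / 2) ^ n := by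
    intro t ht n
    induction n with
    | zero => simpa [iterC] using (hmem t ht 1).2.1
    | succ n ih =>
      refine (hlip t ht _ (hmem t ht (n + 1)) _ (hmem t ht n)).trans ?_
      rw [pow_succ' (1 / 2 : ℝ)]
      exact mul_le_mul_of_nonneg_left ih (by norm_num)
  have hcau : ∀ t ∈ Set.Icc (0 : ℝ) t0, ∀ k, ∃ z,
      Filter.Tendsto (fun n => iterC η1 η2 cu t n k) Filter.atTop (nhds z) := by
    intro t ht k
    refine cauchySeq_tendsto_of_complete (cauchySeq_of_le_geometric (1 / 2) 1 (by norm_num) ?_)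
    intro n
    rw [dist_eq_norm, one_mul, ← norm_neg, neg_sub]
    refine le_trans ?_ (hgeo t ht n)
    have hm := ((hmem t ht (n + 1)).1.sub (hmem t ht n).1)
    refine le_trans ?_ (hm.le_tsum k fun j _ => wt_pow_mul_nonneg 2 _ j)
    exact le_mul_of_one_le_left (norm_nonneg _) (one_le_pow₀ (one_le_wt k))
  choose! c hc using hcau
  -- weighted sums of limits
  have hlim : ∀ (t : ℝ), t ∈ Set.Icc (0 : ℝ) t0 → ∀ (m : ℕ) (R : ℝ),
      (∀ n, Mem m (iterC η1 η2 cu t n) ∧ nrm m (iterC η1 η2 cu t n) ≤ R) →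
      Mem m (c t) ∧ nrm m (c t) ≤ R := by
    intro t ht m R hR
    have hfin : ∀ F : Finset Z2, ∑ k ∈ F, wt k ^ m * ‖c t k‖ ≤ R := by
      intro F
      refine le_of_tendsto' (tendsto_finsetSum F fun k _ =>
        (((hc t ht k).norm).const_mul (wt k ^ m))) fun n => ?_
      exact ((hR n).1.sum_le_tsum F fun k _ => wt_pow_mul_nonneg m _ k).trans (hR n).2
    have hM : Mem m (c t) := summable_of_sum_le (wt_pow_mul_nonneg m _) hfin
    exact ⟨hM, hM.tsum_le_of_sum_le hfin⟩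
  have hball : ∀ t ∈ Set.Icc (0 : ℝ) t0, c t ∈ Ball := by
    intro t ht
    obtain ⟨h1, h2⟩ := hlim t ht 2 1 fun n => ⟨(hmem t ht n).1, (hmem t ht n).2.1⟩
    refine ⟨h1, h2, fun k => ?_⟩
    refine tendsto_nhds_unique (hc t ht (-k)) ?_
    have := (continuous_conj.tendsto _).comp (hc t ht k)
    refine this.congr fun n => ?_
    exact ((hmem t ht n).2.2 k).symm
  have hhigh : ∀ t ∈ Set.Icc (0 : ℝ) t0, ∀ j : ℕ, ∃ R, ∀ n,
      Mem (j + 1) (iterC η1 η2 cu t n) ∧ nrm (j + 1) (iterC η1 η2 cu t n) ≤ R := by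
    intro t ht j
    induction j with
    | zero =>
      exact ⟨1, fun n => ⟨(hmem t ht n).1.mono one_le_two,
        (nrm_mono one_le_two (hmem t ht n).1).trans (hmem t ht n).2.1⟩⟩
    | succ j ih =>
      obtain ⟨R, hR⟩ := ih
      obtain ⟨D, hD⟩ := hC j R
      refine ⟨2 * (t * (K * |D|)), fun n => ?_⟩
      induction n with
      | zero =>
        refine ⟨mem_zero' _, ?_⟩
        rw [show iterC η1 η2 cu t 0 = 0 from rfl, nrm_zero]
        exact mul_nonneg two_pos.le (mul_nonneg ht.1 (mul_nonneg hK0 (abs_nonneg D)))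
      | succ n ihn =>
        obtain ⟨hm, hn⟩ := hD _ (hmem t ht n) ihn.1 (hR n).2
        have h := linv_bound hK hK0 (hm.smul (t : ℂ))
        refine ⟨h.1, h.2.trans ?_⟩
        rw [nrm_smul, hnt t ht]
        have h' : nrm (j + 1 + 1) (iterC η1 η2 cu t n) ≤ 2 * (t * (K * |D|)) := ihn.2
        calc K * (t * nrm j (T (iterC η1 η2 cu t n)))
            ≤ K * (t * (C * nrm (j + 2) (iterC η1 η2 cu t n) + |D|)) :=
              mul_le_mul_of_nonneg_left (mul_le_mul_of_nonneg_left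
                (hn.trans (by linarith [le_abs_self D])) ht.1) hK0
          _ = t * (K * C) * nrm (j + 1 + 1) (iterC η1 η2 cu t n) + t * (K * |D|) := by ring
          _ ≤ 1 / 2 * (2 * (t * (K * |D|))) + t * (K * |D|) := by
              refine add_le_add (mul_le_mul (hkey t ht).2.2 h' (nrm_nonneg _ _) (by norm_num)) le_rfl
          _ = 2 * (t * (K * |D|)) := by ring
  have hall : ∀ t ∈ Set.Icc (0 : ℝ) t0, ∀ m, Mem m (c t) := by
    intro t ht m
    obtain ⟨R, hR⟩ := hhigh t ht m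
    exact (hlim t ht (m + 1) R hR).1.mono (Nat.le_succ m)
  have hconv : ∀ t ∈ Set.Icc (0 : ℝ) t0, ∀ n,
      nrm 2 (iterC η1 η2 cu t n - c t) ≤ 2 * (1 / 2) ^ n := by
    intro t ht n
    have hd : ∀ j, Mem 2 (iterC η1 η2 cu t n - iterC η1 η2 cu t (n + j)) ∧
        nrm 2 (iterC η1 η2 cu t n - iterC η1 η2 cu t (n + j)) ≤
          2 * (1 / 2) ^ n - 2 * (1 / 2) ^ (n + j) := by
      intro j
      induction j with
      | zero => simp [mem_zero', nrm_zero]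
      | succ j ihj =>
        have h1 : Mem 2 (iterC η1 η2 cu t (n + j) - iterC η1 η2 cu t (n + j + 1)) :=
          (hmem t ht _).1.sub (hmem t ht _).1
        have e : iterC η1 η2 cu t n - iterC η1 η2 cu t (n + (j + 1))
            = (iterC η1 η2 cu t n - iterC η1 η2 cu t (n + j)) +
              (iterC η1 η2 cu t (n + j) - iterC η1 η2 cu t (n + j + 1)) := by
          rw [← add_assoc]; abel
        rw [e]
        refine ⟨ihj.1.add h1, (nrm_add_le ihj.1 h1).trans ?_⟩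
        have := hgeo t ht (n + j)
        rw [← nrm_neg, neg_sub] at this
        rw [← add_assoc, pow_succ]
        linarith [ihj.2]
    have hM := (hmem t ht n).1.sub (hball t ht).1
    refine hM.tsum_le_of_sum_le fun F => ?_
    refine le_of_tendsto (tendsto_finsetSum F fun k _ =>
      ((((tendsto_const_nhds (x := iterC η1 η2 cu t n k)).sub (hc t ht k)).norm).const_mul
        (wt k ^ 2))) (Filter.eventually_atTop.2 ⟨n, fun i hi => ?_⟩)
    obtain ⟨j, rfl⟩ := Nat.exists_eq_add_of_le hi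
    refine ((hd j).1.sum_le_tsum F fun k _ => wt_pow_mul_nonneg 2 _ k).trans ?_
    refine (hd j).2.trans ?_
    have : (0 : ℝ) ≤ 2 * (1 / 2) ^ (n + j) := by positivity
    linarith
  have hfix : ∀ t ∈ Set.Icc (0 : ℝ) t0, c t = linv η1 η2 ((t : ℂ) • T (c t)) := by
    intro t ht
    funext k
    refine tendsto_nhds_unique ((hc t ht k).comp (Filter.tendsto_add_atTop_nat 1)) ?_
    rw [tendsto_iff_norm_sub_tendsto_zero]
    have hz : Filter.Tendsto (fun n => (1 / 2 : ℝ) ^ n) Filter.atTop (nhds 0) :=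
      tendsto_pow_atTop_nhds_zero_of_lt_one (by norm_num) (by norm_num)
    refine squeeze_zero (fun n => norm_nonneg _) (fun n => ?_) hz
    have hm := (hstep t ht _ (hmem t ht n)).1.sub (hstep t ht _ (hball t ht)).1
    refine le_trans (le_trans ?_ (hm.le_tsum k fun j _ => wt_pow_mul_nonneg 2 _ j))
      ((hlip t ht _ (hmem t ht n) _ (hball t ht)).trans
        (le_trans (mul_le_mul_of_nonneg_left (hconv t ht n) (by norm_num)) (le_of_eq (by ring))))
    exact le_mul_of_one_le_left (norm_nonneg _) (one_le_pow₀ (one_le_wt k))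
  refine ⟨t0, c, 2 * (K * B), htp, by positivity,
    fun t ht => ⟨hball t ht, hall t ht, hfix t ht⟩, fun s hs t ht => ?_⟩
  have hes : c s - c t = linv η1 η2 (((s : ℂ) - (t : ℂ)) • T (c s)) +
      (linv η1 η2 ((t : ℂ) • T (c s)) - linv η1 η2 ((t : ℂ) • T (c t))) := by
    rw [linv_smul, linv_smul, linv_smul]
    conv_lhs => rw [hfix s hs, hfix t ht, linv_smul, linv_smul]
    rw [sub_smul]; abel
  have h1 := linv_bound hK hK0 ((hB _ (hball s hs)).1.smul ((s : ℂ) - (t : ℂ)))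
  have h2 := hlip t ht _ (hball s hs) _ (hball t ht)
  have h3 : nrm 2 (c s - c t) ≤ nrm 2 (linv η1 η2 (((s : ℂ) - (t : ℂ)) • T (c s))) +
      nrm 2 (linv η1 η2 ((t : ℂ) • T (c s)) - linv η1 η2 ((t : ℂ) • T (c t))) := by
    conv_lhs => rw [hes]
    exact nrm_add_le h1.1 ((hstep t ht _ (hball s hs)).1.sub (hstep t ht _ (hball t ht)).1)
  have h4 : nrm 2 (linv η1 η2 (((s : ℂ) - (t : ℂ)) • T (c s))) ≤ K * (|s - t| * B) := by
    refine h1.2.trans ?_
    rw [nrm_smul, ← Complex.ofReal_sub, norm_real, Real.norm_eq_abs]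
    exact mul_le_mul_of_nonneg_left
      (mul_le_mul_of_nonneg_left (hB _ (hball s hs)).2 (abs_nonneg _)) hK0
  linarith

end Vale.Agent.P205.Full
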