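import Vale.Agent.P205.Full.Defs

/-!
Weighted absolutely summable trigonometric series.
-/

open scoped ContDiff
open Complex

namespace Vale.Agent.P205.Full

theorem one_le_wt (k : Z2) : 1 ≤ wt k := by
  have h1 := abs_nonneg (k.1 : ℝ)
  have h2 := abs_nonneg (k.2 : ℝ)
  unfold wt; linarith

theorem wt_nonneg (k : Z2) : 0 ≤ wt k := zero_le_one.trans (one_le_wt k)

theorem wt_pos (k : Z2) : 0 < wt k := zero_lt_one.trans_le (one_le_wt k)

theorem wt_neg (k : Z2) : wt (-k) = wt k := by simp [wt]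

theorem wt_add_le_add (k l : Z2) : wt (k + l) ≤ wt k + wt l := by
  have h1 := abs_add_le (k.1 : ℝ) (l.1 : ℝ)
  have h2 := abs_add_le (k.2 : ℝ) (l.2 : ℝ)
  simp only [wt, Prod.fst_add, Prod.snd_add, Int.cast_add]
  linarith

theorem wt_add_le (k l : Z2) : wt (k + l) ≤ wt k * wt l := by
  have h1 := abs_add_le (k.1 : ℝ) (l.1 : ℝ)
  have h2 := abs_add_le (k.2 : ℝ) (l.2 : ℝ)
  have h3 := abs_nonneg (k.1 : ℝ)
  have h4 := abs_nonneg (k.2 : ℝ)
  have h5 := abs_nonneg (l.1 : ℝ)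
  have h6 := abs_nonneg (l.2 : ℝ)
  simp only [wt, Prod.fst_add, Prod.snd_add, Int.cast_add]
  nlinarith

theorem wt_pow_mul_nonneg (m : ℕ) (c : Coef) (k : Z2) : 0 ≤ wt k ^ m * ‖c k‖ :=
  mul_nonneg (pow_nonneg (wt_nonneg k) m) (norm_nonneg _)

theorem nrm_nonneg (m : ℕ) (c : Coef) : 0 ≤ nrm m c :=
  tsum_nonneg (wt_pow_mul_nonneg m c)

theorem Mem.mono {m n : ℕ} (h : m ≤ n) {c : Coef} (hc : Mem n c) : Mem m c :=
  Summable.of_nonneg_of_le (wt_pow_mul_nonneg m c)
    (fun k => mul_le_mul_of_nonneg_right (pow_le_pow_right₀ (one_le_wt k) h) (norm_nonneg _)) hc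

theorem nrm_mono {m n : ℕ} (h : m ≤ n) {c : Coef} (hc : Mem n c) : nrm m c ≤ nrm n c :=
  (hc.mono h).tsum_le_tsum
    (fun k => mul_le_mul_of_nonneg_right (pow_le_pow_right₀ (one_le_wt k) h) (norm_nonneg _)) hc

theorem Mem.summable_norm {m : ℕ} {c : Coef} (hc : Mem m c) : Summable fun k => ‖c k‖ := by
  simpa [Mem] using hc.mono (Nat.zero_le m)

theorem nrm_zero_eq (c : Coef) : nrm 0 c = ∑' k, ‖c k‖ := by simp [nrm]

theorem mem_zero_iff (c : Coef) : Mem 0 c ↔ Summable fun k => ‖c k‖ := by simp [Mem]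

theorem Mem.add {m : ℕ} {c d : Coef} (hc : Mem m c) (hd : Mem m d) : Mem m (c + d) := by
  refine Summable.of_nonneg_of_le (wt_pow_mul_nonneg m (c + d)) (fun k => ?_) (Summable.add hc hd)
  rw [← mul_add]
  exact mul_le_mul_of_nonneg_left (norm_add_le _ _) (pow_nonneg (wt_nonneg k) m)

theorem nrm_add_le {m : ℕ} {c d : Coef} (hc : Mem m c) (hd : Mem m d) :
    nrm m (c + d) ≤ nrm m c + nrm m d := by
  rw [nrm, nrm, nrm, ← Summable.tsum_add hc hd]
  refine (hc.add hd).tsum_le_tsum (fun k => ?_) (Summable.add hc hd)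
  rw [← mul_add]
  exact mul_le_mul_of_nonneg_left (norm_add_le _ _) (pow_nonneg (wt_nonneg k) m)

theorem Mem.smul {m : ℕ} (a : ℂ) {c : Coef} (hc : Mem m c) : Mem m (a • c) := by
  refine (Summable.mul_left ‖a‖ hc).congr fun k => ?_
  simp only [Pi.smul_apply, smul_eq_mul, norm_mul]
  ring

theorem nrm_smul {m : ℕ} (a : ℂ) (c : Coef) : nrm m (a • c) = ‖a‖ * nrm m c := by
  rw [nrm, nrm, ← tsum_mul_left]
  refine tsum_congr fun k => ?_
  simp only [Pi.smul_apply, smul_eq_mul, norm_mul]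
  ring

theorem Mem.neg {m : ℕ} {c : Coef} (hc : Mem m c) : Mem m (-c) := by
  simpa [Mem] using hc

theorem nrm_neg {m : ℕ} (c : Coef) : nrm m (-c) = nrm m c := by simp [nrm]

theorem Mem.sub {m : ℕ} {c d : Coef} (hc : Mem m c) (hd : Mem m d) : Mem m (c - d) := by
  simpa [sub_eq_add_neg] using hc.add hd.neg

theorem mem_zero' (m : ℕ) : Mem m (0 : Coef) := by simp [Mem, summable_zero]

theorem nrm_zero (m : ℕ) : nrm m (0 : Coef) = 0 := by simp [nrm]

theorem norm_ch (k : Z2) (x : Pl) : ‖ch k x‖ = 1 := norm_exp_ofReal_mul_I _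

theorem summable_ev {c : Coef} (hc : Mem 0 c) (x : Pl) : Summable fun k => c k * ch k x :=
  Summable.of_norm (hc.summable_norm.congr fun k => by rw [norm_mul, norm_ch, mul_one])

theorem norm_ev_le {c : Coef} (hc : Mem 0 c) (x : Pl) : ‖ev c x‖ ≤ nrm 0 c := by
  have h : Summable fun k => ‖c k * ch k x‖ :=
    hc.summable_norm.congr fun k => by rw [norm_mul, norm_ch, mul_one]
  refine (norm_tsum_le_tsum_norm h).trans_eq ?_
  rw [nrm_zero_eq]
  exact tsum_congr fun k => by rw [norm_mul, norm_ch, mul_one]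

theorem continuous_ch (k : Z2) : Continuous (ch k) := by unfold ch; fun_prop

theorem continuous_ev {c : Coef} (hc : Mem 0 c) : Continuous (ev c) :=
  continuous_tsum (fun k => continuous_const.mul (continuous_ch k)) hc.summable_norm
    (fun k x => by rw [norm_mul, norm_ch, mul_one])

theorem ch_add (k : Z2) (x y : Pl) : ch k (x + y) = ch k x * ch k y := by
  rw [ch, ch, ch, ← exp_add]
  congr 1
  push_cast [Prod.fst_add, Prod.snd_add]
  ring

theorem ch_mul (k l : Z2) (x : Pl) : ch (k + l) x = ch k x * ch l x := by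
  rw [ch, ch, ch, ← exp_add]
  congr 1
  push_cast [Prod.fst_add, Prod.snd_add]
  ring

theorem ch_int (k : Z2) (a b : ℤ) : ch k ((a : ℝ), (b : ℝ)) = 1 := by
  rw [ch, ← exp_int_mul_two_pi_mul_I (k.1 * a + k.2 * b)]
  congr 1
  push_cast
  ring

theorem isPer_ev (c : Coef) : IsPer (ev c) := by
  refine ⟨fun x => tsum_congr fun k => ?_, fun x => tsum_congr fun k => ?_⟩
  · have := ch_int k 1 0
    simp only [Int.cast_one, Int.cast_zero] at this
    rw [e1, ch_add, this, mul_one]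
  · have := ch_int k 0 1
    simp only [Int.cast_one, Int.cast_zero] at this
    rw [e2, ch_add, this, mul_one]

theorem ev_add {c d : Coef} (hc : Mem 0 c) (hd : Mem 0 d) (x : Pl) :
    ev (c + d) x = ev c x + ev d x := by
  rw [ev, ev, ev, ← Summable.tsum_add (summable_ev hc x) (summable_ev hd x)]
  exact tsum_congr fun k => add_mul _ _ _

theorem ev_smul (a : ℂ) (c : Coef) (x : Pl) : ev (a • c) x = a * ev c x := by
  rw [ev, ev, ← tsum_mul_left]
  exact tsum_congr fun k => by simp only [Pi.smul_apply, smul_eq_mul]; ring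

theorem ev_neg (c : Coef) (x : Pl) : ev (-c) x = -ev c x := by
  rw [ev, ev, ← tsum_neg]
  exact tsum_congr fun k => by simp

theorem ev_sub {c d : Coef} (hc : Mem 0 c) (hd : Mem 0 d) (x : Pl) :
    ev (c - d) x = ev c x - ev d x := by
  rw [sub_eq_add_neg, ev_add hc hd.neg, ev_neg, sub_eq_add_neg]

/-- Change of variables `(l, j) ↦ (l + j, l)`. -/
def shear : Z2 × Z2 ≃ Z2 × Z2 where
  toFun p := (p.1 + p.2, p.1)
  invFun p := (p.2, p.1 - p.2)
  left_inv p := by simp
  right_inv p := by simp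

theorem summable_shear {f : Z2 → Z2 → ℂ}
    (h : Summable fun p : Z2 × Z2 => f p.1 p.2) :
    Summable fun p : Z2 × Z2 => f p.2 (p.1 - p.2) :=
  (shear.symm.summable_iff (f := fun p : Z2 × Z2 => f p.1 p.2)).2 h

theorem summable_shear_real {f : Z2 → Z2 → ℝ}
    (h : Summable fun p : Z2 × Z2 => f p.1 p.2) :
    Summable fun p : Z2 × Z2 => f p.2 (p.1 - p.2) :=
  (shear.symm.summable_iff (f := fun p : Z2 × Z2 => f p.1 p.2)).2 h

/-- A general bound for the weighted sum of a convolution. -/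
theorem conv_bound {c d : Coef} (g : Z2 → ℝ) (G : Z2 → Z2 → ℝ) (hg : ∀ k, 0 ≤ g k)
    (hle : ∀ l j, g (l + j) ≤ G l j)
    (hc : Mem 0 c) (hd : Mem 0 d)
    (hG : Summable fun p : Z2 × Z2 => G p.1 p.2 * (‖c p.1‖ * ‖d p.2‖)) :
    Summable (fun k => g k * ‖conv c d k‖) ∧
      ∑' k, g k * ‖conv c d k‖ ≤ ∑' p : Z2 × Z2, G p.1 p.2 * (‖c p.1‖ * ‖d p.2‖) := by
  have hN : Summable fun p : Z2 × Z2 => ‖c p.2‖ * ‖d (p.1 - p.2)‖ :=
    summable_shear_real (f := fun l j => ‖c l‖ * ‖d j‖)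
      (Summable.mul_of_nonneg hc.summable_norm hd.summable_norm
        (fun _ => norm_nonneg _) (fun _ => norm_nonneg _))
  have hS : Summable fun p : Z2 × Z2 => G p.2 (p.1 - p.2) * (‖c p.2‖ * ‖d (p.1 - p.2)‖) :=
    summable_shear_real (f := fun l j => G l j * (‖c l‖ * ‖d j‖)) hG
  have hb : ∀ k, g k * ‖conv c d k‖ ≤ ∑' l, G l (k - l) * (‖c l‖ * ‖d (k - l)‖) := by
    intro k
    have h1 : Summable fun l => ‖c l * d (k - l)‖ :=
      (hN.prod_factor k).congr fun l => (norm_mul _ _).symm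
    refine (mul_le_mul_of_nonneg_left (norm_tsum_le_tsum_norm h1) (hg k)).trans ?_
    rw [← tsum_mul_left]
    refine (h1.mul_left (g k)).tsum_le_tsum (fun l => ?_) (hS.prod_factor k)
    rw [norm_mul]
    refine mul_le_mul_of_nonneg_right ?_ (mul_nonneg (norm_nonneg _) (norm_nonneg _))
    simpa using hle l (k - l)
  have hF : Summable fun k => ∑' l, G l (k - l) * (‖c l‖ * ‖d (k - l)‖) := hS.prod
  have h0 : Summable fun k => g k * ‖conv c d k‖ :=
    Summable.of_nonneg_of_le (fun k => mul_nonneg (hg k) (norm_nonneg _)) hb hF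
  refine ⟨h0, (h0.tsum_le_tsum hb hF).trans_eq ?_⟩
  rw [← hS.tsum_prod]
  exact shear.symm.tsum_eq (fun p : Z2 × Z2 => G p.1 p.2 * (‖c p.1‖ * ‖d p.2‖))

theorem conv_bound_alg {m : ℕ} {c d : Coef} (hc : Mem m c) (hd : Mem m d) :
    Mem m (conv c d) ∧ nrm m (conv c d) ≤ nrm m c * nrm m d := by
  have hp : Summable fun p : Z2 × Z2 => (wt p.1 ^ m * ‖c p.1‖) * (wt p.2 ^ m * ‖d p.2‖) :=
    Summable.mul_of_nonneg hc hd (wt_pow_mul_nonneg m c) (wt_pow_mul_nonneg m d)
  have h := conv_bound (c := c) (d := d) (fun k => wt k ^ m) (fun l j => wt l ^ m * wt j ^ m)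
    (fun k => pow_nonneg (wt_nonneg k) m)
    (fun l j => by
      rw [← mul_pow]; exact pow_le_pow_left₀ (wt_nonneg _) (wt_add_le l j) m)
    (hc.mono (Nat.zero_le m)) (hd.mono (Nat.zero_le m)) (hp.congr fun p => by ring)
  refine ⟨h.1, h.2.trans_eq ?_⟩
  rw [nrm, nrm, Summable.tsum_mul_tsum hc hd hp]
  exact tsum_congr fun p => by ring

theorem Mem.conv {m : ℕ} {c d : Coef} (hc : Mem m c) (hd : Mem m d) : Mem m (conv c d) :=
  (conv_bound_alg hc hd).1

theorem nrm_conv_le {m : ℕ} {c d : Coef} (hc : Mem m c) (hd : Mem m d) :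
    nrm m (conv c d) ≤ nrm m c * nrm m d :=
  (conv_bound_alg hc hd).2

theorem pow_add_tame {A B : ℝ} (hA : 1 ≤ A) (hB : 1 ≤ B) (n : ℕ) :
    (A + B) ^ (n + 1) ≤
      A ^ (n + 1) + B ^ (n + 1) + (2 ^ (n + 1) - 1) * (A ^ n * B + A * B ^ n) := by
  induction n with
  | zero => norm_num; linarith
  | succ n ih =>
    have hA0 : 0 ≤ A := by linarith
    have hB0 : 0 ≤ B := by linarith
    cases n with
    | zero =>
      norm_num
      nlinarith [mul_nonneg hA0 hB0]
    | succ j =>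
    have hpn : (0 : ℝ) ≤ 2 ^ (j + 1 + 1) - 1 := by
      have : (1 : ℝ) ≤ 2 ^ (j + 1 + 1) := one_le_pow₀ (by norm_num)
      linarith
    have key : A ^ (j + 1) * B ^ 2 + A ^ 2 * B ^ (j + 1) ≤
        A ^ (j + 1 + 1) * B + A * B ^ (j + 1 + 1) := by
      have : 0 ≤ (A - B) * (A ^ j - B ^ j) := by
        rcases le_total A B with h | h
        · exact mul_nonneg_of_nonpos_of_nonpos (by linarith)
            (by linarith [pow_le_pow_left₀ hA0 h j])
        · exact mul_nonneg (by linarith) (by linarith [pow_le_pow_left₀ hB0 h j])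
      have := mul_nonneg (mul_nonneg hA0 hB0) this
      ring_nf at this ⊢
      linarith
    calc (A + B) ^ (j + 1 + 1 + 1) = (A + B) ^ (j + 1 + 1) * (A + B) := pow_succ _ _
      _ ≤ (A ^ (j + 1 + 1) + B ^ (j + 1 + 1) + (2 ^ (j + 1 + 1) - 1) *
            (A ^ (j + 1) * B + A * B ^ (j + 1))) * (A + B) :=
          mul_le_mul_of_nonneg_right ih (by linarith)
      _ ≤ _ := by
          have := mul_le_mul_of_nonneg_left key hpn
          ring_nf at this ⊢
          linarith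

/-- The tame product bound. -/
theorem nrm_conv_tame {m : ℕ} {c d : Coef} (hc : Mem (m + 1) c) (hd : Mem (m + 1) d) :
    nrm (m + 1) (conv c d) ≤ nrm (m + 1) c * nrm 0 d + nrm 0 c * nrm (m + 1) d +
      2 ^ (m + 1) * (nrm m c * nrm 1 d + nrm 1 c * nrm m d) := by
  have hc0 := hc.mono (Nat.zero_le _)
  have hd0 := hd.mono (Nat.zero_le _)
  have hc1 : Mem 1 c := hc.mono (by omega)
  have hd1 : Mem 1 d := hd.mono (by omega)
  have hcm : Mem m c := hc.mono (by omega)
  have hdm : Mem m d := hd.mono (by omega)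
  have pr : ∀ {i j : ℕ}, Mem i c → Mem j d →
      HasSum (fun p : Z2 × Z2 => (wt p.1 ^ i * ‖c p.1‖) * (wt p.2 ^ j * ‖d p.2‖))
        (nrm i c * nrm j d) := by
    intro i j hi hj
    have hsm : Summable fun p : Z2 × Z2 =>
        (wt p.1 ^ i * ‖c p.1‖) * (wt p.2 ^ j * ‖d p.2‖) :=
      Summable.mul_of_nonneg hi hj (wt_pow_mul_nonneg i c) (wt_pow_mul_nonneg j d)
    have he : nrm i c * nrm j d = ∑' p : Z2 × Z2,
        (wt p.1 ^ i * ‖c p.1‖) * (wt p.2 ^ j * ‖d p.2‖) := Summable.tsum_mul_tsum hi hj hsm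
    rw [he]
    exact hsm.hasSum
  have hs := ((pr hc hd0).add (pr hc0 hd)).add
    (((pr hcm hd1).add (pr hc1 hdm)).mul_left ((2 : ℝ) ^ (m + 1)))
  set G : Z2 → Z2 → ℝ := fun l j => wt l ^ (m + 1) + wt j ^ (m + 1) +
    2 ^ (m + 1) * (wt l ^ m * wt j + wt l * wt j ^ m) with hG
  have hs' : HasSum (fun p : Z2 × Z2 => G p.1 p.2 * (‖c p.1‖ * ‖d p.2‖))
      (nrm (m + 1) c * nrm 0 d + nrm 0 c * nrm (m + 1) d +
        2 ^ (m + 1) * (nrm m c * nrm 1 d + nrm 1 c * nrm m d)) := by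
    refine hs.congr_fun fun p => ?_
    simp only [hG, pow_zero, pow_one]
    ring
  have h := conv_bound (c := c) (d := d) (fun k => wt k ^ (m + 1)) G
    (fun k => pow_nonneg (wt_nonneg k) _)
    (fun l j => by
      refine (pow_le_pow_left₀ (wt_nonneg _) (wt_add_le_add l j) _).trans
        ((pow_add_tame (one_le_wt l) (one_le_wt j) m).trans ?_)
      have h2 : 0 ≤ wt l ^ m * wt j + wt l * wt j ^ m :=
        add_nonneg (mul_nonneg (pow_nonneg (wt_nonneg l) m) (wt_nonneg j))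
          (mul_nonneg (wt_nonneg l) (pow_nonneg (wt_nonneg j) m))
      simp only [hG]
      nlinarith)
    hc0 hd0 hs'.summable
  exact h.2.trans_eq hs'.tsum_eq

theorem ev_conv {c d : Coef} (hc : Mem 0 c) (hd : Mem 0 d) (x : Pl) :
    ev (conv c d) x = ev c x * ev d x := by
  have h1 : Summable fun k => ‖c k * ch k x‖ :=
    hc.summable_norm.congr fun k => by rw [norm_mul, norm_ch, mul_one]
  have h2 : Summable fun k => ‖d k * ch k x‖ :=
    hd.summable_norm.congr fun k => by rw [norm_mul, norm_ch, mul_one]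
  have hp := summable_mul_of_summable_norm h1 h2
  have hS : Summable fun p : Z2 × Z2 => (c p.2 * ch p.2 x) * (d (p.1 - p.2) * ch (p.1 - p.2) x) :=
    summable_shear (f := fun l j => (c l * ch l x) * (d j * ch j x)) hp
  calc ev (conv c d) x
      = ∑' k, ∑' l, (c l * ch l x) * (d (k - l) * ch (k - l) x) := by
        refine tsum_congr fun k => ?_
        rw [conv, ← tsum_mul_right]
        refine tsum_congr fun l => ?_
        have : ch k x = ch l x * ch (k - l) x := by rw [← ch_mul, add_sub_cancel]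
        rw [this]; ring
    _ = ∑' p : Z2 × Z2, (c p.1 * ch p.1 x) * (d p.2 * ch p.2 x) := by
        rw [← hS.tsum_prod]
        exact shear.symm.tsum_eq (fun p : Z2 × Z2 => (c p.1 * ch p.1 x) * (d p.2 * ch p.2 x))
    _ = ev c x * ev d x := (tsum_mul_tsum_of_summable_norm h1 h2).symm

theorem norm_dsym_le (η : Pl) (k : Z2) :
    ‖dsym η k‖ ≤ 2 * Real.pi * (|η.1| + |η.2|) * wt k := by
  have hd : ‖dsym η k‖ = 2 * Real.pi * |(k.1 : ℝ) * η.1 + (k.2 : ℝ) * η.2| := by
    rw [dsym, norm_mul, norm_I, mul_one, norm_real, Real.norm_eq_abs, abs_mul,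
      abs_of_pos (by positivity : (0 : ℝ) < 2 * Real.pi)]
  rw [hd, mul_assoc (2 * Real.pi)]
  refine mul_le_mul_of_nonneg_left ?_ (by positivity)
  refine (abs_add_le _ _).trans ?_
  rw [abs_mul, abs_mul, wt]
  nlinarith [abs_nonneg (k.1 : ℝ), abs_nonneg (k.2 : ℝ), abs_nonneg η.1, abs_nonneg η.2]

theorem dC_bound {m : ℕ} (η : Pl) {c : Coef} (hc : Mem (m + 1) c) :
    Mem m (dC η c) ∧ nrm m (dC η c) ≤ 2 * Real.pi * (|η.1| + |η.2|) * nrm (m + 1) c := by
  have hb : ∀ k, wt k ^ m * ‖dC η c k‖ ≤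
      2 * Real.pi * (|η.1| + |η.2|) * (wt k ^ (m + 1) * ‖c k‖) := by
    intro k
    rw [dC, norm_mul]
    refine (mul_le_mul_of_nonneg_left (mul_le_mul_of_nonneg_right (norm_dsym_le η k)
      (norm_nonneg _)) (pow_nonneg (wt_nonneg k) m)).trans_eq ?_
    ring
  have h0 : Mem m (dC η c) :=
    Summable.of_nonneg_of_le (wt_pow_mul_nonneg m _) hb (Summable.mul_left _ hc)
  refine ⟨h0, ?_⟩
  rw [nrm, nrm, ← tsum_mul_left]
  exact h0.tsum_le_tsum hb (Summable.mul_left _ hc)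

theorem Mem.dC {m : ℕ} (η : Pl) {c : Coef} (hc : Mem (m + 1) c) : Mem m (dC η c) :=
  (dC_bound η hc).1

theorem nrm_dC_le {m : ℕ} (η : Pl) {c : Coef} (hc : Mem (m + 1) c) :
    nrm m (dC η c) ≤ 2 * Real.pi * (|η.1| + |η.2|) * nrm (m + 1) c :=
  (dC_bound η hc).2

/-- The real linear form giving the derivative of a character. -/
noncomputable def lf (k : Z2) : Pl →L[ℝ] ℝ :=
  (2 * Real.pi * (k.1 : ℝ)) • ContinuousLinearMap.fst ℝ ℝ ℝ +
    (2 * Real.pi * (k.2 : ℝ)) • ContinuousLinearMap.snd ℝ ℝ ℝ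

theorem hasFDerivAt_ch (k : Z2) (x : Pl) :
    HasFDerivAt (ch k) ((ch k x * I) • (Complex.ofRealCLM.comp (lf k))) x := by
  have h := ((Complex.ofRealCLM.comp (lf k)).hasFDerivAt (x := x)).mul_const' I
  have hf : ch k = fun y => exp ((Complex.ofRealCLM.comp (lf k)) y * I) := by
    funext y
    rw [ch]
    congr 3
    simp [lf]; ring
  rw [hf]
  refine h.cexp.congr_fderiv ?_
  ext η <;> simp <;> ring

theorem fderiv_ch (k : Z2) (x η : Pl) :
    ((ch k x * I) • (Complex.ofRealCLM.comp (lf k))) η = dsym η k * ch k x := by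
  simp [lf, dsym]; ring

theorem norm_lf_le (k : Z2) (x : Pl) :
    ‖(ch k x * I) • (Complex.ofRealCLM.comp (lf k))‖ ≤ 4 * Real.pi * wt k := by
  rw [norm_smul, norm_mul, norm_ch, norm_I, one_mul, one_mul]
  refine ContinuousLinearMap.opNorm_le_bound _ (by positivity [wt_nonneg k]) fun η => ?_
  have h1 : |η.1| ≤ ‖η‖ := le_max_left _ _
  have h2 : |η.2| ≤ ‖η‖ := le_max_right _ _
  have h3 := norm_dsym_le η k
  have h4 : ‖(Complex.ofRealCLM.comp (lf k)) η‖ = ‖dsym η k‖ := by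
    simp [lf, dsym, mul_add, mul_assoc]
  rw [h4]
  refine h3.trans ?_
  have hw := wt_nonneg k
  have hpi := Real.pi_pos
  nlinarith [mul_le_mul_of_nonneg_right (add_le_add h1 h2) (mul_nonneg hpi.le hw)]

theorem hasFDerivAt_ev' {c : Coef} (hc : Mem 1 c) (x : Pl) :
    HasFDerivAt (ev c)
      (∑' k, c k • ((ch k x * I) • (Complex.ofRealCLM.comp (lf k)))) x := by
  have hu : Summable fun k => 4 * Real.pi * (wt k ^ 1 * ‖c k‖) := Summable.mul_left _ hc
  have hg : ∀ k y, HasFDerivAt (fun y => c k * ch k y)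
      (c k • ((ch k y * I) • (Complex.ofRealCLM.comp (lf k)))) y :=
    fun k y => (hasFDerivAt_ch k y).const_mul (c k)
  have hb : ∀ k y, ‖c k • ((ch k y * I) • (Complex.ofRealCLM.comp (lf k)))‖ ≤
      4 * Real.pi * (wt k ^ 1 * ‖c k‖) := by
    intro k y
    rw [norm_smul, pow_one]
    refine (mul_le_mul_of_nonneg_left (norm_lf_le k y) (norm_nonneg _)).trans_eq ?_
    ring
  exact hasFDerivAt_tsum hu hg hb (summable_ev (hc.mono zero_le_one) x) x

theorem hasFDerivAt_ev {c : Coef} (hc : Mem 1 c) (x η : Pl) :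
    fderiv ℝ (ev c) x η = ev (dC η c) x := by
  rw [(hasFDerivAt_ev' hc x).fderiv]
  have hs : Summable fun k => c k • ((ch k x * I) • (Complex.ofRealCLM.comp (lf k))) := by
    refine Summable.of_norm (Summable.of_nonneg_of_le (fun k => norm_nonneg _) (fun k => ?_)
      (Summable.mul_left (4 * Real.pi) hc))
    rw [norm_smul, pow_one]
    refine (mul_le_mul_of_nonneg_left (norm_lf_le k x) (norm_nonneg _)).trans_eq ?_
    ring
  rw [← ContinuousLinearMap.apply_apply (𝕜 := ℝ) η (∑' k, _),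
    ContinuousLinearMap.map_tsum _ hs]
  refine tsum_congr fun k => ?_
  simp only [ContinuousLinearMap.apply_apply, smul_apply, smul_eq_mul]
  have := fderiv_ch k x η
  simp only [smul_apply, smul_eq_mul] at this
  simp only [dC]
  linear_combination (c k) * this

theorem contDiff_ev {c : Coef} (hc : ∀ m, Mem m c) : ContDiff ℝ ∞ (ev c) := by
  refine contDiff_infty.2 fun n => ?_
  induction n generalizing c with
  | zero => exact contDiff_zero.2 (continuous_ev (hc 0))
  | succ n ih =>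
    rw [Nat.cast_succ, contDiff_succ_iff_fderiv_apply]
    refine ⟨fun x => (hasFDerivAt_ev' (hc 1) x).differentiableAt, fun h => (by simp at h),
      fun η => ?_⟩
    have : (fun x => fderiv ℝ (ev c) x η) = ev (dC η c) := funext fun x => hasFDerivAt_ev (hc 1) x η
    rw [this]
    exact ih fun m => (hc (m + 1)).dC η

theorem ev_real {c : Coef} (hc : Sym c) (x : Pl) : (starRingEnd ℂ) (ev c x) = ev c x := by
  rw [ev, Complex.conj_tsum]
  rw [← (Equiv.neg Z2).tsum_eq]
  refine tsum_congr fun k => ?_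
  simp only [Equiv.neg_apply, map_mul, hc k, Complex.conj_conj]
  congr 1
  rw [ch, ch, ← exp_conj]
  congr 1
  simp [Complex.conj_ofReal, map_ofNat]; ring

end Vale.Agent.P205.Full
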